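import Vale.Agent.P076.Statement
attribute [-instance] ProperSMul.toContinuousSMul IsTopologicalTorsor.toContinuousSMul IdemSemiring.toCanonicallyOrderedAdd IdemSemiring.toMulLeftMono IdemSemiring.toMulRightMono AddQuantale.instAddLeftMono AddQuantale.instAddRightMono Quantale.instMulLeftMono Quantale.instMulRightMono FiniteDimensional.rclike_to_real IsScalarTower.complexToReal FiniteDimensional.complexToReal

set_option linter.all false

section

open MeasureTheory Complex FourierTransform Filter Topology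

namespace Vale.Agent.P076

/-- `ℝⁿ` with its Euclidean norm. -/
abbrev E (n : ℕ) := EuclideanSpace ℝ (Fin n)

/-- The critical exponent `s_n = n / (2 (n + 1))`. -/
noncomputable def sCrit (n : ℕ) : ℝ := n / (2 * (n + 1))

/-- The (Plancherel) Fourier transform of `f ∈ L²(ℝⁿ)` in the normalisation
`f̂(ξ) = ∫ e^{-i x·ξ} f(x) dx`; Mathlib's `𝓕` is `∫ e^{-2πi x·η} f(x) dx`. -/
noncomputable def hat {n : ℕ} (f : Lp ℂ 2 (volume : Measure (E n))) (ξ : E n) : ℂ :=
  (𝓕 f : Lp ℂ 2 (volume : Measure (E n))) ((2 * Real.pi)⁻¹ • ξ)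

/-- The Gaussian-regularised evolution
`(2π)⁻ⁿ ∫ e^{i x·ξ - i t |ξ|² - a |ξ|²} f̂(ξ) dξ`. -/
noncomputable def schrReg {n : ℕ} (f : Lp ℂ 2 (volume : Measure (E n))) (t a : ℝ) (x : E n) : ℂ :=
  (((2 * Real.pi) ^ n)⁻¹ : ℝ) *
    ∫ ξ : E n, cexp (I * (inner ℝ x ξ : ℝ) - I * t * (‖ξ‖ ^ 2 : ℝ) - a * (‖ξ‖ ^ 2 : ℝ)) * hat f ξ

/-- `‖P_j f‖₂`, where `P_j` restricts `f̂` to the dyadic shell `2^j ≤ |ξ| < 2^(j+1)`. -/
noncomputable def shellNorm {n : ℕ} (f : Lp ℂ 2 (volume : Measure (E n))) (j : ℕ) : ℝ :=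
  √(((2 * Real.pi) ^ n)⁻¹ * ∫ ξ in {ξ : E n | 2 ^ j ≤ ‖ξ‖ ∧ ‖ξ‖ < 2 ^ (j + 1)}, ‖hat f ξ‖ ^ 2)

/-- The pointwise values `e^{itΔ}f(x) = u t x` (limits of the Gaussian regularisations as `a ↓ 0`)
exist for every `t > 0` and every `x`, and `limsup_{t ↓ 0} |e^{itΔ}f(x)| = ∞` for almost every
`x ∈ ℝⁿ`.  In particular `e^{itΔ}f(x)` has no limit as `t ↓ 0` for almost every `x`. -/
def BlowsUpAE {n : ℕ} (f : Lp ℂ 2 (volume : Measure (E n))) : Prop :=
  ∃ u : ℝ → E n → ℂ,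
    (∀ t > 0, ∀ x, Tendsto (fun a => schrReg f t a x) (𝓝[>] 0) (𝓝 (u t x))) ∧
      ∀ᵐ x : E n, ∀ M : ℝ, ∃ᶠ t in 𝓝[>] (0 : ℝ), M < ‖u t x‖

end Vale.Agent.P076
end

section

open MeasureTheory Complex FourierTransform Filter Topology

namespace Vale.Agent.P076

/-- the (regularised) evolution of frequency-side data `G`, in Mathlib's normalisation:
`evo G x s a = ∫ e^{2πi(x·η - s|η|²) - a|η|²} G(η) dη`.
With `ξ = 2πη`: `schrReg f t a x = evo (𝓕 f) x (2πt) (4π²a)`. -/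
noncomputable def evo {n : ℕ} (G : E n → ℂ) (x : E n) (s a : ℝ) : ℂ :=
  ∫ η : E n, cexp (2 * Real.pi * I * ((inner ℝ x η - s * ‖η‖ ^ 2 : ℝ) : ℂ) - (a * ‖η‖ ^ 2 : ℝ)) * G η

/-- closed cube with lower corner `c` and side `r` -/
def cube {n : ℕ} (c : E n) (r : ℝ) : Set (E n) := {x | ∀ i, c i ≤ x i ∧ x i ≤ c i + r}

/-- What the block construction delivers in dimension `n`, with cost constant `C`. -/
def BlockProperty (n : ℕ) (C : ℝ) : Prop :=
  ∀ (c : E n) (r B s₀ ε : ℝ), 0 < r → 0 < s₀ → 0 < ε → ∃ k₀ : ℕ, ∀ k ≥ k₀,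
    ∃ G : E n → ℂ, ∃ s₁ > 0,
      Measurable G ∧ (∃ b : ℝ, ∀ η, ‖G η‖ ≤ b) ∧
      (∀ η, G η ≠ 0 → 2 ^ k ≤ 2 * Real.pi * ‖η‖ ∧ 2 * Real.pi * ‖η‖ < 2 ^ (k + 1)) ∧
      (∫ η, ‖G η‖ ^ 2 ≤ C * r ^ ((n : ℝ) ^ 2 / (n + 1)) * (2 : ℝ) ^ (-(2 * k * sCrit n))) ∧
      (∀ x ∈ cube c r, ∃ s, s₁ ≤ s ∧ s ≤ ε ∧ 1 ≤ ‖evo G x s 0‖) ∧
      (∀ x : E n, ‖x‖ ≤ B → ∀ s ≥ s₀, ∀ a ≥ 0, ‖evo G x s a‖ ≤ ε)

end Vale.Agent.P076
end

section

open MeasureTheory FourierTransform SchwartzMap TemperedDistribution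
open scoped ContDiff

namespace Vale.Agent.P076

variable {E : Type*} [NormedAddCommGroup E] [InnerProductSpace ℝ E] [FiniteDimensional ℝ E]
  [MeasurableSpace E] [BorelSpace E]

lemma continuous_fourierInv {G : E → ℂ} (h1 : Integrable G) : Continuous (𝓕⁻ G : E → ℂ) := by
  have : (𝓕⁻ G : E → ℂ) = fun w => VectorFourier.fourierIntegral Real.fourierChar volume (-innerₗ E) G w := rfl
  rw [this]
  apply VectorFourier.fourierIntegral_continuous Real.continuous_fourierChar _ h1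
  simp only [LinearMap.neg_apply, innerₗ_apply_apply]
  (clear * -; fun_prop)

lemma integral_fourierInv_mul {φ G : E → ℂ} (hφ : Integrable φ) (h1 : Integrable G) :
    ∫ x, (𝓕⁻ φ : E → ℂ) x • G x = ∫ x, φ x • (𝓕⁻ G : E → ℂ) x := by
  have := VectorFourier.integral_fourierIntegral_smul_eq_flip (L := -innerₗ E)
    (μ := (volume : Measure E)) (ν := (volume : Measure E)) Real.continuous_fourierChar
    (by simp only [LinearMap.neg_apply, innerₗ_apply_apply]; fun_prop) hφ h1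
  have hflip : (-innerₗ E).flip = -innerₗ E := by
    ext x y
    simp only [LinearMap.flip_apply, LinearMap.neg_apply, innerₗ_apply_apply, real_inner_comm]
  rw [hflip] at this
  exact this

lemma fourierInv_L2_ae_eq {G : E → ℂ} (h1 : Integrable G) (h2 : MemLp G 2) :
    (𝓕⁻ (h2.toLp G) : Lp ℂ 2 (volume : Measure E)) =ᵐ[volume] (𝓕⁻ G : E → ℂ) := by
  apply ae_eq_of_integral_contDiff_smul_eq
  · exact (Lp.memLp _).locallyIntegrable (by norm_num)
  · exact (continuous_fourierInv h1).locallyIntegrable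
  · intro g g_smooth g_cpt
    have hg₁ : HasCompactSupport (Complex.ofRealCLM ∘ g) := g_cpt.comp_left rfl
    have hg₂ : ContDiff ℝ ∞ (Complex.ofRealCLM ∘ g) := by (clear * - g_smooth; fun_prop)
    set φ := hg₁.toSchwartzMap hg₂ with hφ
    have e1 : ∫ x, g x • (𝓕⁻ (h2.toLp G) : Lp ℂ 2 (volume : Measure E)) x
        = Lp.toTemperedDistribution (𝓕⁻ (h2.toLp G) : Lp ℂ 2 (volume : Measure E)) φ := by
      rw [Lp.toTemperedDistribution_apply]
      rfl
    rw [e1, ← Lp.fourierInv_toTemperedDistribution_eq, fourierInv_apply,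
      Lp.toTemperedDistribution_apply]
    have e2 : ∫ x, (𝓕⁻ φ : 𝓢(E, ℂ)) x • (h2.toLp G) x = ∫ x, (𝓕⁻ (φ : E → ℂ) : E → ℂ) x • G x := by
      apply integral_congr_ae
      filter_upwards [h2.coeFn_toLp] with x hx
      rw [hx, fourierInv_coe]
    rw [e2, integral_fourierInv_mul φ.integrable h1]
    rfl

end Vale.Agent.P076
end

section

/-!
Superposition of frequency-localised pieces: if `F i` are integrable pieces,
`‖F i‖₂ ≤ δ i` (summable) and the evolutions of `F i` have small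
tails, the evolution of `f = 𝓕⁻ (∑ F i)` is everywhere the sum of the evolutions.
-/

open MeasureTheory Complex FourierTransform Filter Topology
open scoped ENNReal NNReal

namespace Vale.Agent.P076

variable {n : ℕ}

/-- the oscillating factor -/
noncomputable def ph (x : E n) (s a : ℝ) (η : E n) : ℂ :=
  cexp (2 * Real.pi * I * ((inner ℝ x η - s * ‖η‖ ^ 2 : ℝ) : ℂ) - (a * ‖η‖ ^ 2 : ℝ))

lemma evo_eq (G : E n → ℂ) (x : E n) (s a : ℝ) : evo G x s a = ∫ η, ph x s a η * G η := rfl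

lemma norm_ph (x : E n) (s a : ℝ) (η : E n) : ‖ph x s a η‖ = Real.exp (-(a * ‖η‖ ^ 2)) := by
  have h : (2 * Real.pi * I * ((inner ℝ x η - s * ‖η‖ ^ 2 : ℝ) : ℂ) - (a * ‖η‖ ^ 2 : ℝ) : ℂ)
      = ((2 * Real.pi * (inner ℝ x η - s * ‖η‖ ^ 2) : ℝ) : ℂ) * I + ((-(a * ‖η‖ ^ 2) : ℝ) : ℂ) := by
    push_cast; ring
  rw [ph, h, Complex.exp_add, norm_mul, Complex.norm_exp_ofReal_mul_I, one_mul,
    Complex.norm_exp, Complex.ofReal_re]

lemma norm_ph_le (x : E n) (s : ℝ) {a : ℝ} (ha : 0 ≤ a) (η : E n) : ‖ph x s a η‖ ≤ 1 := by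
  rw [norm_ph, Real.exp_le_one_iff]
  have : 0 ≤ a * ‖η‖ ^ 2 := by positivity
  linarith only [this]

lemma continuous_ph (x : E n) (s a : ℝ) : Continuous (ph x s a) := by
  unfold ph
  fun_prop

lemma continuous_ph_a (x : E n) (s : ℝ) (η : E n) : Continuous (fun a => ph x s a η) := by
  unfold ph
  fun_prop

/-- change of variables `ξ = 2πη` -/
lemma schrReg_eq_evo (f : Lp ℂ 2 (volume : Measure (E n))) (t b : ℝ) (x : E n) :
    schrReg f t b x = evo (fun η => (𝓕 f : Lp ℂ 2 (volume : Measure (E n))) η) x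
      (2 * Real.pi * t) (4 * Real.pi ^ 2 * b) := by
  have hpi : (2 * Real.pi) ≠ 0 := by positivity
  set H : E n → ℂ := fun η => ph x (2 * Real.pi * t) (4 * Real.pi ^ 2 * b) η *
    (𝓕 f : Lp ℂ 2 (volume : Measure (E n))) η with hH
  have h1 : ∀ ξ : E n, cexp (I * (inner ℝ x ξ : ℝ) - I * t * (‖ξ‖ ^ 2 : ℝ)
      - b * (‖ξ‖ ^ 2 : ℝ)) * hat f ξ = H ((2 * Real.pi)⁻¹ • ξ) := by
    intro ξ
    simp only [hH, hat, ph]
    congr 2
    rw [inner_smul_right, norm_smul]
    have : ‖(2 * Real.pi)⁻¹‖ = (2 * Real.pi)⁻¹ := by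
      rw [Real.norm_eq_abs, abs_of_pos (by positivity)]
    rw [this]
    push_cast
    have hpc : (2 * (Real.pi : ℂ)) ≠ 0 := by exact_mod_cast hpi
    have hpc' : (Real.pi : ℂ) ≠ 0 := by exact_mod_cast Real.pi_ne_zero
    field_simp
    ring
  rw [schrReg, evo_eq]
  simp_rw [h1]
  rw [Measure.integral_comp_inv_smul_of_nonneg _ _ (by positivity : (0:ℝ) ≤ 2 * Real.pi)]
  rw [finrank_euclideanSpace, Fintype.card_fin, Complex.real_smul, ← mul_assoc,
    ← Complex.ofReal_mul, inv_mul_cancel₀ (by positivity), Complex.ofReal_one, one_mul]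

/-- standing assumptions on the pieces -/
structure Pieces (F : ℕ → E n → ℂ) (δ : ℕ → ℝ) : Prop where
  int : ∀ i, Integrable (F i)
  memLp : ∀ i, MemLp (F i) 2 volume
  sq : ∀ i, ∫ η, ‖F i η‖ ^ 2 ≤ δ i ^ 2
  pos : ∀ i, 0 < δ i
  summable : Summable δ

lemma norm_toLp_le {F : E n → ℂ} (hF : MemLp F 2 volume) {d : ℝ} (hd : 0 ≤ d)
    (h : ∫ η, ‖F η‖ ^ 2 ≤ d ^ 2) : ‖hF.toLp F‖ ≤ d := by
  have h1 : ‖hF.toLp F‖ ^ 2 = ∫ η, ‖F η‖ ^ 2 := by
    have h2 : ‖hF.toLp F‖ ^ 2 = RCLike.re (inner ℂ (hF.toLp F) (hF.toLp F)) := by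
      rw [inner_self_eq_norm_sq]
    rw [h2, L2.inner_def, ← integral_re]
    · apply integral_congr_ae
      filter_upwards [hF.coeFn_toLp] with η hη
      rw [hη, inner_self_eq_norm_sq]
    · exact L2.integrable_inner _ _
  nlinarith only [h, h1, hd]

lemma evo_zero_ae_eq {G : E n → ℂ} (h1 : Integrable G) (h2 : MemLp G 2 volume) :
    (𝓕⁻ (h2.toLp G) : Lp ℂ 2 (volume : Measure (E n))) =ᵐ[volume] fun x => evo G x 0 0 := by
  filter_upwards [fourierInv_L2_ae_eq h1 h2] with x hx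
  rw [hx, Real.fourierInv_eq']
  rw [evo_eq]
  apply integral_congr_ae
  filter_upwards with η
  rw [smul_eq_mul, ph, real_inner_comm]
  congr 2
  push_cast
  ring

lemma exists_f {F : ℕ → E n → ℂ} {δ : ℕ → ℝ} (hP : Pieces F δ) :
    ∃ f : Lp ℂ 2 (volume : Measure (E n)),
      (∀ᵐ η, HasSum (fun i => F i η) ((𝓕 f : Lp ℂ 2 (volume : Measure (E n))) η)) ∧
      (∀ᵐ x, HasSum (fun i => evo (F i) x 0 0) (f x)) := by
  have hnorm : ∀ i, ‖(hP.memLp i).toLp (F i)‖ ≤ δ i := fun i =>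
    norm_toLp_le (hP.memLp i) (hP.pos i).le (hP.sq i)
  have hsum : ∑' i, ‖(hP.memLp i).toLp (F i)‖ₑ ≠ ⊤ := by
    have : Summable fun i => ‖(hP.memLp i).toLp (F i)‖ :=
      Summable.of_nonneg_of_le (fun i => norm_nonneg _) hnorm hP.summable
    simp_rw [← ofReal_norm]
    rw [← ENNReal.ofReal_tsum_of_nonneg (fun i => norm_nonneg _) this]
    exact ENNReal.ofReal_ne_top
  have hsum' : ∑' i, ‖(𝓕⁻ ((hP.memLp i).toLp (F i)) : Lp ℂ 2 (volume : Measure (E n)))‖ₑ ≠ ⊤ := by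
    convert hsum using 3 with i
    have h0 : ‖(𝓕⁻ ((hP.memLp i).toLp (F i)) : Lp ℂ 2 (volume : Measure (E n)))‖
        = ‖(hP.memLp i).toLp (F i)‖ := (Lp.fourierTransformₗᵢ (E n) ℂ).symm.norm_map _
    rw [← ofReal_norm, h0, ofReal_norm]
  refine ⟨𝓕⁻ (∑' i, (hP.memLp i).toLp (F i)), ?_, ?_⟩
  · have h1 := Lp.hasSum_coeFn_tsum hsum
    have h2 : ∀ᵐ η, ∀ i, (hP.memLp i).toLp (F i) η = F i η :=
      ae_all_iff.2 fun i => (hP.memLp i).coeFn_toLp
    rw [fourier_fourierInv_eq]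
    filter_upwards [h1, h2] with η h1 h2
    simpa only [h2] using h1
  · have h1 := Lp.hasSum_coeFn_tsum hsum'
    have h3 : (𝓕⁻ (∑' i, (hP.memLp i).toLp (F i)) : Lp ℂ 2 (volume : Measure (E n)))
        = ∑' i, 𝓕⁻ ((hP.memLp i).toLp (F i)) := by
      have := (Lp.fourierTransformₗᵢ (E n) ℂ).symm.toContinuousLinearEquiv.toContinuousLinearMap.map_tsum
        (Summable.of_enorm hsum)
      exact this
    have h2 : ∀ᵐ x, ∀ i, (𝓕⁻ ((hP.memLp i).toLp (F i)) : Lp ℂ 2 (volume : Measure (E n))) x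
        = evo (F i) x 0 0 :=
      ae_all_iff.2 fun i => evo_zero_ae_eq (hP.int i) (hP.memLp i)
    rw [h3]
    filter_upwards [h1, h2] with x h1 h2
    simpa only [h2] using h1

lemma integrable_ph_mul {G : E n → ℂ} (hG : Integrable G) (x : E n) (s : ℝ) {a : ℝ} (ha : 0 ≤ a) :
    Integrable (fun η => ph x s a η * G η) :=
  hG.bdd_mul (continuous_ph x s a).aestronglyMeasurable
    (Eventually.of_forall fun η => norm_ph_le x s ha η)

lemma norm_evo_le {G : E n → ℂ} (hG : Integrable G) (x : E n) (s : ℝ) {a : ℝ} (ha : 0 ≤ a) :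
    ‖evo G x s a‖ ≤ ∫ η, ‖G η‖ := by
  rw [evo_eq]
  refine (norm_integral_le_integral_norm _).trans ?_
  refine integral_mono (integrable_ph_mul hG x s ha).norm hG.norm fun η => ?_
  simp only [norm_mul]
  exact mul_le_of_le_one_left (norm_nonneg _) (norm_ph_le x s ha η)

/-- second moment -/
noncomputable def mom (G : E n → ℂ) : ℝ := 2 * Real.pi * ∫ η, ‖η‖ ^ 2 * ‖G η‖

lemma evo_sub_le {G : E n → ℂ} (hG : Integrable G) (hG2 : Integrable fun η => ‖η‖ ^ 2 * ‖G η‖)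
    (x : E n) {s : ℝ} (hs : 0 ≤ s) : ‖evo G x s 0 - evo G x 0 0‖ ≤ s * mom G := by
  rw [evo_eq, evo_eq, ← integral_sub (integrable_ph_mul hG x s le_rfl)
    (integrable_ph_mul hG x 0 le_rfl)]
  refine (norm_integral_le_integral_norm _).trans ?_
  have : s * mom G = ∫ η, s * (2 * Real.pi) * (‖η‖ ^ 2 * ‖G η‖) := by
    rw [integral_const_mul, mom]; ring
  rw [this]
  refine integral_mono ?_ (hG2.const_mul _) fun η => ?_
  · exact ((integrable_ph_mul hG x s le_rfl).sub (integrable_ph_mul hG x 0 le_rfl)).norm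
  · simp only
    rw [← sub_mul, norm_mul, ← mul_assoc]
    refine mul_le_mul_of_nonneg_right ?_ (norm_nonneg _)
    have h1 : ph x s 0 η = ph x 0 0 η * cexp (I * ((-(2 * Real.pi * s * ‖η‖ ^ 2) : ℝ) : ℂ)) := by
      rw [ph, ph, ← Complex.exp_add]
      congr 1
      push_cast
      ring
    rw [h1, ← mul_sub_one, norm_mul]
    refine (mul_le_of_le_one_left (norm_nonneg _) (norm_ph_le x 0 le_rfl η)).trans ?_
    refine Real.norm_exp_I_mul_ofReal_sub_one_le.trans ?_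
    rw [Real.norm_eq_abs, abs_neg, abs_of_nonneg (by (clear * - hs; positivity))]
    apply le_of_eq
    ring

lemma integrable_gauss {a : ℝ} (ha : 0 < a) :
    Integrable (fun η : E n => Real.exp (-(2 * a * ‖η‖ ^ 2))) := by
  have h := GaussianFourier.integrable_cexp_neg_mul_sq_norm_add (V := E n)
    (b := ((2 * a : ℝ) : ℂ)) (by simpa only [ofReal_mul, ofReal_ofNat, mul_re, re_ofNat, ofReal_re, im_ofNat, ofReal_im, mul_zero, sub_zero,     Nat.ofNat_pos, mul_pos_iff_of_pos_left] using ha) 0 0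
  have h2 := h.norm
  refine h2.congr (Eventually.of_forall fun η => ?_)
  simp only [Complex.norm_exp]
  congr 1
  simp [← Complex.ofReal_pow]

lemma evo_hasSum {F : ℕ → E n → ℂ} {δ : ℕ → ℝ} (hP : Pieces F δ) {g : E n → ℂ}
    (hg : ∀ᵐ η, HasSum (fun i => F i η) (g η)) (x : E n) (s : ℝ) {a : ℝ} (ha : 0 < a) :
    HasSum (fun i => evo (F i) x s a) (evo g x s a) := by
  have hint : ∀ i, Integrable (fun η => ph x s a η * F i η) := fun i =>
    integrable_ph_mul (hP.int i) x s ha.le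
  have hg2 := integrable_gauss (n := n) ha
  set C := ∫ η : E n, Real.exp (-(2 * a * ‖η‖ ^ 2)) with hC
  have hC0 : 0 ≤ C := integral_nonneg fun η => (Real.exp_pos _).le
  have hbound : ∀ i, ∫ η, ‖ph x s a η * F i η‖ ≤ (C + 1) / 2 * δ i := by
    intro i
    have hd := hP.pos i
    have hsqi : Integrable (fun η => ‖F i η‖ ^ 2) := (hP.memLp i).integrable_norm_pow (by norm_num)
    calc ∫ η, ‖ph x s a η * F i η‖
        ≤ ∫ η, (δ i / 2 * Real.exp (-(2 * a * ‖η‖ ^ 2)) + (2 * δ i)⁻¹ * ‖F i η‖ ^ 2) := by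
          refine integral_mono (hint i).norm ((hg2.const_mul _).add (hsqi.const_mul _)) fun η => ?_
          simp only
          rw [norm_mul, norm_ph]
          have e1 : Real.exp (-(2 * a * ‖η‖ ^ 2)) = Real.exp (-(a * ‖η‖ ^ 2)) ^ 2 := by
            rw [← Real.exp_nat_mul]; congr 1; push_cast; ring
          rw [e1]
          set u := Real.exp (-(a * ‖η‖ ^ 2))
          set v := ‖F i η‖
          have : 0 ≤ (δ i * u - v) ^ 2 / (2 * δ i) := by (clear * - hd; positivity)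
          have e2 : (δ i * u - v) ^ 2 / (2 * δ i)
              = δ i / 2 * u ^ 2 + (2 * δ i)⁻¹ * v ^ 2 - u * v := by
            field_simp
            ring
          linarith
      _ = δ i / 2 * C + (2 * δ i)⁻¹ * ∫ η, ‖F i η‖ ^ 2 := by
          rw [integral_add (hg2.const_mul _) (hsqi.const_mul _), integral_const_mul,
            integral_const_mul]
      _ ≤ δ i / 2 * C + (2 * δ i)⁻¹ * δ i ^ 2 := by
          gcongr
          exact hP.sq i
      _ = (C + 1) / 2 * δ i := by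
          (clear * - hC0 hd; field_simp)
  have hsum : Summable fun i => ∫ η, ‖ph x s a η * F i η‖ :=
    Summable.of_nonneg_of_le (fun i => integral_nonneg fun η => norm_nonneg _) hbound
      (hP.summable.mul_left _)
  have key := hasSum_integral_of_summable_integral_norm hint hsum
  have : evo g x s a = ∫ η, ∑' i, ph x s a η * F i η := by
    rw [evo_eq]
    apply integral_congr_ae
    filter_upwards [hg] with η hη
    rw [tsum_mul_left, hη.tsum_eq]
  rw [this]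
  exact key

lemma tendsto_evo {G : E n → ℂ} (hG : Integrable G) (x : E n) (s : ℝ) :
    Tendsto (fun a => evo G x s a) (𝓝[>] 0) (𝓝 (evo G x s 0)) := by
  simp_rw [evo_eq]
  refine tendsto_integral_filter_of_dominated_convergence (fun η => ‖G η‖) ?_ ?_ hG.norm ?_
  · exact Eventually.of_forall fun a =>
      (continuous_ph x s a).aestronglyMeasurable.mul hG.aestronglyMeasurable
  · filter_upwards [self_mem_nhdsWithin] with a ha
    refine Eventually.of_forall fun η => ?_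
    rw [norm_mul]
    exact mul_le_of_le_one_left (norm_nonneg _) (norm_ph_le x s (le_of_lt ha) η)
  · refine Eventually.of_forall fun η => ?_
    exact (((continuous_ph_a x s η).mul (continuous_const (y := G η))).tendsto 0).mono_left
      nhdsWithin_le_nhds

/-- The evolution of `f` exists at every point and every positive time and is the sum of
the evolutions of the pieces. -/
lemma exists_evolution {F : ℕ → E n → ℂ} {δ : ℕ → ℝ} (hP : Pieces F δ)
    {f : Lp ℂ 2 (volume : Measure (E n))}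
    (hf : ∀ᵐ η, HasSum (fun i => F i η) ((𝓕 f : Lp ℂ 2 (volume : Measure (E n))) η))
    {σ : ℕ → ℝ} (hσ : Tendsto σ atTop (𝓝 0))
    (htail : ∀ i : ℕ, ∀ x : E n, ‖x‖ ≤ i → ∀ s ≥ σ i, ∀ a ≥ 0, ‖evo (F i) x s a‖ ≤ δ i)
    {t : ℝ} (ht : 0 < t) (x : E n) :
    Summable (fun i => evo (F i) x (2 * Real.pi * t) 0) ∧
    Tendsto (fun b => schrReg f t b x) (𝓝[>] 0) (𝓝 (∑' i, evo (F i) x (2 * Real.pi * t) 0)) := by
  set s := 2 * Real.pi * t with hs
  have hs0 : 0 < s := by positivity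
  set bound : ℕ → ℝ := fun i => if σ i ≤ s ∧ ‖x‖ ≤ i then δ i else ∫ η, ‖F i η‖ with hbound
  have hle : ∀ i, ∀ a ≥ 0, ‖evo (F i) x s a‖ ≤ bound i := by
    intro i a ha
    simp only [hbound]
    split_ifs with h
    · exact htail i x h.2 s h.1 a ha
    · exact norm_evo_le (hP.int i) x s ha
  have hsum : Summable bound := by
    have hev : ∀ᶠ i in atTop, δ i = bound i := by
      have h1 : ∀ᶠ i in atTop, σ i < s := hσ.eventually (gt_mem_nhds hs0)
      filter_upwards [h1, eventually_ge_atTop ⌈‖x‖⌉₊] with i h1 h2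
      have h3 : ‖x‖ ≤ i := (Nat.le_ceil _).trans (by exact_mod_cast h2)
      simp only [hbound]
      rw [if_pos ⟨h1.le, h3⟩]
    exact (summable_congr_atTop hev).1 hP.summable
  refine ⟨Summable.of_norm_bounded hsum fun i => hle i 0 le_rfl, ?_⟩
  have h1 : Tendsto (fun a => ∑' i, evo (F i) x s a) (𝓝[>] 0) (𝓝 (∑' i, evo (F i) x s 0)) := by
    refine tendsto_tsum_of_dominated_convergence hsum (fun i => tendsto_evo (hP.int i) x s) ?_
    filter_upwards [self_mem_nhdsWithin] with a ha i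
    exact hle i a (le_of_lt ha)
  have h2 : Tendsto (fun b : ℝ => 4 * Real.pi ^ 2 * b) (𝓝[>] 0) (𝓝[>] 0) := by
    refine tendsto_nhdsWithin_iff.2 ⟨?_, ?_⟩
    · have : Tendsto (fun b : ℝ => 4 * Real.pi ^ 2 * b) (𝓝 0) (𝓝 (4 * Real.pi ^ 2 * 0)) :=
        (continuous_const.mul continuous_id).tendsto 0
      rw [mul_zero] at this
      exact this.mono_left nhdsWithin_le_nhds
    · filter_upwards [self_mem_nhdsWithin] with b hb
      have hb' : (0:ℝ) < b := hb
      exact Set.mem_Ioi.2 (by (clear * - hb'; positivity))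
  refine (h1.comp h2).congr' ?_
  filter_upwards [self_mem_nhdsWithin] with b hb
  have hb' : (0:ℝ) < b := hb
  rw [schrReg_eq_evo, Function.comp]
  exact (evo_hasSum hP hf x s (by (clear * - hb'; positivity))).tsum_eq

/-- almost everywhere smallness of the initial values of the pieces -/
lemma ae_small {F : ℕ → E n → ℂ} {δ : ℕ → ℝ} (hP : Pieces F δ) :
    ∀ᵐ x : E n, ∀ᶠ i in atTop, ‖evo (F i) x 0 0‖ ≤ √(δ i) := by
  have hm : ∀ i, AEStronglyMeasurable (fun x : E n => evo (F i) x 0 0) volume := fun i =>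
    (Lp.aestronglyMeasurable _).congr (evo_zero_ae_eq (hP.int i) (hP.memLp i))
  have hle : ∀ i, ∫⁻ x : E n, ‖evo (F i) x 0 0‖ₑ ^ 2 ≤ ENNReal.ofReal (δ i ^ 2) := by
    intro i
    have h1 : ‖(𝓕⁻ ((hP.memLp i).toLp (F i)) : Lp ℂ 2 (volume : Measure (E n)))‖ ≤ δ i := by
      have h0 : ‖(𝓕⁻ ((hP.memLp i).toLp (F i)) : Lp ℂ 2 (volume : Measure (E n)))‖
        = ‖(hP.memLp i).toLp (F i)‖ := (Lp.fourierTransformₗᵢ (E n) ℂ).symm.norm_map _
      rw [h0]
      exact norm_toLp_le (hP.memLp i) (hP.pos i).le (hP.sq i)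
    have h2 : eLpNorm (fun x : E n => evo (F i) x 0 0) 2 volume ≤ ENNReal.ofReal (δ i) := by
      rw [← eLpNorm_congr_ae (evo_zero_ae_eq (hP.int i) (hP.memLp i)), ← Lp.enorm_def,
        ← ofReal_norm]
      exact ENNReal.ofReal_le_ofReal h1
    have h3 := pow_le_pow_left' h2 2
    rw [← ENNReal.ofReal_pow (hP.pos i).le] at h3
    refine le_trans (le_of_eq ?_) h3
    rw [eLpNorm_eq_lintegral_rpow_enorm_toReal (by norm_num) (by norm_num)]
    simp only [ENNReal.toReal_ofNat, ENNReal.rpow_ofNat, one_div]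
    rw [← ENNReal.rpow_natCast, ← ENNReal.rpow_mul]
    norm_num
  have hsum : ∑' i, ∫⁻ x : E n, ‖evo (F i) x 0 0‖ₑ ^ 2 / ENNReal.ofReal (δ i) ≠ ⊤ := by
    have : ∑' i, ENNReal.ofReal (δ i) ≠ ⊤ := by
      rw [← ENNReal.ofReal_tsum_of_nonneg (fun i => (hP.pos i).le) hP.summable]
      exact ENNReal.ofReal_ne_top
    refine ne_top_of_le_ne_top this (ENNReal.tsum_le_tsum fun i => ?_)
    simp_rw [div_eq_mul_inv]
    rw [lintegral_mul_const'' _ ((hm i).enorm.pow_const 2)]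
    refine (mul_le_mul_left (hle i) _).trans ?_
    have hpos : ENNReal.ofReal (δ i) ≠ 0 := by simpa only [ne_eq, ENNReal.ofReal_eq_zero, not_le] using hP.pos i
    rw [ENNReal.ofReal_pow (hP.pos i).le, pow_two, mul_assoc,
      ENNReal.mul_inv_cancel hpos ENNReal.ofReal_ne_top, mul_one]
  rw [← lintegral_tsum fun i => ((hm i).enorm.pow_const 2).div_const _] at hsum
  have hae := ae_lt_top' (AEMeasurable.tsum fun i =>
    ((hm i).enorm.pow_const 2).div_const (ENNReal.ofReal (δ i))) hsum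
  filter_upwards [hae] with x hx
  have h4 := ENNReal.tendsto_atTop_zero_of_tsum_ne_top hx.ne
  filter_upwards [h4.eventually (ge_mem_nhds one_pos)] with i hi
  have hpos : 0 < ENNReal.ofReal (δ i) := by simpa using hP.pos i
  rw [ENNReal.div_le_iff hpos.ne' ENNReal.ofReal_ne_top, one_mul, ← ofReal_norm,
    ← ENNReal.ofReal_pow (norm_nonneg _), ENNReal.ofReal_le_ofReal_iff (hP.pos i).le] at hi
  exact Real.le_sqrt_of_sq_le hi

end Vale.Agent.P076
end

section

/-!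
Recursive choice of blocks and the resulting divergence statement.
-/

open MeasureTheory Complex FourierTransform Filter Topology
open scoped ENNReal NNReal

namespace Vale.Agent.P076

variable {n : ℕ}

/-- A block: a frequency-localised bounded function whose evolution is `≥ V` in modulus
somewhere in `[s₁, ε]` for each `x ∈ S`, is `≤ ε` at time `0` on `T` and is `≤ ε` after
time `s₀` on the ball of radius `B`. -/
structure IsBlock (w k : ℕ) (S T : Set (E n)) (V Γ B s₀ ε s₁ : ℝ) (F : E n → ℂ) : Prop where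
  meas : Measurable F
  bdd : ∃ b : ℝ, ∀ η, ‖F η‖ ≤ b
  supp : ∀ η, F η ≠ 0 → 2 ^ k ≤ 2 * Real.pi * ‖η‖ ∧ 2 * Real.pi * ‖η‖ < 2 ^ (k + w)
  cost : ∫ η, ‖F η‖ ^ 2 ≤ Γ
  pos : 0 < s₁
  good : ∀ x ∈ S, ∃ s, s₁ ≤ s ∧ s ≤ ε ∧ V ≤ ‖evo F x s 0‖
  init : ∀ x ∈ T, ‖evo F x 0 0‖ ≤ ε
  tail : ∀ x : E n, ‖x‖ ≤ B → ∀ s ≥ s₀, ∀ a ≥ 0, ‖evo F x s a‖ ≤ ε

lemma memLp_of_bdd {F : E n → ℂ} (hm : Measurable F) (hb : ∃ b : ℝ, ∀ η, ‖F η‖ ≤ b)
    {R : ℝ} (hs : ∀ η, F η ≠ 0 → ‖η‖ ≤ R) (p : ℝ≥0∞) : MemLp F p volume := by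
  obtain ⟨b, hb⟩ := hb
  have h1 : MemLp (fun η => Set.indicator (Metric.closedBall (0 : E n) R) F η) p volume := by
    rw [memLp_indicator_iff_restrict measurableSet_closedBall]
    have : IsFiniteMeasure (volume.restrict (Metric.closedBall (0 : E n) R)) :=
      ⟨by rw [Measure.restrict_apply_univ]; exact measure_closedBall_lt_top⟩
    exact MemLp.of_bound hm.aestronglyMeasurable b (Eventually.of_forall hb)
  have h2 : (fun η => Set.indicator (Metric.closedBall (0 : E n) R) F η) = F := by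
    funext η
    by_cases h : F η = 0
    · simp only [Set.indicator, Metric.mem_closedBall, dist_zero_right, h, ite_self]
    · rw [Set.indicator_of_mem]
      simpa only [Metric.mem_closedBall, dist_zero_right] using hs η h
  rwa [h2] at h1

lemma integrable_of_bdd {F : E n → ℂ} (hm : Measurable F) (hb : ∃ b : ℝ, ∀ η, ‖F η‖ ≤ b)
    {R : ℝ} (hs : ∀ η, F η ≠ 0 → ‖η‖ ≤ R) : Integrable F :=
  memLp_one_iff_integrable.1 (memLp_of_bdd hm hb hs 1)

lemma integrable_mom_of_bdd {F : E n → ℂ} (hm : Measurable F) (hb : ∃ b : ℝ, ∀ η, ‖F η‖ ≤ b)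
    {R : ℝ} (hs : ∀ η, F η ≠ 0 → ‖η‖ ≤ R) : Integrable fun η => ‖η‖ ^ 2 * ‖F η‖ := by
  have h1 : Integrable (fun η => ((‖η‖ ^ 2 : ℝ) : ℂ) * F η) := by
    refine integrable_of_bdd (R := R) (by fun_prop) ?_ ?_
    · obtain ⟨b, hb⟩ := hb
      refine ⟨R ^ 2 * b, fun η => ?_⟩
      by_cases h : F η = 0
      · simp only [h, mul_zero, norm_zero]
        have := (norm_nonneg _).trans (hb η)
        (clear * - this; positivity)
      · have := hs η h
        rw [norm_mul, Complex.norm_real, Real.norm_of_nonneg (by (clear * -; positivity))]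
        have hn := norm_nonneg η
        gcongr
        exact hb η
    · intro η h
      exact hs η (right_ne_zero_of_mul h)
  have h2 := h1.norm
  refine h2.congr (Eventually.of_forall fun η => ?_)
  simp only [norm_mul, Complex.norm_real]
  rw [Real.norm_of_nonneg (by (clear * -; positivity))]

lemma IsBlock.norm_le {w k : ℕ} {S T : Set (E n)} {V Γ B s₀ ε s₁ : ℝ} {F : E n → ℂ}
    (h : IsBlock w k S T V Γ B s₀ ε s₁ F) (η : E n) (hη : F η ≠ 0) : ‖η‖ ≤ 2 ^ (k + w) := by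
  have h1 := (h.supp η hη).2
  have h2 : ‖η‖ ≤ 2 * Real.pi * ‖η‖ := by
    have := Real.pi_gt_three
    nlinarith only [this, norm_nonneg η]
  linarith only [h1, h2]

/-- pointwise divergence estimate -/
lemma diverge_at {F : ℕ → E n → ℂ} {V τ : ℕ → ℝ} {x : E n} {i : ℕ} {s : ℝ}
    (hτ : ∀ l, i ≤ l → τ l ≤ (1 / 4) ^ (l + 2) * V i) (hτ0 : ∀ l, 0 ≤ τ l)
    (hτ1 : ∀ l, τ l ≤ 1)
    (hVi : 0 < V i) (hgood : V i ≤ ‖evo (F i) x s 0‖)
    (hsmall : ∀ l < i, ‖evo (F l) x s 0 - evo (F l) x 0 0‖ ≤ τ i ^ 2)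
    (htail : ∀ l > i, ‖evo (F l) x s 0‖ ≤ τ l ^ 2)
    (hinit : ∀ l ≥ i, ‖evo (F l) x 0 0‖ ≤ τ l)
    (hs1 : Summable fun l => evo (F l) x s 0) (hs2 : Summable fun l => evo (F l) x 0 0) :
    V i / 2 ≤ ‖(∑' l, evo (F l) x s 0) - ∑' l, evo (F l) x 0 0‖ := by
  have hsq : ∀ l, τ l ^ 2 ≤ τ l := fun l => by nlinarith [hτ0 l, hτ1 l]
  set D : ℕ → ℂ := fun l => evo (F l) x s 0 - evo (F l) x 0 0 with hD
  have hDs : Summable D := hs1.sub hs2
  have e1 : (∑' l, evo (F l) x s 0) - ∑' l, evo (F l) x 0 0 = ∑' l, D l :=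
    (hs1.tsum_sub hs2).symm
  rw [e1, hDs.tsum_eq_add_tsum_ite i]
  set bd : ℕ → ℝ := fun l => (V i / 8) * (1 / 4) ^ l with hbd
  have hbdsum : HasSum bd ((V i / 8) * (1 - 1 / 4)⁻¹) :=
    (hasSum_geometric_of_lt_one (by norm_num) (by norm_num)).mul_left _
  have hle : ∀ l, ‖(if l = i then 0 else D l)‖ ≤ bd l := by
    intro l
    split_ifs with h
    · rw [norm_zero]; simp only [hbd]; positivity
    · rcases lt_or_gt_of_ne h with h1 | h1
      · have h2 := (hsmall l h1).trans ((hsq i).trans (hτ i le_rfl))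
        refine h2.trans ?_
        simp only [hbd]
        have h3 : ((1:ℝ) / 4) ^ (i + 2) ≤ (1 / 4) ^ (l + 2) :=
          pow_le_pow_of_le_one (by norm_num) (by norm_num) (by omega)
        have h4 : ((1:ℝ) / 4) ^ (l + 2) = (1 / 16) * (1 / 4) ^ l := by rw [pow_add]; ring
        have h5 : (0:ℝ) < (1 / 4) ^ l := by positivity
        nlinarith only [hVi, h3, h4, h5]
      · have h2 : ‖D l‖ ≤ 2 * τ l := by
          have := norm_sub_le (evo (F l) x s 0) (evo (F l) x 0 0)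
          have h3 := (htail l h1).trans (hsq l)
          have h4 := hinit l h1.le
          simp only [hD]
          linarith only [this, h3, h4]
        have h3 := hτ l h1.le
        have h4 : ((1:ℝ) / 4) ^ (l + 2) = (1 / 16) * (1 / 4) ^ l := by rw [pow_add]; ring
        simp only [hbd]
        rw [h4] at h3; linarith only [h2, h3]
  have h6 : ‖∑' l, (if l = i then 0 else D l)‖ ≤ (V i / 8) * (1 - 1 / 4)⁻¹ :=
    tsum_of_norm_bounded hbdsum hle
  have h7 : V i - τ i ≤ ‖D i‖ := by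
    have := norm_sub_norm_le (evo (F i) x s 0) (evo (F i) x 0 0)
    have h4 := hinit i le_rfl
    simp only [hD]
    linarith only [hgood, this, h4]
  have h8 : τ i ≤ V i / 16 := by
    have h9 := hτ i le_rfl
    have h10 : ((1:ℝ) / 4) ^ (i + 2) ≤ (1 / 4) ^ 2 :=
      pow_le_pow_of_le_one (by norm_num) (by norm_num) (by omega)
    nlinarith only [h9, hVi, h10]
  have h11 := norm_sub_le (D i + ∑' l, (if l = i then 0 else D l)) (∑' l, (if l = i then 0 else D l))
  rw [add_sub_cancel_right] at h11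
  norm_num at h6
  linarith only [hVi, h7, h8, h11, h6]

/-! ### the recursion -/

/-- state of the recursion: extra data, frequency scale, piece, smallest good time, moment bound -/
structure St (n : ℕ) (α : Type) where
  d : α
  k : ℕ
  F : E n → ℂ
  σ : ℝ
  M : ℝ

/-- step relation -/
def Rel {α : Type} (w : ℕ) (P : ℕ → α → α → Prop) (S : ℕ → α → Set (E n)) (T : Set (E n))
    (V e τ : ℕ → ℝ) (Γ : ℕ → ℕ → ℝ) (A : Set ℕ) (i : ℕ) (p q : St n α) : Prop :=
  P i p.d q.d ∧ p.k + w ≤ q.k ∧ q.k ∈ A ∧ q.σ ≤ p.σ ∧ q.σ ≤ 1 / (i + 1) ∧ p.M ≤ q.M ∧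
    mom q.F ≤ q.M ∧ ∃ s₁, q.σ ≤ s₁ ∧
      IsBlock w q.k (S i q.d) T (V i) (min (Γ i q.k) (τ i ^ 4)) i p.σ
        (min (e i) (τ i ^ 2 / (p.M + 1))) s₁ q.F

lemma mom_nonneg (G : E n → ℂ) : 0 ≤ mom G := by
  unfold mom
  have : 0 ≤ ∫ η, ‖η‖ ^ 2 * ‖G η‖ := integral_nonneg fun η => by positivity
  have := Real.pi_pos
  (clear * -; positivity)

lemma exists_chain {α : Type} (w : ℕ) (P : ℕ → α → α → Prop) (S : ℕ → α → Set (E n))
    (T : Set (E n)) (V e τ : ℕ → ℝ) (Γ : ℕ → ℕ → ℝ) (A : Set ℕ) (he : ∀ i, 0 < e i)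
    (hτ : ∀ i, 0 < τ i) (hΓ : ∀ i, Tendsto (Γ i) atTop (𝓝 0))
    (hstep : ∀ (i : ℕ) (d : α) (B s₀ ε : ℝ) (K : ℕ), 0 < s₀ → 0 < ε →
      ∃ (d' : α) (k : ℕ) (F : E n → ℂ) (s₁ : ℝ), P i d d' ∧ K ≤ k ∧ k ∈ A ∧
        IsBlock w k (S i d') T (V i) (Γ i k) B s₀ ε s₁ F) (d₀ : α) (k₀ : ℕ) :
    ∃ st : ℕ → St n α, (st 0).d = d₀ ∧ (st 0).k = k₀ ∧
      (∀ i, 0 < (st i).σ ∧ 0 ≤ (st i).M) ∧
      ∀ i, Rel w P S T V e τ Γ A i (st i) (st (i + 1)) := by
  have step : ∀ (i : ℕ) (p : {p : St n α // 0 < p.σ ∧ 0 ≤ p.M}),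
      ∃ q : {p : St n α // 0 < p.σ ∧ 0 ≤ p.M}, Rel w P S T V e τ Γ A i p.1 q.1 := by
    rintro i ⟨p, hσ, hM⟩
    have hτi := hτ i
    obtain ⟨K₁, hK₁⟩ := eventually_atTop.1
      ((hΓ i).eventually (ge_mem_nhds (by positivity : (0:ℝ) < τ i ^ 4)))
    obtain ⟨d', k, F, s₁, hP, hK, hA, hF⟩ := hstep i p.d i p.σ
      (min (e i) (τ i ^ 2 / (p.M + 1))) (max K₁ (p.k + w)) hσ
      (lt_min (he i) (by (clear * - hτi hM; positivity)))
    refine ⟨⟨⟨d', k, F, min (min p.σ (1 / (i + 1))) s₁, max p.M (mom F)⟩, ?_, ?_⟩, ?_⟩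
    · have := hF.pos
      have h1 : (0:ℝ) < 1 / (i + 1) := by (clear * -; positivity)
      exact lt_min (lt_min hσ h1) this
    · exact hM.trans (le_max_left _ _)
    · refine ⟨hP, (le_max_right _ _).trans hK, hA, (min_le_left _ _).trans (min_le_left _ _),
        (min_le_left _ _).trans (min_le_right _ _), le_max_left _ _, le_max_right _ _, s₁,
        min_le_right _ _, ?_⟩
      refine ⟨hF.meas, hF.bdd, hF.supp, ?_, hF.pos, hF.good, hF.init, hF.tail⟩
      have h2 : min (Γ i k) (τ i ^ 4) = Γ i k := min_eq_left (hK₁ k ((le_max_left _ _).trans hK))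
      simp only
      rw [h2]
      exact hF.cost
  choose nxt hnxt using step
  let st : ℕ → {p : St n α // 0 < p.σ ∧ 0 ≤ p.M} := fun i =>
    Nat.rec ⟨⟨d₀, k₀, 0, 1, 0⟩, one_pos, le_rfl⟩ (fun i p => nxt i p) i
  exact ⟨fun i => (st i).1, rfl, rfl, fun i => (st i).2, fun i => hnxt i (st i)⟩

/-- the weights used for the errors -/
noncomputable def wt (V : ℕ → ℝ) (i : ℕ) : ℝ := (1 / 4) ^ (i + 2) * ∏ j ∈ Finset.range (i + 1), min 1 (V j)

lemma prod_min_le {V : ℕ → ℝ} (hV : ∀ i, 0 < V i) {i l : ℕ} (h : i ≤ l) :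
    ∏ j ∈ Finset.range (l + 1), min 1 (V j) ≤ min 1 (V i) := by
  have hmem : i ∈ Finset.range (l + 1) := Finset.mem_range.2 (by omega)
  rw [← Finset.mul_prod_erase _ _ hmem]
  have h0 : 0 ≤ min 1 (V i) := le_min zero_le_one (hV i).le
  refine mul_le_of_le_one_right h0 ?_
  exact Finset.prod_le_one (fun j _ => le_min zero_le_one (hV j).le) fun j _ => min_le_left _ _

lemma prod_min_pos {V : ℕ → ℝ} (hV : ∀ i, 0 < V i) (l : ℕ) :
    0 < ∏ j ∈ Finset.range (l + 1), min 1 (V j) :=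
  Finset.prod_pos fun j _ => lt_min one_pos (hV j)

lemma wt_pos {V : ℕ → ℝ} (hV : ∀ i, 0 < V i) (i : ℕ) : 0 < wt V i := by
  have := prod_min_pos hV i
  unfold wt
  positivity

lemma wt_le {V : ℕ → ℝ} (hV : ∀ i, 0 < V i) {i l : ℕ} (h : i ≤ l) :
    wt V l ≤ (1 / 4) ^ (l + 2) * V i := by
  unfold wt
  gcongr
  exact (prod_min_le hV h).trans (min_le_right _ _)

lemma wt_le_one {V : ℕ → ℝ} (hV : ∀ i, 0 < V i) (l : ℕ) : wt V l ≤ (1 / 4) ^ (l + 2) := by
  unfold wt
  refine mul_le_of_le_one_right (by positivity) ?_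
  exact (prod_min_le hV le_rfl).trans (min_le_left _ _)

theorem master {α : Type} (w : ℕ) (P : ℕ → α → α → Prop) (S : ℕ → α → Set (E n))
    (T : Set (E n)) (V e : ℕ → ℝ) (Γ : ℕ → ℕ → ℝ) (A : Set ℕ) (hV : ∀ i, 0 < V i)
    (he : ∀ i, 0 < e i) (hΓ : ∀ i, Tendsto (Γ i) atTop (𝓝 0))
    (hstep : ∀ (i : ℕ) (d : α) (B s₀ ε : ℝ) (K : ℕ), 0 < s₀ → 0 < ε →
      ∃ (d' : α) (k : ℕ) (F : E n → ℂ) (s₁ : ℝ), P i d d' ∧ K ≤ k ∧ k ∈ A ∧
        IsBlock w k (S i d') T (V i) (Γ i k) B s₀ ε s₁ F) (d₀ : α) (k₀ : ℕ) :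
    ∃ (d : ℕ → α) (k : ℕ → ℕ) (F : ℕ → E n → ℂ) (f : Lp ℂ 2 (volume : Measure (E n)))
      (u : ℝ → E n → ℂ) (z : E n → ℂ),
      d 0 = d₀ ∧ (∀ i, P i (d i) (d (i + 1))) ∧
      (∀ i, k₀ + w ≤ k i ∧ k i + w ≤ k (i + 1) ∧ k i ∈ A) ∧
      (∀ i, Measurable (F i)) ∧ (∀ i, ∃ b : ℝ, ∀ η, ‖F i η‖ ≤ b) ∧
      (∀ i η, F i η ≠ 0 → 2 ^ (k i) ≤ 2 * Real.pi * ‖η‖ ∧ 2 * Real.pi * ‖η‖ < 2 ^ (k i + w)) ∧
      (∀ i, ∫ η, ‖F i η‖ ^ 2 ≤ Γ i (k i)) ∧
      (∀ᵐ η, HasSum (fun i => F i η) ((𝓕 f : Lp ℂ 2 (volume : Measure (E n))) η)) ∧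
      (∀ t > 0, ∀ x, Tendsto (fun b => schrReg f t b x) (𝓝[>] 0) (𝓝 (u t x))) ∧
      (∀ᵐ x, f x = z x) ∧
      (∀ᵐ x : E n, ∀ᶠ i in atTop, x ∈ S i (d (i + 1)) →
        ∃ t, 0 < t ∧ t ≤ e i ∧ V i / 2 ≤ ‖u t x - z x‖) ∧
      (∀ x ∈ T, ∀ᶠ i in atTop, x ∈ S i (d (i + 1)) →
        ∃ t, 0 < t ∧ t ≤ e i ∧ V i / 2 ≤ ‖u t x - z x‖) := by
  obtain ⟨st, hd, hk, hpos, hrel⟩ := exists_chain w P S T V e (wt V) Γ A he (wt_pos hV) hΓ hstep d₀ k₀
  set F : ℕ → E n → ℂ := fun i => (st (i + 1)).F with hF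
  have hblock : ∀ i, ∃ s₁, (st (i + 1)).σ ≤ s₁ ∧
      IsBlock w (st (i + 1)).k (S i (st (i + 1)).d) T (V i)
        (min (Γ i (st (i + 1)).k) (wt V i ^ 4)) i (st i).σ
        (min (e i) (wt V i ^ 2 / ((st i).M + 1))) s₁ (F i) := fun i => (hrel i).2.2.2.2.2.2.2
  choose s₁ hs₁ hblk using hblock
  have hτ0 : ∀ i, 0 < wt V i := wt_pos hV
  have hτ1 : ∀ i, wt V i ≤ 1 := fun i => (wt_le_one hV i).trans (pow_le_one₀ (by norm_num) (by norm_num))
  have hε : ∀ i, min (e i) (wt V i ^ 2 / ((st i).M + 1)) ≤ wt V i ^ 2 := by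
    intro i
    refine (min_le_right _ _).trans (div_le_self (by (clear * -; positivity)) ?_)
    linarith only [(hpos i).2]
  have hP : Pieces F (fun i => wt V i ^ 2) := by
    refine ⟨fun i => ?_, fun i => ?_, fun i => ?_, fun i => ?_, ?_⟩
    · exact integrable_of_bdd (hblk i).meas (hblk i).bdd (hblk i).norm_le
    · exact memLp_of_bdd (hblk i).meas (hblk i).bdd (hblk i).norm_le 2
    · refine (hblk i).cost.trans ((min_le_right _ _).trans (le_of_eq ?_))
      ring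
    · have := hτ0 i
      positivity
    · refine Summable.of_nonneg_of_le (fun i => by positivity) (fun i => ?_)
        (summable_geometric_of_lt_one (by norm_num : (0:ℝ) ≤ 1 / 4) (by norm_num))
      have h1 := wt_le_one hV i
      have h2 : ((1:ℝ) / 4) ^ (i + 2) ≤ (1 / 4) ^ i :=
        pow_le_pow_of_le_one (by norm_num) (by norm_num) (by omega)
      nlinarith only [h1, h2, hτ0 i, hτ1 i]
  have hanti : Antitone fun i => (st i).σ := antitone_nat_of_succ_le fun i => (hrel i).2.2.2.1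
  have hmono : Monotone fun i => (st i).M := monotone_nat_of_le_succ fun i => (hrel i).2.2.2.2.2.1
  have hσ : Tendsto (fun i => (st i).σ) atTop (𝓝 0) := by
    rw [← tendsto_add_atTop_iff_nat 1]
    refine squeeze_zero (fun i => (hpos (i + 1)).1.le) (fun i => (hrel i).2.2.2.2.1)
      tendsto_one_div_add_atTop_nhds_zero_nat
  obtain ⟨f, hf1, hf2⟩ := exists_f hP
  have htail : ∀ i : ℕ, ∀ x : E n, ‖x‖ ≤ i → ∀ s ≥ (st i).σ, ∀ a ≥ 0,
      ‖evo (F i) x s a‖ ≤ wt V i ^ 2 := fun i x hx s hs a ha =>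
    ((hblk i).tail x hx s hs a ha).trans (hε i)
  have hevo : ∀ t : ℝ, 0 < t → ∀ x : E n,
      Summable (fun i => evo (F i) x (2 * Real.pi * t) 0) ∧
      Tendsto (fun b => schrReg f t b x) (𝓝[>] 0) (𝓝 (∑' i, evo (F i) x (2 * Real.pi * t) 0)) :=
    fun t ht x => exists_evolution hP hf1 hσ htail (t := t) ht x
  have hsmall : ∀ i, ∀ l < i, ∀ x : E n, ∀ s, 0 ≤ s → s ≤ min (e i) (wt V i ^ 2 / ((st i).M + 1)) →
      ‖evo (F l) x s 0 - evo (F l) x 0 0‖ ≤ wt V i ^ 2 := by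
    intro i l hl x s hs0 hs
    refine (evo_sub_le (hP.int l)
      (integrable_mom_of_bdd (hblk l).meas (hblk l).bdd (hblk l).norm_le) x hs0).trans ?_
    have h1 : mom (F l) ≤ (st i).M := (hrel l).2.2.2.2.2.2.1.trans (hmono (by omega : l + 1 ≤ i))
    have h2 : 0 < (st i).M + 1 := by linarith only [(hpos i).2]
    have h3 : s ≤ wt V i ^ 2 / ((st i).M + 1) := hs.trans (min_le_right _ _)
    rw [le_div_iff₀ h2] at h3
    have := mom_nonneg (F l)
    exact (mul_le_mul_of_nonneg_left (by linarith only [h1]) hs0).trans h3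
  -- the common pointwise argument
  have key : ∀ x : E n, (∀ᶠ i in atTop, ‖evo (F i) x 0 0‖ ≤ wt V i) →
      ∀ᶠ i in atTop, x ∈ S i (st (i + 1)).d →
        ∃ t, 0 < t ∧ t ≤ e i ∧ V i / 2 ≤
          ‖(∑' l, evo (F l) x (2 * Real.pi * t) 0) - ∑' l, evo (F l) x 0 0‖ := by
    intro x hx
    have hs2 : Summable fun l => evo (F l) x 0 0 := by
      refine Summable.of_norm_bounded_eventually_nat
        (summable_geometric_of_lt_one (by norm_num : (0:ℝ) ≤ 1 / 4) (by norm_num)) ?_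
      filter_upwards [hx] with i hi
      refine hi.trans ((wt_le_one hV i).trans ?_)
      exact pow_le_pow_of_le_one (by norm_num) (by norm_num) (by omega)
    obtain ⟨i₀, hi₀⟩ := eventually_atTop.1 hx
    filter_upwards [eventually_ge_atTop (max i₀ ⌈‖x‖⌉₊)] with i hi hxS
    obtain ⟨s, hs1, hs2', hs3⟩ := (hblk i).good x hxS
    have hs0 : 0 < s := (hblk i).pos.trans_le hs1
    have hpi := Real.pi_gt_three
    have hst : 2 * Real.pi * (s / (2 * Real.pi)) = s := by (clear * - hs0; field_simp)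
    refine ⟨s / (2 * Real.pi), by (clear * - hs0; positivity), ?_, ?_⟩
    · refine (div_le_self hs0.le (by linarith only [hpi])).trans (hs2'.trans (min_le_left _ _))
    · rw [hst]
      have hxi : ‖x‖ ≤ i := (Nat.le_ceil _).trans (by exact_mod_cast (le_max_right _ _).trans hi)
      refine diverge_at (τ := wt V) (fun l hl => wt_le hV hl) (fun l => (hτ0 l).le) hτ1 (hV i)
        hs3 (fun l hl => hsmall i l hl x s hs0.le hs2') ?_ ?_ ?_ hs2
      · intro l hl
        refine htail l x (hxi.trans (by exact_mod_cast hl.le)) s ?_ 0 le_rfl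
        exact (hanti (by omega : i + 1 ≤ l)).trans ((hs₁ i).trans hs1)
      · intro l hl
        exact hi₀ l (((le_max_left _ _).trans hi).trans hl)
      · have := (hevo (s / (2 * Real.pi)) (by (clear * - hs0; positivity)) x).1
        rwa [hst] at this
  refine ⟨fun i => (st i).d, fun i => (st (i + 1)).k, F, f,
    fun t x => ∑' l, evo (F l) x (2 * Real.pi * t) 0, fun x => ∑' l, evo (F l) x 0 0,
    hd, fun i => (hrel i).1, ?_, fun i => (hblk i).meas, fun i => (hblk i).bdd,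
    fun i => (hblk i).supp, fun i => (hblk i).cost.trans (min_le_left _ _), hf1,
    fun t ht x => (hevo t ht x).2, ?_, ?_, ?_⟩
  · have hkmono : ∀ i, (st i).k + w ≤ (st (i + 1)).k := fun i => (hrel i).2.1
    have hk0 : ∀ i, k₀ ≤ (st i).k := by
      intro i
      induction i with
      | zero => exact hk.ge
      | succ i ih => exact (ih.trans (Nat.le_add_right _ _)).trans (hkmono i)
    exact fun i => ⟨(Nat.add_le_add_right (hk0 i) w).trans (hkmono i), hkmono (i + 1), (hrel i).2.2.1⟩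
  · filter_upwards [hf2] with x hx
    exact hx.tsum_eq.symm
  · filter_upwards [ae_small hP] with x hx
    refine key x ?_
    filter_upwards [hx] with i hi
    rwa [Real.sqrt_sq (hτ0 i).le] at hi
  · intro x hx
    refine key x (Eventually.of_forall fun i => ?_)
    refine ((hblk i).init x hx).trans ((hε i).trans ?_)
    nlinarith only [hτ0 i, hτ1 i]

end Vale.Agent.P076
end

section

open MeasureTheory Complex

namespace Vale.Agent.P076


/-! ### product integrals on Euclidean space -/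

lemma integral_prod_E {n : ℕ} (g : Fin n → ℝ → ℂ) :
    ∫ η : E n, ∏ i, g i (η i) = ∏ i, ∫ v, g i v := by
  have h := (PiLp.volume_preserving_ofLp (Fin n)).integral_comp
    (MeasurableEquiv.toLp 2 (Fin n → ℝ)).symm.measurableEmbedding
    (fun x : Fin n → ℝ => ∏ i, g i (x i))
  rw [integral_fintype_prod_volume_eq_prod] at h
  exact h

lemma volume_box_E {n : ℕ} (A : Fin n → Set ℝ) (hA : ∀ i, MeasurableSet (A i)) :
    volume {η : E n | ∀ i, η i ∈ A i} = ∏ i, volume (A i) := by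
  have h1 : {η : E n | ∀ i, η i ∈ A i} = (@WithLp.ofLp 2 (Fin n → ℝ)) ⁻¹' (Set.pi Set.univ A) := by
    ext η; simp only [Set.mem_ofPred_eq, Set.mem_preimage, Set.mem_pi, Set.mem_univ, forall_const]
  rw [h1, (PiLp.volume_preserving_ofLp (Fin n)).measure_preimage
    (MeasurableSet.univ_pi hA).nullMeasurableSet, volume_pi_pi]

lemma measurableSet_box_E {n : ℕ} (A : Fin n → Set ℝ) (hA : ∀ i, MeasurableSet (A i)) :
    MeasurableSet {η : E n | ∀ i, η i ∈ A i} := by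
  have h1 : {η : E n | ∀ i, η i ∈ A i} = ⋂ i, (fun η : E n => η i) ⁻¹' (A i) := by
    ext η; simp only [Set.mem_ofPred_eq, Set.mem_iInter, Set.mem_preimage]
  rw [h1]
  exact MeasurableSet.iInter fun i => (by fun_prop : Measurable fun η : E n => η i) (hA i)

lemma coherent {α : Type*} [MeasurableSpace α] {μ : Measure α} {B : Set α}
    (hfin : μ B ≠ ⊤) (Φ : α → ℝ) (hΦ : Measurable Φ) (Φ0 e : ℝ)
    (h : ∀ η ∈ B, ∃ N : ℤ, |Φ η - Φ0 - N| ≤ e) :
    (μ B).toReal * (1 - 2 * Real.pi * e) ≤ ‖∫ η in B, cexp (2 * Real.pi * I * (Φ η)) ∂μ‖ := by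
  have hfin' : μ B < ⊤ := lt_top_iff_ne_top.2 hfin
  have hint : IntegrableOn (fun η => cexp (2 * Real.pi * I * (Φ η))) B μ := by
    refine Measure.integrableOn_of_bounded (M := 1) hfin ?_ ?_
    · exact (by fun_prop : Measurable fun η => cexp (2 * Real.pi * I * (Φ η))).aestronglyMeasurable
    · refine Filter.Eventually.of_forall fun η => ?_
      have : (2 * Real.pi * I * (Φ η) : ℂ) = ((2 * Real.pi * Φ η : ℝ) : ℂ) * I := by
        push_cast; ring
      rw [this, Complex.norm_exp_ofReal_mul_I]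
  have hconst : ∫ η in B, cexp (2 * Real.pi * I * Φ0) ∂μ
      = ((μ B).toReal : ℂ) * cexp (2 * Real.pi * I * Φ0) := by
    rw [setIntegral_const]; simp [Measure.real]
  have hdiff : ‖∫ η in B, (cexp (2 * Real.pi * I * (Φ η)) - cexp (2 * Real.pi * I * Φ0)) ∂μ‖
      ≤ (2 * Real.pi * e) * (μ B).toReal := by
    refine norm_setIntegral_le_of_norm_le_const hfin' ?_
    intro η hη
    obtain ⟨N, hN⟩ := h η hη
    set err := Φ η - Φ0 - N with herr
    have e1 : cexp (2 * Real.pi * I * (Φ η))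
        = cexp (2 * Real.pi * I * Φ0) * cexp (I * ((2 * Real.pi * err : ℝ) : ℂ)) := by
      have : (2 * Real.pi * I * (Φ η) : ℂ)
          = 2 * Real.pi * I * Φ0 + I * ((2 * Real.pi * err : ℝ) : ℂ) + N * (2 * Real.pi * I) := by
        rw [herr]; push_cast; ring
      rw [this, Complex.exp_add, Complex.exp_int_mul_two_pi_mul_I, mul_one, Complex.exp_add]
    rw [e1, ← mul_sub_one, norm_mul]
    have e2 : ‖cexp (2 * Real.pi * I * Φ0)‖ = 1 := by
      have : (2 * Real.pi * I * Φ0 : ℂ) = ((2 * Real.pi * Φ0 : ℝ) : ℂ) * I := by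
        push_cast; ring
      rw [this, Complex.norm_exp_ofReal_mul_I]
    rw [e2, one_mul]
    refine (Real.norm_exp_I_mul_ofReal_sub_one_le).trans ?_
    rw [Real.norm_eq_abs, abs_mul, abs_of_pos (by positivity : (0:ℝ) < 2 * Real.pi)]
    (clear * - hN; gcongr)
  rw [integral_sub hint (integrableOn_const hfin), hconst] at hdiff
  have e3 : ‖((μ B).toReal : ℂ) * cexp (2 * Real.pi * I * Φ0)‖ = (μ B).toReal := by
    have : (2 * Real.pi * I * Φ0 : ℂ) = ((2 * Real.pi * Φ0 : ℝ) : ℂ) * I := by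
      push_cast; ring
    rw [norm_mul, this, Complex.norm_exp_ofReal_mul_I, mul_one, Complex.norm_real,
      Real.norm_of_nonneg ENNReal.toReal_nonneg]
  have e4 := norm_sub_norm_le (((μ B).toReal : ℂ) * cexp (2 * Real.pi * I * Φ0))
    (∫ η in B, cexp (2 * Real.pi * I * (Φ η)) ∂μ)
  rw [e3, norm_sub_rev] at e4
  linarith only [hdiff, e4]

end Vale.Agent.P076
end

section

/-!
Covering lemma: cubes of side `r i ≤ 1` with `∑ (r i)^n = ∞` can be placed so that almost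
every point is in infinitely many of them.
-/

open MeasureTheory Filter Topology
open scoped ENNReal NNReal

namespace Vale.Agent.P076

variable {n : ℕ}

/-- half-open box `[-N, N)^n` -/
def hbox (n N : ℕ) : Set (E n) := {x | ∀ i, x i ∈ Set.Ico (-(N:ℝ)) N}

lemma measurableSet_hbox (N : ℕ) : MeasurableSet (hbox n N) :=
  measurableSet_box_E _ fun _ => measurableSet_Ico

lemma volume_hbox (N : ℕ) : volume (hbox n N) = ENNReal.ofReal ((2 * N) ^ n) := by
  rw [hbox, volume_box_E _ fun _ => measurableSet_Ico]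
  simp only [Real.volume_Ico, Finset.prod_const, Finset.card_univ, Fintype.card_fin]
  rw [← ENNReal.ofReal_pow (by linarith only [])]
  congr 2
  ring

lemma measurableSet_cube (c : E n) (r : ℝ) : MeasurableSet (cube c r) := by
  have : cube c r = {x : E n | ∀ i, x i ∈ Set.Icc (c i) (c i + r)} := by
    ext x; simp only [cube, Set.mem_ofPred_eq, Set.mem_Icc]
  rw [this]
  exact measurableSet_box_E _ fun _ => measurableSet_Icc

lemma exists_good_corner {N : ℕ} (hN : 1 ≤ N) {r : ℝ} (hr : 0 < r) (hr1 : r ≤ 1)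
    (U : Set (E n)) (hU : MeasurableSet U) (hUN : U ⊆ hbox n N) :
    ∃ c : E n, volume.real (U \ cube c r) ≤ (1 - (r / (2 * N + 1)) ^ n) * volume.real U := by
  have hfin : ∀ V ⊆ U, volume V ≠ ⊤ := fun V hV =>
    measure_ne_top_of_subset (hV.trans hUN) (by rw [volume_hbox]; exact ENNReal.ofReal_ne_top)
  set M : ℕ := ⌈2 * N / r⌉₊ with hM
  have hN0 : (1:ℝ) ≤ N := by exact_mod_cast hN
  have hMpos : 0 < M := Nat.ceil_pos.2 (by positivity)
  have hMle : (M : ℝ) ≤ (2 * N + 1) / r := by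
    have h1 := (Nat.ceil_lt_add_one (a := 2 * (N:ℝ) / r) (by positivity)).le
    rw [← hM] at h1
    have h2 : (1:ℝ) ≤ 1 / r := by rw [le_div_iff₀ hr]; linarith only [hr1]
    have h3 : (2 * N + 1) / r = 2 * N / r + 1 / r := by ring
    linarith only [h1, h2, h3]
  let c : (Fin n → Fin M) → E n := fun m => WithLp.toLp 2 fun i => -(N:ℝ) + (m i : ℕ) * r
  have hcov : U ⊆ ⋃ m ∈ (Finset.univ : Finset (Fin n → Fin M)), (U ∩ cube (c m) r) := by
    intro x hx
    have hxN := hUN hx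
    have hx1 : ∀ i, 0 ≤ (x i + N) / r := fun i => by
      have := (hxN i).1
      have : 0 ≤ x i + N := by linarith only [this]
      (clear * - this hr; positivity)
    have hx2 : ∀ i, ⌊(x i + N) / r⌋₊ < M := fun i => by
      rw [Nat.floor_lt (hx1 i)]
      refine lt_of_lt_of_le ?_ (Nat.le_ceil _)
      have := (hxN i).2
      gcongr
      linarith only [this]
    refine Set.mem_iUnion₂.2 ⟨fun i => ⟨⌊(x i + N) / r⌋₊, hx2 i⟩, Finset.mem_univ _, hx, fun i => ?_⟩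
    have h1 := Nat.floor_le (hx1 i)
    have h2 := (Nat.lt_floor_add_one ((x i + N) / r)).le
    rw [le_div_iff₀ hr] at h1
    rw [div_le_iff₀ hr] at h2
    simp only [c]
    constructor
    · linarith only [h1]
    · linarith only [h2]
  have hsum : volume.real U ≤ ∑ m : Fin n → Fin M, volume.real (U ∩ cube (c m) r) := by
    refine (measureReal_mono hcov ?_).trans (measureReal_biUnion_finset_le _ _)
    refine measure_ne_top_of_subset ?_ (hfin U le_rfl)
    exact Set.iUnion₂_subset fun m _ => Set.inter_subset_left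
  have : Nonempty (Fin M) := ⟨⟨0, hMpos⟩⟩
  have hcard : ((Fintype.card (Fin n → Fin M) : ℕ) : ℝ) = (M:ℝ) ^ n := by simp only [Fintype.card_pi, Fintype.card_fin, Finset.prod_const, Finset.card_univ, Nat.cast_pow]
  obtain ⟨m, -, hm⟩ := Finset.exists_le_of_sum_le (s := (Finset.univ : Finset (Fin n → Fin M)))
    (f := fun _ => volume.real U / (M:ℝ) ^ n) (g := fun m => volume.real (U ∩ cube (c m) r))
    Finset.univ_nonempty (by
      rw [Finset.sum_const, Finset.card_univ, nsmul_eq_mul, hcard]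
      have : (0:ℝ) < (M:ℝ) ^ n := by positivity
      rw [mul_div_cancel₀ _ this.ne']
      exact hsum)
  refine ⟨c m, ?_⟩
  have h1 : volume.real (U \ cube (c m) r) = volume.real U - volume.real (U ∩ cube (c m) r) := by
    have := measureReal_sdiff_add_inter (μ := volume) (s := U) (measurableSet_cube (c m) r)
      (h := hfin U le_rfl)
    linarith only [this]
  have h2 : (r / (2 * N + 1)) ^ n * volume.real U ≤ volume.real U / (M:ℝ) ^ n := by
    have h3 : (0:ℝ) ≤ volume.real U := measureReal_nonneg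
    have hMp : (0:ℝ) < M := by exact_mod_cast hMpos
    have h4 : r / (2 * N + 1) ≤ 1 / M := by
      rw [div_le_div_iff₀ (by positivity) hMp]
      rw [le_div_iff₀ hr] at hMle
      linarith only [hMle]
    have h5 : volume.real U / (M:ℝ) ^ n = (1 / M) ^ n * volume.real U := by
      rw [one_div_pow]; ring
    rw [h5]
    (clear * - hr hN h4; gcongr)
  rw [h1]
  linarith only [hm, h2]

/-- one stage of the greedy covering -/
lemma exists_stage {N : ℕ} (hN : 1 ≤ N) (r : ℕ → ℝ) (hr0 : ∀ i, 0 < r i) (hr1 : ∀ i, r i ≤ 1)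
    (hsum : ¬ Summable fun i => r i ^ n) (i₀ : ℕ) {ε : ℝ} (hε : 0 < ε) :
    ∃ i₁ > i₀, ∃ c : ℕ → E n,
      volume.real (hbox n N \ ⋃ i ∈ Set.Ico i₀ i₁, cube (c i) (r i)) ≤ ε := by
  have step : ∀ (i : ℕ) (U : {U : Set (E n) // MeasurableSet U ∧ U ⊆ hbox n N}),
      ∃ c : E n, volume.real (U.1 \ cube c (r i))
        ≤ (1 - (r i / (2 * N + 1)) ^ n) * volume.real U.1 :=
    fun i U => exists_good_corner hN (hr0 i) (hr1 i) U.1 U.2.1 U.2.2
  choose c hc using step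
  let U : ℕ → {U : Set (E n) // MeasurableSet U ∧ U ⊆ hbox n N} := fun j =>
    Nat.rec ⟨hbox n N, measurableSet_hbox N, le_rfl⟩
      (fun j U => ⟨U.1 \ cube (c (i₀ + j) U) (r (i₀ + j)),
        U.2.1.diff (measurableSet_cube _ _), Set.sdiff_subset.trans U.2.2⟩) j
  have hU : ∀ j, (U (j + 1)).1 = (U j).1 \ cube (c (i₀ + j) (U j)) (r (i₀ + j)) := fun j => rfl
  have hvol : ∀ J, volume.real (U J).1 ≤ volume.real (hbox n N) *
      Real.exp (-(∑ j ∈ Finset.range J, r (i₀ + j) ^ n) / (2 * N + 1) ^ n) := by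
    intro J
    induction J with
    | zero => simp only [Nat.rec_zero, Finset.range_zero, Finset.sum_empty, neg_zero, zero_div, Real.exp_zero, mul_one, Std.le_refl, U]
    | succ J ih =>
      rw [hU, Finset.sum_range_succ, neg_add, add_div, Real.exp_add, ← mul_assoc]
      refine (hc (i₀ + J) (U J)).trans ?_
      rw [mul_comm]
      have h1 : 1 - (r (i₀ + J) / (2 * N + 1)) ^ n
          ≤ Real.exp (-r (i₀ + J) ^ n / (2 * N + 1) ^ n) := by
        have := Real.add_one_le_exp (-r (i₀ + J) ^ n / (2 * N + 1) ^ n)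
        have h2 : -r (i₀ + J) ^ n / (2 * N + 1) ^ n = -(r (i₀ + J) / (2 * N + 1)) ^ n := by
          rw [div_pow]; ring
        rw [h2] at this ⊢
        linarith only [this]
      calc volume.real (U J).1 * (1 - (r (i₀ + J) / (2 * N + 1)) ^ n)
          ≤ volume.real (U J).1 * Real.exp (-r (i₀ + J) ^ n / (2 * N + 1) ^ n) :=
            mul_le_mul_of_nonneg_left h1 measureReal_nonneg
        _ ≤ _ := mul_le_mul_of_nonneg_right ih (Real.exp_pos _).le
  have hdiv : Tendsto (fun J => ∑ j ∈ Finset.range J, r (i₀ + j) ^ n) atTop atTop := by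
    have h1 : ¬ Summable fun j => r (i₀ + j) ^ n := by
      have := (summable_nat_add_iff (f := fun i => r i ^ n) i₀).not.2 hsum
      simpa only [add_comm] using this
    exact (not_summable_iff_tendsto_nat_atTop_of_nonneg
      (fun j => pow_nonneg (hr0 _).le n)).1 h1
  have hlim : Tendsto (fun J => volume.real (hbox n N) *
      Real.exp (-(∑ j ∈ Finset.range J, r (i₀ + j) ^ n) / (2 * N + 1) ^ n)) atTop (𝓝 0) := by
    have h1 : Tendsto (fun J => -(∑ j ∈ Finset.range J, r (i₀ + j) ^ n) / (2 * N + 1) ^ n)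
        atTop atBot := by
      simp_rw [neg_div]
      refine tendsto_neg_atTop_atBot.comp (hdiv.atTop_div_const (by positivity))
    have h2 := (Real.tendsto_exp_atBot.comp h1).const_mul (volume.real (hbox n N))
    rw [mul_zero] at h2
    exact h2
  obtain ⟨J, hJ1, hJ⟩ := ((eventually_ge_atTop 1).and (hlim.eventually (ge_mem_nhds hε))).exists
  refine ⟨i₀ + J, by omega, fun i => c i (U (i - i₀)), ?_⟩
  have hsub : ∀ J, hbox n N \ (⋃ i ∈ Set.Ico i₀ (i₀ + J), cube (c i (U (i - i₀))) (r i))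
      ⊆ (U J).1 := by
    intro J
    induction J with
    | zero => simp only [add_zero, lt_self_iff_false, not_false_eq_true, Set.Ico_eq_empty, Set.mem_empty_iff_false, Set.iUnion_of_empty, Set.iUnion_empty, Set.sdiff_empty, Nat.rec_zero, Std.le_refl, U]
    | succ J ih =>
      rw [hU]
      intro x hx
      refine ⟨ih ⟨hx.1, fun h => hx.2 ?_⟩, fun h => hx.2 ?_⟩
      · simp only [Set.mem_iUnion] at h ⊢
        obtain ⟨i, hi, hxi⟩ := h
        exact ⟨i, ⟨hi.1, by have := hi.2; omega⟩, hxi⟩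
      · simp only [Set.mem_iUnion]
        refine ⟨i₀ + J, ⟨by omega, by omega⟩, ?_⟩
        rwa [Nat.add_sub_cancel_left]
  refine (measureReal_mono (hsub J) ?_).trans ((hvol J).trans hJ)
  exact measure_ne_top_of_subset (U J).2.2 (by rw [volume_hbox]; exact ENNReal.ofReal_ne_top)

theorem exists_cover (r : ℕ → ℝ) (hr0 : ∀ i, 0 < r i) (hr1 : ∀ i, r i ≤ 1)
    (hsum : ¬ Summable fun i => r i ^ n) :
    ∃ c : ℕ → E n, ∀ᵐ x : E n, ∃ᶠ i in atTop, x ∈ cube (c i) (r i) := by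
  have H : ∀ N i₀ : ℕ, ∃ i₁ > i₀, ∃ c : ℕ → E n,
      volume.real (hbox n (N + 1) \ ⋃ i ∈ Set.Ico i₀ i₁, cube (c i) (r i)) ≤ (1 / 2) ^ N :=
    fun N i₀ => exists_stage (by omega) r hr0 hr1 hsum i₀ (by positivity)
  choose i₁ hi₁ c hc using H
  let I : ℕ → ℕ := fun N => Nat.rec 0 (fun N i => i₁ N i) N
  have hI0 : I 0 = 0 := rfl
  have hIs : ∀ N, I (N + 1) = i₁ N (I N) := fun N => rfl
  have hmono : StrictMono I := strictMono_nat_of_lt_succ fun N => by rw [hIs]; exact hi₁ N _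
  have hstage : ∀ i, ∃ N, I N ≤ i ∧ i < I (N + 1) := by
    intro i
    have hex : ∃ N, i < I (N + 1) := ⟨i, by have := hmono.id_le (i + 1); simp at this; omega⟩
    classical
    refine ⟨Nat.find hex, ?_, Nat.find_spec hex⟩
    rcases Nat.eq_zero_or_pos (Nat.find hex) with h | h
    · rw [h, hI0]; omega
    · have := Nat.find_min hex (m := Nat.find hex - 1) (by omega)
      rw [Nat.sub_add_cancel h] at this
      omega
  choose st hst1 hst2 using hstage
  have hst : ∀ N i, I N ≤ i → i < I (N + 1) → st i = N := by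
    intro N i h1 h2
    have h3 : I (st i) < I (N + 1) := (hst1 i).trans_lt h2
    have h4 : I N < I (st i + 1) := h1.trans_lt (hst2 i)
    have h5 : st i < N + 1 := hmono.lt_iff_lt.1 h3
    have h6 : N < st i + 1 := hmono.lt_iff_lt.1 h4
    omega
  refine ⟨fun i => c (st i) (I (st i)) i, ?_⟩
  set B : ℕ → Set (E n) := fun N =>
    hbox n (N + 1) \ ⋃ i ∈ Set.Ico (I N) (I (N + 1)), cube (c N (I N) i) (r i) with hB
  have hBvol : ∀ N, volume (B N) ≤ ENNReal.ofReal ((1 / 2) ^ N) := by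
    intro N
    have hfin : volume (B N) ≠ ⊤ := measure_ne_top_of_subset Set.sdiff_subset
      (by rw [volume_hbox]; exact ENNReal.ofReal_ne_top)
    rw [← ENNReal.ofReal_toReal hfin]
    exact ENNReal.ofReal_le_ofReal (hc N (I N))
  have hBsum : ∑' N, volume (B N) ≠ ⊤ := by
    refine ne_top_of_le_ne_top ?_ (ENNReal.tsum_le_tsum hBvol)
    rw [← ENNReal.ofReal_tsum_of_nonneg (fun N => by positivity)
      (summable_geometric_of_lt_one (by norm_num) (by norm_num))]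
    exact ENNReal.ofReal_ne_top
  have hae := ae_eventually_notMem hBsum
  filter_upwards [hae] with x hx
  rw [frequently_atTop]
  intro i₀
  have hbig : ∀ᶠ N : ℕ in atTop, x ∈ hbox n (N + 1) := by
    filter_upwards [eventually_ge_atTop ⌈‖x‖⌉₊] with N hN i
    have h1 : ‖x‖ ≤ N := (Nat.le_ceil _).trans (by exact_mod_cast hN)
    have h2 : |x i| ≤ ‖x‖ := by
      have := PiLp.norm_apply_le x i
      rwa [Real.norm_eq_abs] at this
    have h3 := abs_le.1 (h2.trans h1)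
    constructor
    · push_cast; linarith only [h3]
    · push_cast; linarith only [h3]
  obtain ⟨N, ⟨hN1, hN2⟩, hN3⟩ := ((hx.and hbig).and (eventually_ge_atTop i₀)).exists
  have h4 : x ∈ ⋃ i ∈ Set.Ico (I N) (I (N + 1)), cube (c N (I N) i) (r i) := by
    by_contra h
    exact hN1 ⟨hN2, h⟩
  simp only [Set.mem_iUnion] at h4
  obtain ⟨i, hi, hxi⟩ := h4
  refine ⟨i, ?_, ?_⟩
  · have := hmono.id_le N
    simp only [id] at this
    exact hN3.trans (this.trans hi.1)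
  · rwa [hst N i hi.1 hi.2]

end Vale.Agent.P076
end

section

open MeasureTheory Complex FourierTransform Filter Topology

namespace Vale.Agent.P076

/-- The conclusion of the unified divergence theorem in dimension `n`. -/
def UnifiedConclusion (n : ℕ) : Prop :=
  ∀ a : ℕ → ℝ, (∀ i, 0 < a i) → (¬ Summable fun i => a i ^ (2 + 2 / (n : ℝ))) →
    ∀ A : Set ℕ, A.Infinite → ∃ k : ℕ → ℕ, StrictMono k ∧ (∀ i, k i ∈ A) ∧
      ∃ (f : Lp ℂ 2 (volume : Measure (E n))) (u : ℝ → E n → ℂ),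
        (∀ᵐ ξ, hat f ξ ≠ 0 → ∃ i, 2 ^ k i ≤ ‖ξ‖ ∧ ‖ξ‖ < 2 ^ (k i + 1)) ∧
        (∀ i, 2 ^ (k i * sCrit n) * shellNorm f (k i) ≤ a i) ∧
        (∀ t > 0, ∀ x, Tendsto (fun b => schrReg f t b x) (𝓝[>] 0) (𝓝 (u t x))) ∧
        ∀ᵐ x, ∀ M : ℝ, ∃ᶠ t in 𝓝[>] (0 : ℝ), M < ‖u t x‖

variable {n : ℕ}

lemma measurableSet_shell (j : ℕ) : MeasurableSet {ξ : E n | 2 ^ j ≤ ‖ξ‖ ∧ ‖ξ‖ < 2 ^ (j + 1)} :=
  (measurableSet_le measurable_const measurable_norm).inter
    (measurableSet_lt measurable_norm measurable_const)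

lemma shell_disjoint {i j : ℕ} (h : i ≠ j) {ξ : E n} (hi : 2 ^ i ≤ ‖ξ‖ ∧ ‖ξ‖ < 2 ^ (i + 1))
    (hj : 2 ^ j ≤ ‖ξ‖ ∧ ‖ξ‖ < 2 ^ (j + 1)) : False := by
  rcases lt_or_gt_of_ne h with h | h
  · have : (2 : ℝ) ^ (i + 1) ≤ 2 ^ j := pow_le_pow_right₀ (by norm_num) h
    linarith only [hi, hj, this]
  · have : (2 : ℝ) ^ (j + 1) ≤ 2 ^ i := pow_le_pow_right₀ (by norm_num) h
    linarith only [hi, hj, this]

lemma shellNorm_eq_zero {f : Lp ℂ 2 (volume : Measure (E n))} {k : ℕ → ℕ}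
    (hf : ∀ᵐ ξ, hat f ξ ≠ 0 → ∃ i, 2 ^ k i ≤ ‖ξ‖ ∧ ‖ξ‖ < 2 ^ (k i + 1)) {j : ℕ}
    (hj : j ∉ Set.range k) : shellNorm f j = 0 := by
  unfold shellNorm
  have : ∫ ξ in {ξ : E n | 2 ^ j ≤ ‖ξ‖ ∧ ‖ξ‖ < 2 ^ (j + 1)}, ‖hat f ξ‖ ^ 2 = 0 := by
    rw [← integral_indicator (measurableSet_shell j)]
    apply integral_eq_zero_of_ae
    filter_upwards [hf] with ξ hξ
    by_cases hm : ξ ∈ {ξ : E n | 2 ^ j ≤ ‖ξ‖ ∧ ‖ξ‖ < 2 ^ (j + 1)}
    · rw [Set.indicator_of_mem hm]
      by_cases h0 : hat f ξ = 0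
      · simp [h0]
      · obtain ⟨i, hi⟩ := hξ h0
        exact (shell_disjoint (fun h => hj ⟨i, h⟩) hi hm).elim
    · rw [Set.indicator_of_notMem hm]; rfl
  rw [this, mul_zero, Real.sqrt_zero]

lemma shellNorm_nonneg (f : Lp ℂ 2 (volume : Measure (E n))) (j : ℕ) : 0 ≤ shellNorm f j :=
  Real.sqrt_nonneg _

theorem besov_of_unified (hn : 1 ≤ n) (hU : UnifiedConclusion n) :
    ∃ (f : Lp ℂ 2 (volume : Measure (E n))) (u : ℝ → E n → ℂ),
      (∀ q : ℝ, 2 + 2 / (n : ℝ) < q →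
        Summable fun j : ℕ => (2 ^ (j * sCrit n) * shellNorm f j) ^ q) ∧
      (∀ t > 0, ∀ x, Tendsto (fun b => schrReg f t b x) (𝓝[>] 0) (𝓝 (u t x))) ∧
      ∀ᵐ x, ∀ M : ℝ, ∃ᶠ t in 𝓝[>] (0 : ℝ), M < ‖u t x‖ := by
  have hn0 : (0 : ℝ) < n := by exact_mod_cast hn
  set p : ℝ := 2 + 2 / (n : ℝ) with hp
  have hp0 : 0 < p := by positivity
  have hterm : ∀ (i : ℕ) (q : ℝ), (((i : ℝ) + 1) ^ (-(1 / p))) ^ q = 1 / ((i : ℝ) + 1) ^ (q / p) := by
    intro i q
    rw [← Real.rpow_mul (by positivity), one_div (((i : ℝ) + 1) ^ (q / p)), ← Real.rpow_neg (by positivity)]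
    congr 1
    (clear * - hp0; field_simp)
  have hnot : ¬ Summable fun i : ℕ => (((i : ℝ) + 1) ^ (-(1 / p))) ^ p := by
    simp_rw [hterm, div_self hp0.ne', Real.rpow_one]
    have := Real.not_summable_one_div_natCast
    rw [← summable_nat_add_iff 1] at this
    simpa only [one_div, Nat.cast_add, Nat.cast_one] using this
  obtain ⟨k, hk, -, f, u, hsupp, hle, hval, hdiv⟩ := hU (fun i => ((i : ℝ) + 1) ^ (-(1 / p)))
    (fun i => by (clear * -; positivity)) hnot Set.univ Set.infinite_univ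
  refine ⟨f, u, fun q hq => ?_, hval, hdiv⟩
  have hq0 : 0 < q := hp0.trans hq
  have hzero : ∀ j ∉ Set.range k, (2 ^ ((j : ℝ) * sCrit n) * shellNorm f j) ^ q = 0 := by
    intro j hj
    rw [shellNorm_eq_zero hsupp hj, mul_zero, Real.zero_rpow hq0.ne']
  rw [← hk.injective.summable_iff hzero]
  have hs : Summable fun i : ℕ => 1 / ((i : ℝ) + 1) ^ (q / p) := by
    have h1 : 1 < q / p := by rw [lt_div_iff₀ hp0]; linarith only [hq]
    have := (Real.summable_one_div_nat_rpow (p := q / p)).2 h1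
    rw [← summable_nat_add_iff 1] at this
    simpa only [one_div, Nat.cast_add, Nat.cast_one] using this
  refine Summable.of_nonneg_of_le (fun i => ?_) (fun i => ?_) hs
  · have := shellNorm_nonneg f (k i)
    simp only [Function.comp]
    (clear * - this; positivity)
  · simp only [Function.comp]
    rw [← hterm]
    have := shellNorm_nonneg f (k i)
    exact Real.rpow_le_rpow (by (clear * - this; positivity)) (hle i) hq0.le

lemma stronglyMeasurable_hat (f : Lp ℂ 2 (volume : Measure (E n))) : StronglyMeasurable (hat f) := by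
  unfold hat
  exact (Lp.stronglyMeasurable _).comp_measurable (measurable_const_smul _)

lemma integrable_hat_sq (f : Lp ℂ 2 (volume : Measure (E n))) :
    Integrable fun ξ => ‖hat f ξ‖ ^ 2 := by
  have h1 : Integrable (fun η => ‖(𝓕 f : Lp ℂ 2 (volume : Measure (E n))) η‖ ^ 2) :=
    (Lp.memLp (𝓕 f : Lp ℂ 2 (volume : Measure (E n)))).integrable_norm_pow (p := 2) (by norm_num)
  exact h1.comp_smul (R := (2 * Real.pi)⁻¹) (by positivity)

lemma shellNorm_sq (f : Lp ℂ 2 (volume : Measure (E n))) (j : ℕ) :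
    shellNorm f j ^ 2 = ((2 * Real.pi) ^ n)⁻¹ *
      ∫ ξ in {ξ : E n | 2 ^ j ≤ ‖ξ‖ ∧ ‖ξ‖ < 2 ^ (j + 1)}, ‖hat f ξ‖ ^ 2 := by
  have h3 : 0 ≤ ∫ ξ in {ξ : E n | 2 ^ j ≤ ‖ξ‖ ∧ ‖ξ‖ < 2 ^ (j + 1)}, ‖hat f ξ‖ ^ 2 :=
    integral_nonneg fun _ => by positivity
  unfold shellNorm
  rw [Real.sq_sqrt (by positivity)]

/-- a weight that dips infinitely often below `r^{2 s_n}` -/
lemma exists_dyadic {w : ℝ → ℝ} (hw : Monotone w) (hn : 1 ≤ n)
    (h : ∀ ε > 0, ∃ᶠ r in atTop, w r ≤ ε * r ^ (2 * sCrit n)) (j : ℕ) :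
    ∃ᶠ k : ℕ in atTop, w (2 ^ (k + 1)) ≤ (1 / 4) ^ j * 2 ^ (2 * k * sCrit n) := by
  rw [frequently_atTop]
  intro N
  have hs : 0 ≤ sCrit n := by unfold sCrit; positivity
  have hs1 : 2 * sCrit n ≤ 1 := by
    unfold sCrit
    have : (0:ℝ) < (n : ℝ) + 1 := by positivity
    rw [show 2 * ((n : ℝ) / (2 * (n + 1))) = n / (n + 1) by field_simp, div_le_one this]
    linarith only []
  obtain ⟨r, hr1, hr2⟩ := frequently_atTop.1 (h ((1 / 4) ^ j / 4) (by positivity)) (2 ^ (N + 1))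
  obtain ⟨l, hl1, hl2⟩ := exists_nat_pow_near (x := r) (y := 2)
    (le_trans (one_le_pow₀ (by norm_num)) hr1) (by norm_num)
  have hNl : N + 1 ≤ l := by
    have : (2 : ℝ) ^ (N + 1) < 2 ^ (l + 1) := lt_of_le_of_lt hr1 hl2
    have := (pow_lt_pow_iff_right₀ (by norm_num : (1 : ℝ) < 2)).1 this
    omega
  obtain ⟨k, rfl⟩ : ∃ k, l = k + 1 := ⟨l - 1, by omega⟩
  refine ⟨k, by omega, ?_⟩
  have hr0 : 0 < r := lt_of_lt_of_le (by positivity) hl1
  calc w (2 ^ (k + 1)) ≤ w r := hw hl1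
    _ ≤ (1 / 4) ^ j / 4 * r ^ (2 * sCrit n) := hr2
    _ ≤ (1 / 4) ^ j / 4 * (2 ^ (k + 1 + 1)) ^ (2 * sCrit n) := by
        (clear * - hr0 hl2 hs; gcongr)
    _ = (1 / 4) ^ j / 4 * (4 ^ (2 * sCrit n) * 2 ^ (2 * k * sCrit n)) := by
        rw [show (2 : ℝ) ^ (k + 1 + 1) = 4 * 2 ^ k by ring, Real.mul_rpow (by norm_num) (by positivity),
          ← Real.rpow_natCast 2 k, ← Real.rpow_mul (by norm_num)]
        congr 3
        ring
    _ ≤ (1 / 4) ^ j / 4 * (4 * 2 ^ (2 * k * sCrit n)) := by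
        gcongr
        calc (4 : ℝ) ^ (2 * sCrit n) ≤ 4 ^ (1 : ℝ) :=
              Real.rpow_le_rpow_of_exponent_le (by norm_num) hs1
          _ = 4 := Real.rpow_one 4
    _ = _ := by ring

theorem weights_of_unified (hn : 1 ≤ n) (hU : UnifiedConclusion n) {w : ℝ → ℝ} (hw : Monotone w)
    (hw0 : ∀ r, 0 ≤ w r) (hlim : ∀ ε > 0, ∃ᶠ r in atTop, w r ≤ ε * r ^ (2 * sCrit n)) :
    ∃ (f : Lp ℂ 2 (volume : Measure (E n))) (u : ℝ → E n → ℂ),
      Integrable (fun ξ => w ‖ξ‖ * ‖hat f ξ‖ ^ 2) ∧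
      (∀ t > 0, ∀ x, Tendsto (fun b => schrReg f t b x) (𝓝[>] 0) (𝓝 (u t x))) ∧
      ∀ᵐ x, ∀ M : ℝ, ∃ᶠ t in 𝓝[>] (0 : ℝ), M < ‖u t x‖ := by
  obtain ⟨φ, hφ, hφ2⟩ := extraction_forall_of_frequently (exists_dyadic hw hn hlim)
  obtain ⟨k, hk, hkφ, f, u, hsupp, hle, hval, hdiv⟩ := hU (fun _ => 1) (fun _ => one_pos)
    (by simp only [Real.one_rpow, summable_const_iff, one_ne_zero, not_false_eq_true]) (Set.range φ) (Set.infinite_range_of_injective hφ.injective)
  refine ⟨f, u, ?_, hval, hdiv⟩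
  choose j hj using hkφ
  have hjmono : StrictMono j := by
    intro i i' hii'
    have := hk hii'
    rw [← hj i, ← hj i'] at this
    exact hφ.lt_iff_lt.1 this
  set S : ℕ → Set (E n) := fun i => {ξ : E n | 2 ^ k i ≤ ‖ξ‖ ∧ ‖ξ‖ < 2 ^ (k i + 1)} with hS
  have hSm : ∀ i, MeasurableSet (S i) := fun i => measurableSet_shell _
  have hmeas : AEStronglyMeasurable (fun ξ => w ‖ξ‖ * ‖hat f ξ‖ ^ 2) volume :=
    ((hw.measurable.comp measurable_norm).mul
      ((stronglyMeasurable_hat f).measurable.norm.pow_const 2)).aestronglyMeasurable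
  have hbd : ∀ i, ∀ ξ ∈ S i, w ‖ξ‖ * ‖hat f ξ‖ ^ 2 ≤ w (2 ^ (k i + 1)) * ‖hat f ξ‖ ^ 2 := by
    intro i ξ hξ
    have := hw hξ.2.le
    (clear * - this; gcongr)
  have hnn : ∀ ξ, 0 ≤ w ‖ξ‖ * ‖hat f ξ‖ ^ 2 := fun ξ => mul_nonneg (hw0 _) (by (clear * -; positivity))
  have hint : ∀ i, IntegrableOn (fun ξ => w ‖ξ‖ * ‖hat f ξ‖ ^ 2) (S i) := by
    intro i
    refine Integrable.mono' ((integrable_hat_sq f).const_mul (w (2 ^ (k i + 1)))).integrableOn
      hmeas.restrict ?_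
    filter_upwards [ae_restrict_mem (hSm i)] with ξ hξ
    rw [Real.norm_of_nonneg (hnn ξ)]
    exact hbd i ξ hξ
  have hon : IntegrableOn (fun ξ => w ‖ξ‖ * ‖hat f ξ‖ ^ 2) (⋃ i, S i) := by
    refine integrableOn_iUnion_of_summable_integral_norm hint ?_
    have hgeo : Summable fun i : ℕ => (2 * Real.pi) ^ n * (1 / 4 : ℝ) ^ i :=
      (summable_geometric_of_lt_one (by norm_num) (by norm_num)).mul_left _
    refine Summable.of_nonneg_of_le (fun i => integral_nonneg fun _ => norm_nonneg _) (fun i => ?_) hgeo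
    calc ∫ ξ in S i, ‖w ‖ξ‖ * ‖hat f ξ‖ ^ 2‖
        = ∫ ξ in S i, w ‖ξ‖ * ‖hat f ξ‖ ^ 2 := by
          congr 1; ext ξ; rw [Real.norm_of_nonneg (hnn ξ)]
      _ ≤ ∫ ξ in S i, w (2 ^ (k i + 1)) * ‖hat f ξ‖ ^ 2 :=
          setIntegral_mono_on (hint i) ((integrable_hat_sq f).const_mul _).integrableOn (hSm i) (hbd i)
      _ = w (2 ^ (k i + 1)) * ∫ ξ in S i, ‖hat f ξ‖ ^ 2 := integral_const_mul _ _
      _ ≤ ((1 / 4) ^ i * 2 ^ (2 * (k i) * sCrit n)) * ∫ ξ in S i, ‖hat f ξ‖ ^ 2 := by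
          have h1 := hφ2 (j i)
          rw [hj i] at h1
          have h2 : (1 / 4 : ℝ) ^ (j i) ≤ (1 / 4) ^ i :=
            pow_le_pow_of_le_one (by norm_num) (by norm_num) hjmono.le_apply
          have h3 : 0 ≤ ∫ ξ in S i, ‖hat f ξ‖ ^ 2 := integral_nonneg fun _ => by (clear * -; positivity)
          gcongr
          exact h1.trans (by (clear * - h2; gcongr))
      _ = (2 * Real.pi) ^ n * (1 / 4 : ℝ) ^ i * (2 ^ (k i * sCrit n) * shellNorm f (k i)) ^ 2 := by
          have h4 : ((2 : ℝ) ^ ((k i : ℝ) * sCrit n)) ^ 2 = 2 ^ (2 * (k i : ℝ) * sCrit n) := by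
            rw [← Real.rpow_natCast (2 ^ _) 2, ← Real.rpow_mul (by norm_num)]
            congr 1; push_cast; ring
          rw [mul_pow (2 ^ ((k i : ℝ) * sCrit n)), shellNorm_sq, h4]
          have key : ∀ a b c d : ℝ, a ≠ 0 → b * c * d = a * b * (c * (a⁻¹ * d)) := by
            intro a b c d ha
            rw [show a * b * (c * (a⁻¹ * d)) = (a * a⁻¹) * (b * c * d) by ring,
              mul_inv_cancel₀ ha, one_mul]
          exact key _ _ _ _ (pow_pos (mul_pos two_pos Real.pi_pos) n).ne'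
      _ ≤ (2 * Real.pi) ^ n * (1 / 4 : ℝ) ^ i * 1 ^ 2 := by
          have := shellNorm_nonneg f (k i)
          have := hle i
          (clear hn hU w hw hw0 hlim φ hφ hφ2 hk u hsupp hval hdiv j hj hjmono S hS hSm hmeas hbd hnn hint hgeo; gcongr)
      _ = _ := by ring
  refine hon.integrable_of_ae_notMem_eq_zero ?_
  filter_upwards [hsupp] with ξ hξ hmem
  have : hat f ξ = 0 := by
    by_contra h0
    obtain ⟨i, hi⟩ := hξ h0
    exact hmem (Set.mem_iUnion.2 ⟨i, hi⟩)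
  simp [this]

end Vale.Agent.P076
end

section

/-!
The unified divergence theorem from the block property.
-/

open MeasureTheory Complex FourierTransform Filter Topology
open scoped ENNReal NNReal

namespace Vale.Agent.P076

variable {n : ℕ}

/-- Abel-Dini -/
lemma abel_dini {b : ℕ → ℝ} (hb : ∀ i, 0 ≤ b i) (h : ¬ Summable b) :
    ∃ S : ℕ → ℝ, (∀ i, 1 ≤ S i) ∧ Tendsto S atTop atTop ∧ ¬ Summable fun i => b i / S i := by
  set S : ℕ → ℝ := fun i => 1 + ∑ j ∈ Finset.range (i + 1), b j with hS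
  have hdiv : Tendsto (fun i => ∑ j ∈ Finset.range i, b j) atTop atTop :=
    (not_summable_iff_tendsto_nat_atTop_of_nonneg hb).1 h
  have hST : Tendsto S atTop atTop :=
    tendsto_atTop_add_const_left _ _ (hdiv.comp (tendsto_add_atTop_nat 1))
  have hS1 : ∀ i, 1 ≤ S i := fun i => by
    have : 0 ≤ ∑ j ∈ Finset.range (i + 1), b j := Finset.sum_nonneg fun j _ => hb j
    simp only [hS]; linarith
  refine ⟨S, hS1, hST, fun hsum => ?_⟩
  have hpos : ∀ i, 0 < S i := fun i => one_pos.trans_le (hS1 i)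
  -- tails are small
  obtain ⟨N, hN⟩ := ((tendsto_sum_nat_add fun i => b i / S i).eventually
    (gt_mem_nhds (by norm_num : (0:ℝ) < 1 / 4))).exists
  obtain ⟨M, hM1, hM2⟩ := ((hST.eventually (eventually_ge_atTop (2 * S N))).and
    (eventually_ge_atTop N)).exists
  have hsN : Summable fun i => b (i + N) / S (i + N) := (summable_nat_add_iff (f := fun i => b i / S i) N).2 hsum
  have h1 : ∑ i ∈ Finset.range (M + 1 - N), b (i + N) / S M
      ≤ ∑' i, b (i + N) / S (i + N) := by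
    refine le_trans (Finset.sum_le_sum fun i hi => ?_) (hsN.sum_le_tsum _ fun i _ => ?_)
    · have hi' := Finset.mem_range.1 hi
      have : S (i + N) ≤ S M := by
        simp only [hS]
        gcongr
        · exact fun j _ _ => hb j
        · omega
      have h3 := hb (i + N)
      have h4 := hpos (i + N)
      (clear * - h3 h4 this; gcongr)
    · exact div_nonneg (hb _) (hpos _).le
  have h2 : ∑ i ∈ Finset.range (M + 1 - N), b (i + N) = ∑ j ∈ Finset.range (M + 1), b j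
      - ∑ j ∈ Finset.range N, b j := by
    have h3 := Finset.sum_range_add_sum_Ico b (by omega : N ≤ M + 1)
    have h4 := Finset.sum_Ico_eq_sum_range b N (M + 1)
    have h5 : ∑ i ∈ Finset.range (M + 1 - N), b (i + N) = ∑ i ∈ Finset.range (M + 1 - N), b (N + i) :=
      Finset.sum_congr rfl fun i _ => by rw [add_comm]
    rw [h5, ← h4]
    linarith only [h3]
  rw [← Finset.sum_div, h2] at h1
  have h6 : ∑ j ∈ Finset.range N, b j ≤ S N - 1 := by
    simp only [hS, Finset.sum_range_succ]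
    linarith only [hb N]
  have h7 : ∑ j ∈ Finset.range (M + 1), b j = S M - 1 := by simp only [hS]; ring
  have h8 : (1:ℝ) / 2 ≤ (∑ j ∈ Finset.range (M + 1), b j - ∑ j ∈ Finset.range N, b j) / S M := by
    rw [le_div_iff₀ (hpos M)]
    linarith only [hM1, h6]
  linarith only [hN, h1, h8]

lemma choose_radii (hn : 1 ≤ n) {C : ℝ} (hC : 0 < C) {a : ℕ → ℝ} (ha : ∀ i, 0 < a i)
    (hsum : ¬ Summable fun i => a i ^ (2 + 2 / (n : ℝ))) :
    ∃ lam r : ℕ → ℝ, (∀ i, 1 ≤ lam i) ∧ Tendsto lam atTop atTop ∧ (∀ i, 0 < r i) ∧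
      (∀ i, r i ≤ 1) ∧ (¬ Summable fun i => r i ^ n) ∧
      ∀ i, lam i ^ 2 * (C * r i ^ ((n : ℝ) ^ 2 / (n + 1))) ≤ a i ^ 2 := by
  have hn0 : (0 : ℝ) < n := by exact_mod_cast hn
  set p : ℝ := 2 + 2 / (n : ℝ) with hp
  have hp0 : 0 < p := by positivity
  set b : ℕ → ℝ := fun i => (min (a i) 1) ^ p with hb
  have hmin : ∀ i, 0 < min (a i) 1 := fun i => lt_min (ha i) one_pos
  have hb0 : ∀ i, 0 < b i := fun i => Real.rpow_pos_of_pos (hmin i) _
  have hbs : ¬ Summable b := by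
    intro h
    apply hsum
    have h1 : ∀ᶠ i in atTop, b i = a i ^ p := by
      filter_upwards [h.tendsto_atTop_zero.eventually (gt_mem_nhds one_pos)] with i hi
      have h2 : ¬ (1 ≤ a i) := by
        intro h3
        simp only [hb, min_eq_right h3, Real.one_rpow] at hi
        exact lt_irrefl _ hi
      simp only [hb, min_eq_left (not_le.1 h2).le]
    exact (summable_congr_atTop h1).1 h
  obtain ⟨S, hS1, hST, hSs⟩ := abel_dini (fun i => (hb0 i).le) hbs
  have hS0 : ∀ i, 0 < S i := fun i => one_pos.trans_le (hS1 i)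
  set C₀ : ℝ := max 1 C with hC₀
  have hC1 : 1 ≤ C₀ := le_max_left _ _
  have hC2 : C ≤ C₀ ^ 2 := by
    have : C ≤ C₀ := le_max_right _ _
    exact this.trans (by rw [pow_two]; exact le_mul_of_one_le_left (by linarith only [hC1]) hC1)
  have hC0' : 0 < C₀ := one_pos.trans_le hC1
  set lam : ℕ → ℝ := fun i => S i ^ (1 / p) with hlam
  have hlam1 : ∀ i, 1 ≤ lam i := fun i => Real.one_le_rpow (hS1 i) (by positivity)
  have hlam0 : ∀ i, 0 < lam i := fun i => one_pos.trans_le (hlam1 i)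
  have hlamp : ∀ i, lam i ^ p = S i := fun i => by
    simp only [hlam]
    rw [← Real.rpow_mul (hS0 i).le, one_div, inv_mul_cancel₀ hp0.ne', Real.rpow_one]
  set q : ℕ → ℝ := fun i => min (a i) 1 / (C₀ * lam i) with hq
  have hq0 : ∀ i, 0 < q i := fun i => div_pos (hmin i) (mul_pos hC0' (hlam0 i))
  have hq1 : ∀ i, q i ≤ 1 := fun i => by
    simp only [hq]
    rw [div_le_one (mul_pos hC0' (hlam0 i))]
    exact (min_le_right _ _).trans (one_le_mul_of_one_le_of_one_le hC1 (hlam1 i))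
  set κ : ℝ := 2 * (n + 1) / (n : ℝ) ^ 2 with hκ
  have hκ0 : 0 < κ := by positivity
  refine ⟨lam, fun i => q i ^ κ, hlam1, (tendsto_rpow_atTop (by positivity)).comp hST,
    fun i => Real.rpow_pos_of_pos (hq0 i) _, fun i => Real.rpow_le_one (hq0 i).le (hq1 i) hκ0.le,
    ?_, fun i => ?_⟩
  · have h1 : ∀ i, (q i ^ κ) ^ n = (C₀ ^ p)⁻¹ * (b i / S i) := by
      intro i
      rw [← Real.rpow_natCast, ← Real.rpow_mul (hq0 i).le]
      have h2 : κ * n = p := by
        rw [hκ, hp]; field_simp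
      rw [h2]
      simp only [hq, hb]
      rw [Real.div_rpow (hmin i).le (mul_pos hC0' (hlam0 i)).le,
        Real.mul_rpow hC0'.le (hlam0 i).le, hlamp]
      (clear * - hC1; field_simp)
    simp_rw [h1]
    rw [summable_mul_left_iff (by positivity)]
    exact hSs
  · have h1 : (q i ^ κ) ^ ((n : ℝ) ^ 2 / (n + 1)) = q i ^ 2 := by
      rw [← Real.rpow_mul (hq0 i).le, ← Real.rpow_natCast (q i) 2]
      congr 1
      rw [hκ]
      push_cast
      field_simp
    simp only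
    rw [h1]
    have h2 : lam i ^ 2 * (C * q i ^ 2) = C * (min (a i) 1) ^ 2 / C₀ ^ 2 := by
      simp only [hq]
      have := (hlam0 i).ne'
      (clear * - this hC1 hC; field_simp)
    rw [h2, div_le_iff₀ (by positivity)]
    have h3 : (min (a i) 1) ^ 2 ≤ a i ^ 2 := by
      have := (hmin i).le
      gcongr
      exact min_le_left _ _
    have h4 : 0 ≤ (min (a i) 1) ^ 2 := by (clear * -; positivity)
    rw [mul_comm (a i ^ 2)]; exact mul_le_mul hC2 h3 h4 (sq_nonneg C₀)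

/-- dilation of a.e. statements -/
lemma ae_smul {p : E n → Prop} (h : ∀ᵐ η : E n, p η) {r : ℝ} (hr : r ≠ 0) :
    ∀ᵐ ξ : E n, p (r • ξ) := by
  rw [ae_iff] at h ⊢
  have := Measure.addHaar_preimage_smul (volume : Measure (E n)) hr {η | ¬ p η}
  rw [h, mul_zero] at this
  exact this

lemma setIntegral_hat_sq (f : Lp ℂ 2 (volume : Measure (E n))) (j : ℕ) :
    ((2 * Real.pi) ^ n)⁻¹ * ∫ ξ in {ξ : E n | 2 ^ j ≤ ‖ξ‖ ∧ ‖ξ‖ < 2 ^ (j + 1)}, ‖hat f ξ‖ ^ 2
      = ∫ η in {η : E n | 2 ^ j ≤ 2 * Real.pi * ‖η‖ ∧ 2 * Real.pi * ‖η‖ < 2 ^ (j + 1)},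
        ‖(𝓕 f : Lp ℂ 2 (volume : Measure (E n))) η‖ ^ 2 := by
  have hpi : (0:ℝ) < 2 * Real.pi := by positivity
  have hms : MeasurableSet
      {η : E n | 2 ^ j ≤ 2 * Real.pi * ‖η‖ ∧ 2 * Real.pi * ‖η‖ < 2 ^ (j + 1)} :=
    (measurableSet_le measurable_const (measurable_norm.const_mul _)).inter
      (measurableSet_lt (measurable_norm.const_mul _) measurable_const)
  rw [← integral_indicator (measurableSet_shell j), ← integral_indicator hms]
  have h1 : ∀ ξ : E n, Set.indicator {ξ : E n | 2 ^ j ≤ ‖ξ‖ ∧ ‖ξ‖ < 2 ^ (j + 1)}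
      (fun ξ => ‖hat f ξ‖ ^ 2) ξ =
      (fun η => Set.indicator {η : E n | 2 ^ j ≤ 2 * Real.pi * ‖η‖ ∧
        2 * Real.pi * ‖η‖ < 2 ^ (j + 1)}
        (fun η => ‖(𝓕 f : Lp ℂ 2 (volume : Measure (E n))) η‖ ^ 2) η) ((2 * Real.pi)⁻¹ • ξ) := by
    intro ξ
    have h2 : 2 * Real.pi * ‖(2 * Real.pi)⁻¹ • ξ‖ = ‖ξ‖ := by
      rw [norm_smul, Real.norm_of_nonneg (by positivity), ← mul_assoc,
        mul_inv_cancel₀ hpi.ne', one_mul]
    simp only [Set.indicator, Set.mem_setOf_eq, h2, hat]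
  simp_rw [h1]
  rw [Measure.integral_comp_inv_smul_of_nonneg _ _ hpi.le, finrank_euclideanSpace,
    Fintype.card_fin, smul_eq_mul, ← mul_assoc, inv_mul_cancel₀ (by positivity), one_mul]

/-- on its shell the Fourier transform of the superposition is the corresponding piece -/
lemma shell_integral_eq {F : ℕ → E n → ℂ} {k : ℕ → ℕ} (hk : StrictMono k)
    (hsupp : ∀ i η, F i η ≠ 0 → 2 ^ (k i) ≤ 2 * Real.pi * ‖η‖ ∧
      2 * Real.pi * ‖η‖ < 2 ^ (k i + 1)) {g : E n → ℂ}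
    (hg : ∀ᵐ η, HasSum (fun i => F i η) (g η)) (i : ℕ) :
    ∫ η in {η : E n | 2 ^ (k i) ≤ 2 * Real.pi * ‖η‖ ∧ 2 * Real.pi * ‖η‖ < 2 ^ (k i + 1)}, ‖g η‖ ^ 2
      = ∫ η, ‖F i η‖ ^ 2 := by
  have hms : MeasurableSet
      {η : E n | 2 ^ (k i) ≤ 2 * Real.pi * ‖η‖ ∧ 2 * Real.pi * ‖η‖ < 2 ^ (k i + 1)} :=
    (measurableSet_le measurable_const (measurable_norm.const_mul _)).inter
      (measurableSet_lt (measurable_norm.const_mul _) measurable_const)
  rw [← integral_indicator hms]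
  apply integral_congr_ae
  filter_upwards [hg] with η hη
  by_cases hm : η ∈ {η : E n | 2 ^ (k i) ≤ 2 * Real.pi * ‖η‖ ∧ 2 * Real.pi * ‖η‖ < 2 ^ (k i + 1)}
  · rw [Set.indicator_of_mem hm]
    have h1 : ∀ j ≠ i, F j η = 0 := by
      intro j hj
      by_contra h0
      have h2 := hsupp j η h0
      have hm' := Set.mem_setOf_eq ▸ hm
      rcases lt_or_gt_of_ne hj with h | h
      · have h3 : (2 : ℝ) ^ (k j + 1) ≤ 2 ^ (k i) := pow_le_pow_right₀ (by norm_num) (hk h)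
        linarith only [h2, hm', h3]
      · have h3 : (2 : ℝ) ^ (k i + 1) ≤ 2 ^ (k j) := pow_le_pow_right₀ (by norm_num) (hk h)
        linarith only [h2, hm', h3]
    rw [hη.unique (hasSum_single i h1)]
  · rw [Set.indicator_of_notMem hm]
    have : F i η = 0 := by
      by_contra h0
      exact hm (hsupp i η h0)
    simp [this]

lemma evo_const_mul (v : ℂ) (G : E n → ℂ) (x : E n) (s a : ℝ) :
    evo (fun η => v * G η) x s a = v * evo G x s a := by
  rw [evo_eq, evo_eq, ← integral_const_mul]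
  congr 1
  ext η
  ring

/-- scaled block -/
lemma block_of_property {C : ℝ} (hB : BlockProperty n C) (c : E n) {r V B s₀ ε : ℝ}
    (hr : 0 < r) (hV : 1 ≤ V) (hs₀ : 0 < s₀) (hε : 0 < ε) :
    ∃ k₀ : ℕ, ∀ k ≥ k₀, ∃ (F : E n → ℂ) (s₁ : ℝ), IsBlock 1 k (cube c r) ∅ V
      (V ^ 2 * (C * r ^ ((n : ℝ) ^ 2 / (n + 1))) * (2 : ℝ) ^ (-(2 * k * sCrit n))) B s₀ ε s₁ F := by
  have hV0 : 0 < V := one_pos.trans_le hV
  obtain ⟨k₀, hk₀⟩ := hB c r B s₀ (ε / V) hr hs₀ (by positivity)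
  refine ⟨k₀, fun k hk => ?_⟩
  obtain ⟨G, s₁, hs₁, hm, ⟨b, hb⟩, hsupp, hcost, hgood, htail⟩ := hk₀ k hk
  have hnorm : ∀ η, ‖(V : ℂ) * G η‖ = V * ‖G η‖ := fun η => by
    rw [norm_mul, Complex.norm_real, Real.norm_of_nonneg hV0.le]
  have hεV : ε / V ≤ ε := div_le_self hε.le hV
  refine ⟨fun η => (V : ℂ) * G η, s₁, hm.const_mul _, ⟨V * b, fun η => ?_⟩, fun η hη => ?_, ?_, hs₁,
    fun x hx => ?_, fun x hx => hx.elim, fun x hx s hs a ha => ?_⟩
  · rw [hnorm]
    have := hb η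
    (clear * - this hV; gcongr)
  · exact hsupp η (right_ne_zero_of_mul hη)
  · simp_rw [hnorm, mul_pow]
    rw [integral_const_mul]
    calc V ^ 2 * ∫ η, ‖G η‖ ^ 2
        ≤ V ^ 2 * (C * r ^ ((n : ℝ) ^ 2 / (n + 1)) * (2 : ℝ) ^ (-(2 * k * sCrit n))) := by (clear * - hcost hV; gcongr)
      _ = _ := by ring
  · obtain ⟨s, h1, h2, h3⟩ := hgood x hx
    refine ⟨s, h1, h2.trans hεV, ?_⟩
    rw [evo_const_mul, norm_mul, Complex.norm_real, Real.norm_of_nonneg hV0.le]
    exact le_mul_of_one_le_right hV0.le h3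
  · rw [evo_const_mul, norm_mul, Complex.norm_real, Real.norm_of_nonneg hV0.le]
    have := htail x hx s hs a ha
    rw [le_div_iff₀ hV0] at this
    linarith only [this]

theorem unified (hn : 1 ≤ n) {C : ℝ} (hC : 0 < C) (hB : BlockProperty n C) :
    UnifiedConclusion n := by
  intro a ha hsum A hA
  obtain ⟨lam, r, hlam1, hlamT, hr0, hr1, hrs, hcost⟩ := choose_radii hn hC ha hsum
  obtain ⟨c, hc⟩ := exists_cover r hr0 hr1 hrs
  have hsc : 0 < sCrit n := by
    unfold sCrit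
    have : (0 : ℝ) < n := by exact_mod_cast hn
    positivity
  set Γ : ℕ → ℕ → ℝ := fun i k => lam i ^ 2 * (C * r i ^ ((n : ℝ) ^ 2 / (n + 1))) *
    (2 : ℝ) ^ (-(2 * k * sCrit n)) with hΓdef
  have hΓ : ∀ i, Tendsto (Γ i) atTop (𝓝 0) := by
    intro i
    have h1 : Tendsto (fun k : ℕ => (2 : ℝ) ^ (-(2 * k * sCrit n))) atTop (𝓝 0) := by
      have h2 : ∀ k : ℕ, (2 : ℝ) ^ (-(2 * k * sCrit n)) = ((2 : ℝ) ^ (-(2 * sCrit n))) ^ k := by
        intro k
        rw [← Real.rpow_natCast, ← Real.rpow_mul (by norm_num)]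
        congr 1; ring
      simp_rw [h2]
      exact tendsto_pow_atTop_nhds_zero_of_lt_one (by positivity)
        (Real.rpow_lt_one_of_one_lt_of_neg (by norm_num) (by linarith only [hsc]))
    have := h1.const_mul (lam i ^ 2 * (C * r i ^ ((n : ℝ) ^ 2 / (n + 1))))
    rwa [mul_zero] at this
  obtain ⟨d, k, F, f, u, z, -, -, hk, hFm, hFb, hFs, hFc, hf, hu, -, hdiv, -⟩ :=
    master (n := n) (α := Unit) 1 (fun _ _ _ => True) (fun i _ => cube (c i) (r i)) ∅ lam
      (fun i => 1 / (i + 1)) Γ A (fun i => one_pos.trans_le (hlam1 i)) (fun i => by (clear * -; positivity)) hΓ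
      (by
        intro i _ B s₀ ε K hs₀ hε
        obtain ⟨k₀, hk₀⟩ := block_of_property hB (c i) (B := B) (hr0 i) (hlam1 i) hs₀ hε
        obtain ⟨k, hkA, hk⟩ := hA.exists_gt (max k₀ K)
        obtain ⟨F, s₁, hF⟩ := hk₀ k ((le_max_left _ _).trans hk.le)
        exact ⟨(), k, F, s₁, trivial, (le_max_right _ _).trans hk.le, hkA, hF⟩) () 0
  have hkmono : StrictMono k := strictMono_nat_of_lt_succ fun i => by
    have := (hk i).2.1
    omega
  refine ⟨k, hkmono, fun i => (hk i).2.2, f, u, ?_, fun i => ?_, hu, ?_⟩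
  · have hpi : (0:ℝ) < 2 * Real.pi := by positivity
    filter_upwards [ae_smul hf (inv_ne_zero hpi.ne')] with ξ hξ hne
    have h1 : ∃ i, F i ((2 * Real.pi)⁻¹ • ξ) ≠ 0 := by
      by_contra! h
      apply hne
      have h2 : HasSum (fun i => F i ((2 * Real.pi)⁻¹ • ξ)) 0 := by
        simp_rw [h]; exact hasSum_zero
      exact hξ.unique h2
    obtain ⟨i, hi⟩ := h1
    have h2 : 2 * Real.pi * ‖(2 * Real.pi)⁻¹ • ξ‖ = ‖ξ‖ := by
      rw [norm_smul, Real.norm_of_nonneg (by positivity), ← mul_assoc,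
        mul_inv_cancel₀ hpi.ne', one_mul]
    have h3 := hFs i _ hi
    rw [h2] at h3
    exact ⟨i, h3⟩
  · rw [shellNorm, setIntegral_hat_sq, shell_integral_eq hkmono hFs hf i]
    have h1 : ∫ η, ‖F i η‖ ^ 2 ≤ a i ^ 2 * (2 : ℝ) ^ (-(2 * k i * sCrit n)) := by
      refine (hFc i).trans ?_
      simp only [hΓdef]
      gcongr
      exact hcost i
    have h2 : a i ^ 2 * (2 : ℝ) ^ (-(2 * k i * sCrit n))
        = (a i * (2 : ℝ) ^ (-(k i * sCrit n))) ^ 2 := by
      rw [mul_pow, ← Real.rpow_natCast ((2:ℝ) ^ _) 2, ← Real.rpow_mul (by norm_num)]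
      congr 2
      push_cast
      ring
    have h3 : √(∫ η, ‖F i η‖ ^ 2) ≤ a i * (2 : ℝ) ^ (-(k i * sCrit n)) := by
      rw [Real.sqrt_le_left (by have := ha i; (clear * - this; positivity)), ← h2]
      exact h1
    calc (2 : ℝ) ^ (k i * sCrit n) * √(∫ η, ‖F i η‖ ^ 2)
        ≤ (2 : ℝ) ^ (k i * sCrit n) * (a i * (2 : ℝ) ^ (-(k i * sCrit n))) := by (clear * - h3; gcongr)
      _ = a i := by
          rw [mul_comm (a i), ← mul_assoc, ← Real.rpow_add (by norm_num), add_neg_cancel,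
            Real.rpow_zero, one_mul]
  · filter_upwards [hc, hdiv] with x hx1 hx2 M
    rw [frequently_iff]
    intro U hU
    obtain ⟨ε, hε, hεU⟩ := mem_nhdsGT_iff_exists_Ioo_subset.1 hU
    have h1 : ∀ᶠ i : ℕ in atTop, (1:ℝ) / (i + 1) < ε :=
      tendsto_one_div_add_atTop_nhds_zero_nat.eventually (gt_mem_nhds hε)
    have h2 : ∀ᶠ i : ℕ in atTop, M + ‖z x‖ < lam i / 2 := by
      filter_upwards [hlamT.eventually (eventually_gt_atTop (2 * (M + ‖z x‖)))] with i hi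
      linarith only [hi]
    obtain ⟨i, hi, ⟨h3, h4⟩, h5⟩ := (hx1.and_eventually ((h1.and h2).and hx2)).exists
    obtain ⟨t, ht0, ht1, ht2⟩ := h5 hi
    refine ⟨t, hεU ⟨ht0, ht1.trans_lt h3⟩, ?_⟩
    have h6 := norm_sub_le (u t x) (z x)
    linarith only [h4, ht2, h6]

end Vale.Agent.P076
end

section

open MeasureTheory Complex

namespace Vale.Agent.P076

/-- exponent `2πi (X v - S v²) - a v²` -/
noncomputable def oscE (X S a : ℝ) (v : ℝ) : ℂ :=
  2 * Real.pi * I * (X * v - S * v ^ 2) - a * v ^ 2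

noncomputable def oscQ (X S a : ℝ) (v : ℝ) : ℂ :=
  2 * Real.pi * I * (X - 2 * S * v) - 2 * a * v

lemma hasDerivAt_oscE (X S a v : ℝ) : HasDerivAt (oscE X S a) (oscQ X S a v) v := by
  have h1 : HasDerivAt (fun v : ℝ => (v : ℂ)) 1 v := Complex.ofRealCLM.hasDerivAt
  have h2 : HasDerivAt (fun v : ℝ => (v : ℂ) ^ 2) (2 * v) v := by
    have := h1.fun_pow 2
    simpa only [Nat.cast_ofNat, Nat.add_one_sub_one, pow_one, mul_one] using this
  have h3 : HasDerivAt (fun v : ℝ => 2 * Real.pi * I * (X * (v : ℂ) - S * (v : ℂ) ^ 2) - a * (v : ℂ) ^ 2)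
      (2 * Real.pi * I * (X * 1 - S * (2 * v)) - a * (2 * v)) v :=
    ((h1.const_mul (X : ℂ)).sub (h2.const_mul (S : ℂ))).const_mul _ |>.sub (h2.const_mul _)
  unfold oscE oscQ
  convert h3 using 1
  ring

lemma hasDerivAt_oscQ (X S a v : ℝ) :
    HasDerivAt (oscQ X S a) (-(4 * Real.pi * I * S) - 2 * a) v := by
  have h1 : HasDerivAt (fun v : ℝ => (v : ℂ)) 1 v := Complex.ofRealCLM.hasDerivAt
  have h3 : HasDerivAt (fun v : ℝ => 2 * Real.pi * I * ((X : ℂ) - 2 * S * (v : ℂ)) - 2 * a * (v : ℂ))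
      (2 * Real.pi * I * (0 - 2 * S * 1) - 2 * a * 1) v :=
    (((hasDerivAt_const v (X : ℂ)).sub (h1.const_mul (2 * S : ℂ))).const_mul _).sub
      (h1.const_mul (2 * a : ℂ))
  unfold oscQ
  convert h3 using 1
  ring

lemma norm_exp_oscE (X S a v : ℝ) : ‖cexp (oscE X S a v)‖ = Real.exp (-a * v ^ 2) := by
  rw [Complex.norm_exp]
  congr 1
  unfold oscE
  have : (2 * Real.pi * I * (X * v - S * v ^ 2) - a * v ^ 2 : ℂ)
      = ((-a * v ^ 2 : ℝ) : ℂ) + ((2 * Real.pi * (X * v - S * v ^ 2) : ℝ) : ℂ) * I := by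
    push_cast; ring
  rw [this, Complex.add_re, Complex.ofReal_re, Complex.re_ofReal_mul, Complex.I_re]
  ring

lemma oscQ_im (X S a v : ℝ) : (oscQ X S a v).im = 2 * Real.pi * (X - 2 * S * v) := by
  unfold oscQ
  have : (2 * Real.pi * I * (X - 2 * S * v) - 2 * a * v : ℂ)
      = ((-2 * a * v : ℝ) : ℂ) + ((2 * Real.pi * (X - 2 * S * v) : ℝ) : ℂ) * I := by
    push_cast; ring
  rw [this, Complex.add_im, Complex.ofReal_im, Complex.im_ofReal_mul, Complex.I_im]
  ring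

lemma oscQ_re (X S a v : ℝ) : (oscQ X S a v).re = -2 * a * v := by
  unfold oscQ
  have : (2 * Real.pi * I * (X - 2 * S * v) - 2 * a * v : ℂ)
      = ((-2 * a * v : ℝ) : ℂ) + ((2 * Real.pi * (X - 2 * S * v) : ℝ) : ℂ) * I := by
    push_cast; ring
  rw [this, Complex.add_re, Complex.ofReal_re, Complex.re_ofReal_mul, Complex.I_re]
  ring

lemma continuous_oscE (X S a : ℝ) : Continuous (oscE X S a) :=
  continuous_iff_continuousAt.2 fun v => (hasDerivAt_oscE X S a v).continuousAt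

lemma continuous_oscQ (X S a : ℝ) : Continuous (oscQ X S a) :=
  continuous_iff_continuousAt.2 fun v => (hasDerivAt_oscQ X S a v).continuousAt

/-- first-derivative test, uniform in the Gaussian damping `a ≥ 0` -/
lemma osc_bound {X S a r w : ℝ} (hr : 0 < r) (hw0 : 0 ≤ w) (hw : w ≤ r) (hS : 0 < S)
    (ha : 0 ≤ a) (hX : |X| ≤ S * r) :
    ‖∫ v in r..(r + w), cexp (oscE X S a v)‖ ≤ 1 / (S * r) := by
  have hpi := Real.pi_gt_three
  have hSr : 0 < S * r := mul_pos hS hr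
  -- lower bounds for q
  have hq1 : ∀ v, r ≤ v → 2 * Real.pi * (S * r) ≤ ‖oscQ X S a v‖ := by
    intro v hv
    have h1 : |(oscQ X S a v).im| ≤ ‖oscQ X S a v‖ := Complex.abs_im_le_norm _
    rw [oscQ_im] at h1
    have h2 : S * r ≤ |X - 2 * S * v| := by
      have h3 : X ≤ S * r := (le_abs_self X).trans hX
      have h4 : S * r ≤ S * v := mul_le_mul_of_nonneg_left hv hS.le
      rw [abs_sub_comm]
      refine le_trans ?_ (le_abs_self _)
      linarith only [h3, h4]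
    rw [abs_mul, abs_of_pos (by positivity : (0:ℝ) < 2 * Real.pi)] at h1
    calc 2 * Real.pi * (S * r) ≤ 2 * Real.pi * |X - 2 * S * v| := by (clear * - h2; gcongr)
      _ ≤ _ := h1
  have hq2 : ∀ v, r ≤ v → 2 * a * r ≤ ‖oscQ X S a v‖ := by
    intro v hv
    have h1 : |(oscQ X S a v).re| ≤ ‖oscQ X S a v‖ := Complex.abs_re_le_norm _
    rw [oscQ_re] at h1
    refine le_trans ?_ h1
    have : 2 * a * r ≤ 2 * a * v := by (clear * - hv ha; gcongr)
    calc 2 * a * r ≤ 2 * a * v := this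
      _ = -(-2 * a * v) := by ring
      _ ≤ _ := neg_le_abs _
  have hqne : ∀ v, r ≤ v → oscQ X S a v ≠ 0 := by
    intro v hv h0
    have := hq1 v hv
    rw [h0, norm_zero] at this
    have : 0 < 2 * Real.pi * (S * r) := by positivity
    linarith
  set c : ℂ := -(4 * Real.pi * I * S) - 2 * a with hc
  have hcn : ‖c‖ ≤ 4 * Real.pi * S + 2 * a := by
    rw [hc]
    refine (norm_sub_le _ _).trans ?_
    simp only [norm_neg, norm_mul, Complex.norm_I, Complex.norm_real, Real.norm_eq_abs, mul_one,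
      Complex.norm_ofNat, abs_of_pos hS, abs_of_nonneg ha, abs_of_pos Real.pi_pos]
    exact le_rfl
  -- derivative of e^E / q
  have hder : ∀ v ∈ Set.uIcc r (r + w), HasDerivAt (fun v => cexp (oscE X S a v) / oscQ X S a v)
      (cexp (oscE X S a v) - cexp (oscE X S a v) * c / oscQ X S a v ^ 2) v := by
    intro v hv
    rw [Set.uIcc_of_le (by linarith only [hw0])] at hv
    have hq := hqne v hv.1
    have h := (hasDerivAt_oscE X S a v).cexp.div (hasDerivAt_oscQ X S a v) hq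
    refine h.congr_deriv ?_
    rw [sub_div, mul_assoc, ← pow_two, mul_div_assoc (cexp _) (oscQ X S a v ^ 2),
      div_self (pow_ne_zero 2 hq), mul_one]
  have hcontI : ContinuousOn (fun v => cexp (oscE X S a v) - cexp (oscE X S a v) * c / oscQ X S a v ^ 2)
      (Set.uIcc r (r + w)) := by
    have h1 : Continuous fun v => cexp (oscE X S a v) := (continuous_oscE X S a).cexp
    refine h1.continuousOn.sub ((h1.continuousOn.mul continuousOn_const).div
      ((continuous_oscQ X S a).pow 2).continuousOn ?_)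
    intro v hv
    rw [Set.uIcc_of_le (by linarith)] at hv
    exact pow_ne_zero 2 (hqne v hv.1)
  have hcont2 : ContinuousOn (fun v => cexp (oscE X S a v) * c / oscQ X S a v ^ 2)
      (Set.uIcc r (r + w)) := by
    have h1 : Continuous fun v => cexp (oscE X S a v) := (continuous_oscE X S a).cexp
    refine ((h1.continuousOn.mul continuousOn_const).div
      ((continuous_oscQ X S a).pow 2).continuousOn ?_)
    intro v hv
    rw [Set.uIcc_of_le (by linarith)] at hv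
    exact pow_ne_zero 2 (hqne v hv.1)
  have hFTC := intervalIntegral.integral_eq_sub_of_hasDerivAt hder hcontI.intervalIntegrable
  have hsub : (∫ v in r..(r + w), (cexp (oscE X S a v) - cexp (oscE X S a v) * c / oscQ X S a v ^ 2))
      = (∫ v in r..(r + w), cexp (oscE X S a v))
        - ∫ v in r..(r + w), cexp (oscE X S a v) * c / oscQ X S a v ^ 2 :=
    intervalIntegral.integral_sub ((continuous_oscE X S a).cexp.intervalIntegrable _ _)
      hcont2.intervalIntegrable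
  have hmain : (∫ v in r..(r + w), cexp (oscE X S a v))
      = (cexp (oscE X S a (r + w)) / oscQ X S a (r + w) - cexp (oscE X S a r) / oscQ X S a r)
        + ∫ v in r..(r + w), cexp (oscE X S a v) * c / oscQ X S a v ^ 2 := by
    rw [← hFTC, hsub]; ring
  have hE1 : ∀ v, ‖cexp (oscE X S a v)‖ ≤ 1 := by
    intro v
    rw [norm_exp_oscE, Real.exp_le_one_iff]
    have : 0 ≤ a * v ^ 2 := by (clear * - ha; positivity)
    linarith only [this]
  have hb : ∀ v, r ≤ v → ‖cexp (oscE X S a v) / oscQ X S a v‖ ≤ 1 / (2 * Real.pi * (S * r)) := by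
    intro v hv
    rw [norm_div]
    exact div_le_div₀ zero_le_one (hE1 v) (by positivity) (hq1 v hv)
  have hint : ‖∫ v in r..(r + w), cexp (oscE X S a v) * c / oscQ X S a v ^ 2‖
      ≤ (3 / (2 * Real.pi * (S * r ^ 2))) * |r + w - r| := by
    refine intervalIntegral.norm_integral_le_of_norm_le_const ?_
    intro v hv
    rw [Set.uIoc_of_le (by linarith only [hw0])] at hv
    have hv' : r ≤ v := hv.1.le
    rw [norm_div, norm_mul, norm_pow]
    have hqpos : 0 < ‖oscQ X S a v‖ := norm_pos_iff.2 (hqne v hv')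
    have h1 := hq1 v hv'
    have h2 := hq2 v hv'
    rw [div_le_div_iff₀ (by (clear * - hqpos; positivity)) (by positivity)]
    have h3 : ‖cexp (oscE X S a v)‖ * ‖c‖ ≤ 4 * Real.pi * S + 2 * a := by
      calc _ ≤ 1 * (4 * Real.pi * S + 2 * a) := by
            gcongr
            exact hE1 v
        _ = _ := one_mul _
    set q := ‖oscQ X S a v‖
    calc ‖cexp (oscE X S a v)‖ * ‖c‖ * (2 * Real.pi * (S * r ^ 2))
        ≤ (4 * Real.pi * S + 2 * a) * (2 * Real.pi * (S * r ^ 2)) := by (clear * - h3 hS hr; gcongr)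
      _ = 2 * ((2 * Real.pi * (S * r)) * (2 * Real.pi * (S * r)))
          + ((2 * a * r) * (2 * Real.pi * (S * r))) := by ring
      _ ≤ 2 * (q * q) + q * q := by (clear * - h1 hS hr hqpos h2; gcongr)
      _ = 3 * q ^ 2 := by ring
  have habs : |r + w - r| = w := by rw [add_sub_cancel_left, abs_of_nonneg hw0]
  rw [habs] at hint
  rw [hmain]
  calc _ ≤ ‖(cexp (oscE X S a (r + w)) / oscQ X S a (r + w) - cexp (oscE X S a r) / oscQ X S a r)‖
        + ‖∫ v in r..(r + w), cexp (oscE X S a v) * c / oscQ X S a v ^ 2‖ := norm_add_le _ _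
    _ ≤ (1 / (2 * Real.pi * (S * r)) + 1 / (2 * Real.pi * (S * r)))
        + (3 / (2 * Real.pi * (S * r ^ 2))) * w := by
        gcongr
        exact (norm_sub_le _ _).trans (add_le_add (hb _ (by linarith only [hw0])) (hb _ le_rfl))
    _ ≤ (1 / (2 * Real.pi * (S * r)) + 1 / (2 * Real.pi * (S * r)))
        + (3 / (2 * Real.pi * (S * r ^ 2))) * r := by (clear * - hw hS hr; gcongr)
    _ = (5 / (2 * Real.pi)) * (1 / (S * r)) := by
        field_simp; ring
    _ ≤ 1 * (1 / (S * r)) := by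
        gcongr
        rw [div_le_one (by positivity)]
        linarith only [hpi]
    _ = _ := one_mul _

end Vale.Agent.P076
end

section

namespace Vale.Agent.P076

lemma digits (h : ℕ) (hh : 0 < h) (m : ℕ) (y : Fin m → ℝ) :
    ∃ J : ℕ, J < h ^ m ∧ ∀ i : Fin m, ∃ z : ℤ,
      |y i - (J : ℝ) / (h : ℝ) ^ ((i : ℕ) + 1) - z| ≤ 1 / h := by
  induction m with
  | zero => exact ⟨0, by simp, fun i => i.elim0⟩
  | succ m ih =>
    obtain ⟨J, hJ, hz⟩ := ih (fun i => y i.castSucc)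
    have hhR : (0 : ℝ) < h := by exact_mod_cast hh
    set f := Int.fract (y (Fin.last m)) with hf
    have hf0 : 0 ≤ f := Int.fract_nonneg _
    have hf1 : f < 1 := Int.fract_lt_one _
    set d : ℕ := ⌊h * f⌋₊ with hd
    have hd1 : (d : ℝ) ≤ h * f := Nat.floor_le (by (clear * - hh; positivity))
    have hd2 : h * f < d + 1 := Nat.lt_floor_add_one _
    have hdh : d < h := by
      have : (d : ℝ) < h := lt_of_le_of_lt hd1 (mul_lt_of_lt_one_right hhR hf1)
      exact_mod_cast this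
    refine ⟨J + d * h ^ m, ?_, ?_⟩
    · calc J + d * h ^ m < h ^ m + d * h ^ m := by omega
        _ = (d + 1) * h ^ m := by ring
        _ ≤ h * h ^ m := Nat.mul_le_mul_right _ hdh
        _ = h ^ (m + 1) := by ring
    · intro i
      refine Fin.lastCases ?_ (fun i => ?_) i
      · refine ⟨⌊y (Fin.last m)⌋, ?_⟩
        have e1 : y (Fin.last m) = ⌊y (Fin.last m)⌋ + f := (Int.floor_add_fract _).symm
        have hJ' : (J : ℝ) < (h : ℝ) ^ m := by exact_mod_cast hJ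
        have e2 : ((J + d * h ^ m : ℕ) : ℝ) / (h : ℝ) ^ (((Fin.last m : Fin (m+1)) : ℕ) + 1)
            = (J : ℝ) / (h : ℝ) ^ (m + 1) + d / h := by
          rw [Fin.val_last]; push_cast; field_simp; ring
        rw [e2]
        have e3 : (J : ℝ) / (h : ℝ) ^ (m + 1) < 1 / h := by
          rw [div_lt_div_iff₀ (by positivity) hhR]
          calc (J : ℝ) * h < (h : ℝ) ^ m * h := by (clear * - hJ' hh; gcongr)
            _ = 1 * (h : ℝ) ^ (m + 1) := by ring
        have e4 : 0 ≤ (J : ℝ) / (h : ℝ) ^ (m + 1) := by (clear * - hh; positivity)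
        have e5 : (d : ℝ) / h ≤ f := by rw [div_le_iff₀ hhR]; linarith only [hd1]
        have e6 : f < (d : ℝ) / h + 1 / h := by
          rw [← add_div, lt_div_iff₀ hhR]; linarith only [hd2]
        have e7 : y (Fin.last m) - ((J : ℝ) / (h : ℝ) ^ (m + 1) + d / h) - ⌊y (Fin.last m)⌋
            = f - ((J : ℝ) / (h : ℝ) ^ (m + 1) + d / h) := by
          linarith only [e1]
        rw [e7, abs_le]
        constructor <;> linarith only [e3, e5, e4, e6]
      · obtain ⟨z, hz⟩ := hz i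
        refine ⟨z - (d * h ^ (m - (i + 1)) : ℕ), ?_⟩
        have e2 : ((J + d * h ^ m : ℕ) : ℝ) / (h : ℝ) ^ (((i.castSucc : Fin (m+1)) : ℕ) + 1)
            = (J : ℝ) / (h : ℝ) ^ ((i : ℕ) + 1) + d * (h : ℝ) ^ (m - (i + 1)) := by
          rw [Fin.val_castSucc]
          have : (h : ℝ) ^ m = (h : ℝ) ^ (m - (i + 1 : ℕ)) * (h : ℝ) ^ ((i : ℕ) + 1) := by
            rw [← pow_add]; congr 1; omega
          push_cast
          rw [this]; (clear * - hh; field_simp)
        rw [e2]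
        push_cast
        convert hz using 2
        ring

lemma good_time (h : ℕ) (hh : 0 < h) (m : ℕ) (T : ℝ) (y : Fin m → ℝ) :
    ∃ j : ℤ, |(j : ℝ) - T| ≤ (h : ℝ) ^ m ∧ ∀ i : Fin m, ∃ z : ℤ,
      |y i - (j : ℝ) / (h : ℝ) ^ ((i : ℕ) + 1) - z| ≤ 1 / h := by
  obtain ⟨J, hJ, hz⟩ := digits h hh m y
  have hpos : (0 : ℤ) < (h : ℤ) ^ m := by positivity
  have hhR : (0 : ℝ) < h := by exact_mod_cast hh
  set j0 : ℤ := ⌊T⌋ with hj0
  set e : ℤ := ((J : ℤ) - j0) % ((h : ℤ) ^ m) with he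
  have he0 : 0 ≤ e := Int.emod_nonneg _ hpos.ne'
  have he1 : e < (h : ℤ) ^ m := Int.emod_lt_of_pos _ hpos
  have hk : ∃ k : ℤ, j0 + e = J + k * (h : ℤ) ^ m := by
    refine ⟨-(((J : ℤ) - j0) / ((h : ℤ) ^ m)), ?_⟩
    have := Int.emod_add_mul_ediv ((J : ℤ) - j0) ((h : ℤ) ^ m)
    rw [he]; linarith only [this]
  obtain ⟨k, hk⟩ := hk
  refine ⟨j0 + e, ?_, ?_⟩
  · have h1 : (j0 : ℝ) ≤ T := Int.floor_le T
    have h2 : T < j0 + 1 := Int.lt_floor_add_one T
    have h3 : (0 : ℝ) ≤ e := by exact_mod_cast he0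
    have h4 : (e : ℝ) + 1 ≤ (h : ℝ) ^ m := by exact_mod_cast he1
    push_cast
    rw [abs_le]; constructor <;> linarith only [h1, h4, h2, h3]
  · intro i
    obtain ⟨z, hz⟩ := hz i
    refine ⟨z - k * (h : ℤ) ^ (m - (i + 1)), ?_⟩
    have e2 : ((j0 + e : ℤ) : ℝ) / (h : ℝ) ^ ((i : ℕ) + 1)
        = (J : ℝ) / (h : ℝ) ^ ((i : ℕ) + 1) + k * (h : ℝ) ^ (m - (i + 1)) := by
      rw [hk]
      have : (h : ℝ) ^ m = (h : ℝ) ^ (m - (i + 1 : ℕ)) * (h : ℝ) ^ ((i : ℕ) + 1) := by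
        rw [← pow_add]; congr 1; omega
      push_cast
      rw [this]; (clear * - hh; field_simp)
    rw [e2]
    push_cast
    convert hz using 2
    ring

end Vale.Agent.P076
end

section

open MeasureTheory Complex

namespace Vale.Agent.P076

/-! ### the explicit block -/

section defs
variable (m K : ℕ)

/-- `M = 2^(m+6)` -/
def bM : ℕ := 2 ^ (m + 6)

/-- `h = M K` -/
noncomputable def bh : ℝ := (bM m : ℝ) * K

noncomputable def bD : ℝ := bh m K ^ (2 * m + 3)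

noncomputable def bR : ℝ := bh m K ^ (2 * m + 4)

noncomputable def bw : ℝ := bh m K ^ (m + 2) / bM m

noncomputable def bθ (i : ℕ) : ℝ := bD m K / (2 * bh m K ^ (i + 1))

noncomputable def bA0 : Set ℝ := Set.Ico (bR m K / 2) (bR m K / 2 + bw m K)

noncomputable def bA (i : Fin m) : Set ℝ :=
  ⋃ k ∈ Finset.range K, Set.Ico (bθ m K i + bD m K * k) (bθ m K i + bD m K * k + 1 / bM m)

noncomputable def bS : Fin (m + 1) → Set ℝ := Fin.cons (bA0 m K) (bA m K)

def box : Set (E (m + 1)) := {η | ∀ i, η i ∈ bS m K i}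

end defs

variable {m K : ℕ}

lemma bM_ge : (64 : ℝ) ≤ bM m := by
  unfold bM
  push_cast
  calc (64 : ℝ) = 2 ^ 6 := by norm_num
    _ ≤ 2 ^ (m + 6) := by gcongr <;> norm_num

lemma bM_pos : (0 : ℝ) < bM m := lt_of_lt_of_le (by norm_num) bM_ge

lemma bM_ge' : 64 * ((m : ℝ) + 1) ≤ bM m := by
  unfold bM
  have h : m + 1 ≤ 2 ^ m := Nat.lt_two_pow_self
  have h' : ((m : ℝ) + 1) ≤ 2 ^ m := by exact_mod_cast h
  push_cast
  calc 64 * ((m : ℝ) + 1) ≤ 64 * 2 ^ m := by gcongr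
    _ = 2 ^ (m + 6) := by rw [pow_add]; norm_num; ring

lemma bh_ge (hK : 1 ≤ K) : (bM m : ℝ) ≤ bh m K := by
  unfold bh
  have : (1 : ℝ) ≤ K := by exact_mod_cast hK
  have := bM_pos (m := m)
  nlinarith

lemma bh_ge64 (hK : 1 ≤ K) : (64 : ℝ) ≤ bh m K := bM_ge.trans (bh_ge hK)

lemma bh_pos (hK : 1 ≤ K) : (0 : ℝ) < bh m K := lt_of_lt_of_le (by norm_num) (bh_ge64 hK)

lemma bD_pos (hK : 1 ≤ K) : 0 < bD m K := pow_pos (bh_pos hK) _

lemma bR_pos (hK : 1 ≤ K) : 0 < bR m K := pow_pos (bh_pos hK) _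

lemma bw_pos (hK : 1 ≤ K) : 0 < bw m K := div_pos (pow_pos (bh_pos hK) _) bM_pos

lemma bR_eq : bR m K = bD m K * bh m K := by unfold bR bD; ring

lemma bD_ge (hK : 1 ≤ K) : 64 ≤ bD m K := by
  unfold bD
  have h := bh_ge64 (m := m) hK
  calc (64 : ℝ) ≤ bh m K := h
    _ = bh m K ^ 1 := (pow_one _).symm
    _ ≤ bh m K ^ (2 * m + 3) := pow_le_pow_right₀ (by linarith only [h]) (by omega)

lemma bR_ge (hK : 1 ≤ K) : bh m K ≤ bR m K := by
  unfold bR
  have h := bh_ge64 (m := m) hK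
  calc bh m K = bh m K ^ 1 := (pow_one _).symm
    _ ≤ bh m K ^ (2 * m + 4) := pow_le_pow_right₀ (by linarith only [h]) (by omega)

/-- `w² M² = R` -/
lemma bw_sq : bw m K ^ 2 * (bM m : ℝ) ^ 2 = bR m K := by
  unfold bw bR
  have := (bM_pos (m := m)).ne'
  field_simp
  ring

lemma bw_le (hK : 1 ≤ K) : bw m K ≤ bR m K / bM m := by
  unfold bw bR
  have h := bh_ge64 (m := m) hK
  have := bM_pos (m := m)
  have h2 : bh m K ^ (m + 2) ≤ bh m K ^ (2 * m + 4) :=
    pow_le_pow_right₀ (by linarith only [h]) (by omega)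
  (clear * - h2 this; gcongr)

lemma measurableSet_bA0 : MeasurableSet (bA0 m K) := measurableSet_Ico

lemma measurableSet_bA (i : Fin m) : MeasurableSet (bA m K i) :=
  Finset.measurableSet_biUnion _ fun _ _ => measurableSet_Ico

lemma measurableSet_bS (i : Fin (m + 1)) : MeasurableSet (bS m K i) := by
  refine Fin.cases ?_ (fun i => ?_) i
  · exact measurableSet_bA0
  · exact measurableSet_bA i

lemma measurableSet_box : MeasurableSet (box m K) := measurableSet_box_E _ measurableSet_bS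

lemma volume_bA0 : volume (bA0 m K) = ENNReal.ofReal (bw m K) := by
  unfold bA0
  rw [Real.volume_Ico]; congr 1; ring

lemma volume_bA (hK : 1 ≤ K) (i : Fin m) :
    volume (bA m K i) = ENNReal.ofReal (K / bM m) := by
  unfold bA
  rw [measure_biUnion_finset]
  · simp only [Real.volume_Ico, add_sub_cancel_left, Finset.sum_const, Finset.card_range,
      nsmul_eq_mul]
    rw [show ((K : ℝ) / bM m) = K * (1 / bM m) by ring,
      ENNReal.ofReal_mul (by positivity), ENNReal.ofReal_natCast]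
  · intro k _ l _ hkl
    have hD := bD_ge (m := m) hK
    have hM : 1 / (bM m : ℝ) ≤ 1 := by
      rw [div_le_one bM_pos]; linarith only [bM_ge (m := m)]
    rw [Function.onFun, Set.disjoint_left]
    rintro x ⟨hx1, hx2⟩ ⟨hy1, hy2⟩
    rcases lt_or_gt_of_ne hkl with h | h
    · have : (k : ℝ) + 1 ≤ l := by exact_mod_cast h
      linarith only [hD, hM, hx2, hy1, mul_le_mul_of_nonneg_left this (show (0:ℝ) ≤ bD m K by linarith)]
    · have : (l : ℝ) + 1 ≤ k := by exact_mod_cast h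
      linarith only [hD, hM, hx1, hy2, mul_le_mul_of_nonneg_left this (show (0:ℝ) ≤ bD m K by linarith)]
  · intro k _; exact measurableSet_Ico

/-- volume of the box -/
noncomputable def bV (m K : ℕ) : ℝ := bw m K * (K / bM m) ^ m

lemma bV_pos (hK : 1 ≤ K) : 0 < bV m K := by
  unfold bV
  have := bw_pos (m := m) hK
  have h1 : (0:ℝ) < K := by exact_mod_cast hK
  have := bM_pos (m := m)
  positivity

lemma volume_box (hK : 1 ≤ K) : volume (box m K) = ENNReal.ofReal (bV m K) := by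
  unfold box
  rw [volume_box_E _ measurableSet_bS, Fin.prod_univ_succ]
  simp only [bS, Fin.cons_zero, Fin.cons_succ, volume_bA0, volume_bA hK, Finset.prod_const,
    Finset.card_univ, Fintype.card_fin]
  unfold bV
  rw [ENNReal.ofReal_mul (bw_pos hK).le, ENNReal.ofReal_pow (by positivity)]

lemma phase0 (hK : 1 ≤ K) {X S : ℝ} (hS : 0 < S) (hSR : S * bR m K ≤ 3)
    (hX : |X - S * bR m K| ≤ 1 / bh m K ^ (m + 2)) :
    ∀ v ∈ bA0 m K, |X * v - S * v ^ 2 - (X * (bR m K / 2) - S * (bR m K / 2) ^ 2)| ≤ 3 / (bM m : ℝ) := by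
  rintro v ⟨hv1, hv2⟩
  obtain ⟨ζ, rfl⟩ : ∃ ζ, v = bR m K / 2 + ζ := ⟨v - bR m K / 2, by ring⟩
  have hζ0 : 0 ≤ ζ := by linarith only [hv1]
  have hζ1 : ζ ≤ bw m K := by linarith only [hv2]
  have hM := bM_pos (m := m)
  have hM64 := bM_ge (m := m)
  have hh := bh_pos (m := m) hK
  have hw := bw_pos (m := m) hK
  have e1 : X * (bR m K / 2 + ζ) - S * (bR m K / 2 + ζ) ^ 2
      - (X * (bR m K / 2) - S * (bR m K / 2) ^ 2) = ζ * (X - S * bR m K) - S * ζ ^ 2 := by ring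
  rw [e1]
  have e2 : |ζ * (X - S * bR m K)| ≤ 1 / (bM m : ℝ) := by
    rw [abs_mul, abs_of_nonneg hζ0]
    calc ζ * |X - S * bR m K| ≤ bw m K * (1 / bh m K ^ (m + 2)) := by (clear * - hζ1 hX hw; gcongr)
      _ = 1 / (bM m : ℝ) := by unfold bw; (clear * - hh hM; field_simp)
  have e3 : |S * ζ ^ 2| ≤ 1 / (bM m : ℝ) := by
    rw [abs_of_nonneg (by (clear * - hS; positivity))]
    calc S * ζ ^ 2 ≤ S * bw m K ^ 2 := by (clear * - hζ0 hζ1 hS; gcongr)
      _ = (S * bR m K) / (bM m : ℝ) ^ 2 := by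
          rw [← bw_sq]; (clear * - hM hw hS; field_simp)
      _ ≤ 3 / (bM m : ℝ) ^ 2 := by (clear * - hSR hM; gcongr)
      _ ≤ 1 / (bM m : ℝ) := by
          rw [div_le_div_iff₀ (by (clear * - hM; positivity)) hM]; linarith only [mul_le_mul_of_nonneg_right hM64 hM.le]
  calc |ζ * (X - S * bR m K) - S * ζ ^ 2| ≤ |ζ * (X - S * bR m K)| + |S * ζ ^ 2| := abs_sub _ _
    _ ≤ 1 / (bM m : ℝ) + 1 / (bM m : ℝ) := add_le_add e2 e3
    _ ≤ 3 / (bM m : ℝ) := by rw [← add_div]; gcongr; norm_num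

lemma phaseA (hK : 1 ≤ K) {X S : ℝ} {j : ℤ} {i : Fin m} {z : ℤ} (hS : 0 < S)
    (hSR : S * bR m K ≤ 3) (hX0 : 0 ≤ X) (hX1 : X ≤ 1) (hj : S * bD m K ^ 2 = j)
    (hz : |bD m K * X - (j : ℝ) / bh m K ^ ((i : ℕ) + 1) - z| ≤ 1 / bh m K) :
    ∀ v ∈ bA m K i, ∃ N : ℤ,
      |X * v - S * v ^ 2 - (X * bθ m K i - S * bθ m K i ^ 2) - N| ≤ 3 / (bM m : ℝ) := by
  intro v hv
  simp only [bA, Set.mem_iUnion, Finset.mem_range, exists_prop] at hv
  obtain ⟨k, hk, hv1, hv2⟩ := hv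
  set θ := bθ m K i with hθ
  obtain ⟨ζ, rfl⟩ : ∃ ζ, v = θ + bD m K * k + ζ := ⟨v - (θ + bD m K * k), by ring⟩
  have hζ0 : 0 ≤ ζ := by linarith only [hv1]
  have hζ1 : ζ ≤ 1 / (bM m : ℝ) := by linarith only [hv2]
  have hM := bM_pos (m := m)
  have hM64 := bM_ge (m := m)
  have hh := bh_pos (m := m) hK
  have hh64 := bh_ge64 (m := m) hK
  have hD := bD_pos (m := m) hK
  have hk' : (k : ℝ) ≤ K := by exact_mod_cast hk.le
  have hk1 : (k : ℝ) + 1 ≤ K := by exact_mod_cast hk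
  have hKh : (K : ℝ) = bh m K / bM m := by unfold bh; (clear * - hM hK; field_simp)
  have hθ0 : 0 ≤ θ := by rw [hθ]; unfold bθ; (clear * - hD hh; positivity)
  have hθ1 : θ ≤ bD m K := by
    rw [hθ]; unfold bθ
    rw [div_le_iff₀ (by positivity)]
    have : (1 : ℝ) ≤ bh m K ^ ((i : ℕ) + 1) := one_le_pow₀ (by linarith only [hh64])
    linarith only [hD, mul_le_mul_of_nonneg_left this hD.le]
  have h2 : 2 * S * θ * bD m K = (j : ℝ) / bh m K ^ ((i : ℕ) + 1) := by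
    rw [← hj, hθ]; unfold bθ; (clear * - hh hD hS; field_simp)
  refine ⟨k * z - j * k ^ 2, ?_⟩
  have e1 : X * (θ + bD m K * k + ζ) - S * (θ + bD m K * k + ζ) ^ 2 - (X * θ - S * θ ^ 2)
      - ((k * z - j * k ^ 2 : ℤ) : ℝ)
      = k * (bD m K * X - (j : ℝ) / bh m K ^ ((i : ℕ) + 1) - z)
        + ζ * (X - 2 * S * (θ + bD m K * k)) - S * ζ ^ 2 := by
    rw [← h2]
    push_cast
    rw [← hj]
    ring
  rw [e1]
  have a1 : |(k : ℝ) * (bD m K * X - (j : ℝ) / bh m K ^ ((i : ℕ) + 1) - z)| ≤ 1 / (bM m : ℝ) := by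
    rw [abs_mul, Nat.abs_cast]
    calc (k : ℝ) * |bD m K * X - (j : ℝ) / bh m K ^ ((i : ℕ) + 1) - z|
        ≤ K * (1 / bh m K) := by (clear * - hk' hz hK; gcongr)
      _ = 1 / (bM m : ℝ) := by rw [hKh]; (clear * - hh hM; field_simp)
  have a2 : |ζ * (X - 2 * S * (θ + bD m K * k))| ≤ 1 / (bM m : ℝ) := by
    rw [abs_mul, abs_of_nonneg hζ0]
    have b1 : 0 ≤ 2 * S * (θ + bD m K * k) := by (clear * - hS hθ0 hD; positivity)
    have b2 : 2 * S * (θ + bD m K * k) ≤ 1 := by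
      calc 2 * S * (θ + bD m K * k) ≤ 2 * S * (bD m K * K) := by
            gcongr
            calc θ + bD m K * k ≤ bD m K + bD m K * k := by (clear * - hθ1; gcongr)
              _ = bD m K * (k + 1) := by ring
              _ ≤ bD m K * K := by (clear * - hk1 hD; gcongr)
        _ = 2 * (S * bR m K) / bM m := by rw [bR_eq, hKh]; ring
        _ ≤ 2 * 3 / bM m := by (clear * - hSR hM; gcongr)
        _ ≤ 1 := by rw [div_le_one hM]; linarith only [hM64]
    have b3 : |X - 2 * S * (θ + bD m K * k)| ≤ 1 := by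
      rw [abs_le]; constructor <;> linarith only [hX0, b2, hX1, b1]
    calc ζ * |X - 2 * S * (θ + bD m K * k)| ≤ (1 / (bM m : ℝ)) * 1 := by (clear * - hζ1 b3 hM; gcongr)
      _ = 1 / (bM m : ℝ) := mul_one _
  have a3 : |S * ζ ^ 2| ≤ 1 / (bM m : ℝ) := by
    rw [abs_of_nonneg (by (clear * - hS; positivity))]
    have hR := bR_ge (m := m) hK
    have hS3 : S ≤ 1 := by
      by_contra hcon
      push Not at hcon
      (clear * - hSR hh64 hR hcon; linarith [mul_le_mul_of_nonneg_right hcon.le (show (0:ℝ) ≤ bR m K by linarith)])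
    calc S * ζ ^ 2 ≤ 1 * (1 / (bM m : ℝ)) ^ 2 := by (clear * - hS3 hζ0 hζ1; gcongr)
      _ = (1 / (bM m : ℝ)) * (1 / (bM m : ℝ)) := by ring
      _ ≤ (1 / (bM m : ℝ)) * 1 := by
          gcongr
          rw [div_le_one hM]; linarith only [hM64]
      _ = 1 / (bM m : ℝ) := mul_one _
  calc _ ≤ |(k : ℝ) * (bD m K * X - (j : ℝ) / bh m K ^ ((i : ℕ) + 1) - z)
        + ζ * (X - 2 * S * (θ + bD m K * k))| + |S * ζ ^ 2| := abs_sub _ _
    _ ≤ (|(k : ℝ) * (bD m K * X - (j : ℝ) / bh m K ^ ((i : ℕ) + 1) - z)|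
        + |ζ * (X - 2 * S * (θ + bD m K * k))|) + |S * ζ ^ 2| := by
          gcongr; exact abs_add_le _ _
    _ ≤ (1 / (bM m : ℝ) + 1 / (bM m : ℝ)) + 1 / (bM m : ℝ) := by (clear * - a1 a2 a3; gcongr)
    _ = 3 / (bM m : ℝ) := by ring

end Vale.Agent.P076
end

section

open MeasureTheory Complex

namespace Vale.Agent.P076

variable {m K : ℕ}

/-- the unit block -/
noncomputable def bG (m K : ℕ) : E (m + 1) → ℂ :=
  (box m K).indicator fun _ => ((2 / bV m K : ℝ) : ℂ)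

lemma inner_E {n : ℕ} (x y : E n) : inner ℝ x y = ∑ i, x i * y i := by
  simp only [PiLp.inner_apply, RCLike.inner_apply, Real.ringHom_apply, mul_comm]

lemma exp_split {n : ℕ} (X η : E n) (S a : ℝ) :
    cexp (2 * Real.pi * I * ((inner ℝ X η - S * ‖η‖ ^ 2 : ℝ) : ℂ) - (a * ‖η‖ ^ 2 : ℝ))
      = ∏ i, cexp (oscE (X i) S a (η i)) := by
  rw [← Complex.exp_sum]
  congr 1
  rw [inner_E, EuclideanSpace.real_norm_sq_eq]
  unfold oscE
  push_cast
  rw [Finset.mul_sum, Finset.mul_sum, ← Finset.sum_sub_distrib, Finset.mul_sum,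
    ← Finset.sum_sub_distrib]

lemma evo_box {n : ℕ} (A : Fin n → Set ℝ) (hA : ∀ i, MeasurableSet (A i)) (c : ℂ)
    (X : E n) (S a : ℝ) :
    evo ({η : E n | ∀ i, η i ∈ A i}.indicator fun _ => c) X S a
      = c * ∏ i, ∫ v in A i, cexp (oscE (X i) S a v) := by
  unfold evo
  have h1 : ∀ η : E n, cexp (2 * Real.pi * I * ((inner ℝ X η - S * ‖η‖ ^ 2 : ℝ) : ℂ)
      - (a * ‖η‖ ^ 2 : ℝ)) * ({η : E n | ∀ i, η i ∈ A i}.indicator fun _ => c) η
      = c * ∏ i, (A i).indicator (fun v => cexp (oscE (X i) S a v)) (η i) := by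
    intro η
    rw [exp_split]
    by_cases h : ∀ i, η i ∈ A i
    · rw [Set.indicator_of_mem (by exact h), mul_comm]
      congr 1
      exact Finset.prod_congr rfl fun i _ => by rw [Set.indicator_of_mem (h i)]
    · rw [Set.indicator_of_notMem (by exact h), mul_zero]
      push Not at h
      obtain ⟨i, hi⟩ := h
      rw [Finset.prod_eq_zero (Finset.mem_univ i), mul_zero]
      rw [Set.indicator_of_notMem hi]
  simp_rw [h1]
  rw [integral_const_mul, integral_prod_E (fun i => (A i).indicator fun v => cexp (oscE (X i) S a v))]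
  congr 1
  exact Finset.prod_congr rfl fun i _ => integral_indicator (hA i)

lemma norm_int_oscE_le {A : Set ℝ} (hA : volume A ≠ ⊤) (X S a : ℝ) (ha : 0 ≤ a) :
    ‖∫ v in A, cexp (oscE X S a v)‖ ≤ (volume A).toReal := by
  have := norm_setIntegral_le_of_norm_le_const (μ := volume) (s := A) (C := 1)
    (f := fun v => cexp (oscE X S a v)) (lt_top_iff_ne_top.2 hA) (fun v _ => by
      rw [norm_exp_oscE]
      apply Real.exp_le_one_iff.2
      have : 0 ≤ a * v ^ 2 := by positivity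
      linarith)
  simpa only [ge_iff_le, Measure.real, one_mul] using this

/-- late-time bound for the unit block -/
lemma late_unit (hK : 1 ≤ K) {X : E (m + 1)} {S a : ℝ} (hS : 0 < S) (ha : 0 ≤ a)
    (hX : |X 0| ≤ S * (bR m K / 2)) :
    ‖evo (bG m K) X S a‖ ≤ 4 / (bw m K * (S * bR m K)) := by
  have hw := bw_pos (m := m) hK
  have hR := bR_pos (m := m) hK
  have hM := bM_pos (m := m)
  have hM64 := bM_ge (m := m)
  have hV := bV_pos (m := m) hK
  have hK0 : (0:ℝ) < K := by exact_mod_cast hK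
  unfold bG box
  rw [evo_box _ measurableSet_bS, norm_mul, norm_prod, Fin.prod_univ_succ]
  have h0 : ‖∫ v in bS m K 0, cexp (oscE (X 0) S a v)‖ ≤ 1 / (S * (bR m K / 2)) := by
    have : ∫ v in bS m K 0, cexp (oscE (X 0) S a v)
        = ∫ v in (bR m K / 2)..(bR m K / 2 + bw m K), cexp (oscE (X 0) S a v) := by
      rw [intervalIntegral.integral_of_le (by linarith only [hw]), ← integral_Ico_eq_integral_Ioc]
      rfl
    rw [this]
    refine osc_bound (by linarith only [hR]) hw.le ?_ hS ha hX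
    have := bw_le (m := m) hK
    calc bw m K ≤ bR m K / bM m := this
      _ ≤ bR m K / 2 := by gcongr; linarith only [hM64]
  have h1 : ∀ i : Fin m, ‖∫ v in bS m K i.succ, cexp (oscE (X i.succ) S a v)‖ ≤ K / bM m := by
    intro i
    have hv : volume (bS m K i.succ) = ENNReal.ofReal (K / bM m) := by
      simp only [bS, Fin.cons_succ]; exact volume_bA hK i
    have := norm_int_oscE_le (A := bS m K i.succ) (by rw [hv]; simp) (X i.succ) S a ha
    rw [hv, ENNReal.toReal_ofReal (by positivity)] at this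
    exact this
  have h2 : ∏ i : Fin m, ‖∫ v in bS m K i.succ, cexp (oscE (X i.succ) S a v)‖ ≤ (K / bM m) ^ m := by
    calc _ ≤ ∏ i : Fin m, ((K : ℝ) / bM m) := Finset.prod_le_prod (fun _ _ => norm_nonneg _) (fun i _ => h1 i)
      _ = _ := by rw [Finset.prod_const, Finset.card_univ, Fintype.card_fin]
  rw [Complex.norm_real, Real.norm_of_nonneg (by positivity)]
  calc 2 / bV m K * (‖∫ v in bS m K 0, cexp (oscE (X 0) S a v)‖
        * ∏ i : Fin m, ‖∫ v in bS m K i.succ, cexp (oscE (X i.succ) S a v)‖)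
      ≤ 2 / bV m K * (1 / (S * (bR m K / 2)) * (K / bM m) ^ m) := by (clear * - h0 h2 hS hR hV; gcongr)
    _ = 4 / (bw m K * (S * bR m K)) := by
        unfold bV
        have hq : 0 < ((K : ℝ) / bM m) ^ m := by positivity
        generalize ((K : ℝ) / bM m) ^ m = q at hq ⊢
        field_simp
        ring

/-- alignment for the unit block -/
lemma resonance_unit (hK : 1 ≤ K) {X : E (m + 1)} (h0 : 1 ≤ X 0) (h0' : X 0 ≤ 2)
    (h1 : ∀ i : Fin m, 0 ≤ X i.succ ∧ X i.succ ≤ 1) :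
    ∃ S : ℝ, 1 / (2 * bR m K) ≤ S ∧ S ≤ 3 / bR m K ∧ 1 ≤ ‖evo (bG m K) X S 0‖ := by
  have hw := bw_pos (m := m) hK
  have hR := bR_pos (m := m) hK
  have hM := bM_pos (m := m)
  have hM64 := bM_ge (m := m)
  have hV := bV_pos (m := m) hK
  have hh := bh_pos (m := m) hK
  have hh64 := bh_ge64 (m := m) hK
  have hD := bD_pos (m := m) hK
  have hK0 : (0:ℝ) < K := by exact_mod_cast hK
  have hcast : ((bM m * K : ℕ) : ℝ) = bh m K := by unfold bh; push_cast; ring
  obtain ⟨j, hj, hz⟩ := good_time (bM m * K) (by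
    have : 0 < bM m := by unfold bM; positivity
    positivity) m (X 0 * bh m K ^ (2 * m + 2)) (fun i => bD m K * X i.succ)
  simp only [hcast] at hj hz
  set S : ℝ := (j : ℝ) / bD m K ^ 2 with hS
  have hSR : S * bR m K = j / bh m K ^ (2 * m + 2) := by
    rw [hS]; unfold bD bR
    field_simp
    ring
  have hX : |X 0 - S * bR m K| ≤ 1 / bh m K ^ (m + 2) := by
    rw [hSR]
    have e : X 0 - j / bh m K ^ (2 * m + 2) = -((j - X 0 * bh m K ^ (2 * m + 2)) / bh m K ^ (2 * m + 2)) := by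
      field_simp
      ring
    rw [e, abs_neg, abs_div, abs_of_pos (pow_pos hh (2 * m + 2)), div_le_div_iff₀ (by positivity) (by positivity)]
    calc |(j : ℝ) - X 0 * bh m K ^ (2 * m + 2)| * bh m K ^ (m + 2)
        ≤ bh m K ^ m * bh m K ^ (m + 2) := by (clear * - hj hh; gcongr)
      _ = 1 * bh m K ^ (2 * m + 2) := by ring
  have hsmall : 1 / bh m K ^ (m + 2) ≤ 1 / 64 := by
    gcongr
    calc (64 : ℝ) ≤ bh m K := hh64
      _ = bh m K ^ 1 := (pow_one _).symm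
      _ ≤ bh m K ^ (m + 2) := pow_le_pow_right₀ (by linarith only [hh64]) (by omega)
  have hX' := abs_le.1 (hX.trans hsmall)
  have hSR1 : 1 / 2 ≤ S * bR m K := by linarith only [h0, hX']
  have hSR3 : S * bR m K ≤ 3 := by linarith only [h0', hX']
  have hSpos : 0 < S := by
    by_contra hcon
    push Not at hcon
    have : S * bR m K ≤ 0 := mul_nonpos_of_nonpos_of_nonneg hcon hR.le
    linarith only [h0, hX', this]
  refine ⟨S, ?_, ?_, ?_⟩
  · rw [div_le_iff₀ (by positivity)]; linarith only [h0, hX']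
  · rw [le_div_iff₀ hR]; exact hSR3
  -- phases
  have hph : ∀ i : Fin (m + 1), ∃ P : ℝ, ∀ v ∈ bS m K i, ∃ N : ℤ,
      |X i * v - S * v ^ 2 - P - N| ≤ 3 / (bM m : ℝ) := by
    refine Fin.cases ?_ (fun i => ?_)
    · refine ⟨X 0 * (bR m K / 2) - S * (bR m K / 2) ^ 2, fun v hv => ⟨0, ?_⟩⟩
      have := phase0 hK hSpos hSR3 hX v hv
      simpa only [Int.cast_zero, sub_zero, ge_iff_le] using this
    · obtain ⟨z, hz⟩ := hz i
      refine ⟨X i.succ * bθ m K i - S * bθ m K i ^ 2, fun v hv => ?_⟩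
      exact phaseA hK hSpos hSR3 (h1 i).1 (h1 i).2 (by rw [hS]; (clear * - hD; field_simp)) hz v hv
  choose P hP using hph
  have hfin : volume (box m K) ≠ ⊤ := by rw [volume_box hK]; simp
  have hcoh := coherent (μ := volume) hfin
    (fun η : E (m + 1) => inner ℝ X η - S * ‖η‖ ^ 2) (by fun_prop) (∑ i, P i) (3 / 64) (by
      intro η hη
      have hN : ∀ i, ∃ N : ℤ, |X i * η i - S * η i ^ 2 - P i - N| ≤ 3 / (bM m : ℝ) := fun i => hP i (η i) (hη i)
      choose N hN using hN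
      refine ⟨∑ i, N i, ?_⟩
      have e : inner ℝ X η - S * ‖η‖ ^ 2 - ∑ i, P i - ((∑ i, N i : ℤ) : ℝ)
          = ∑ i, (X i * η i - S * η i ^ 2 - P i - N i) := by
        rw [inner_E, EuclideanSpace.real_norm_sq_eq]
        push_cast
        simp only [Finset.sum_sub_distrib, Finset.mul_sum]
      rw [e]
      calc |∑ i, (X i * η i - S * η i ^ 2 - P i - N i)|
          ≤ ∑ i, |X i * η i - S * η i ^ 2 - P i - N i| := Finset.abs_sum_le_sum_abs _ _
        _ ≤ ∑ i : Fin (m + 1), 3 / (bM m : ℝ) := Finset.sum_le_sum fun i _ => hN i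
        _ = 3 * ((m : ℝ) + 1) / bM m := by simp only [Finset.sum_const, Finset.card_univ, Fintype.card_fin, nsmul_eq_mul, Nat.cast_add, Nat.cast_one]; ring
        _ ≤ 3 / 64 := by
            rw [div_le_div_iff₀ hM (by norm_num)]
            have := bM_ge' (m := m)
            linarith only [this])
  rw [volume_box hK, ENNReal.toReal_ofReal hV.le] at hcoh
  have hevo : evo (bG m K) X S 0 = ((2 / bV m K : ℝ) : ℂ) *
      ∫ η in box m K, cexp (2 * Real.pi * I * ((inner ℝ X η - S * ‖η‖ ^ 2 : ℝ) : ℂ)) := by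
    unfold evo bG
    rw [← integral_const_mul, ← integral_indicator measurableSet_box]
    congr 1
    ext η
    by_cases hη : η ∈ box m K
    · simp only [Set.indicator_of_mem hη]
      simp only [mul_comm, ofReal_sub, ofReal_mul, ofReal_pow, zero_mul, ofReal_zero, sub_zero, ofReal_div, ofReal_ofNat]
    · simp only [Set.indicator_of_notMem hη, mul_zero]
  rw [hevo, norm_mul, Complex.norm_real, Real.norm_of_nonneg (by positivity)]
  have hpi := Real.pi_lt_d2
  calc (1 : ℝ) ≤ 2 / bV m K * (bV m K * (1 - 2 * Real.pi * (3 / 64))) := by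
        rw [← mul_assoc, div_mul_cancel₀ _ hV.ne']
        linarith only [hpi]
    _ ≤ _ := by (clear * - hcoh hV; gcongr)

end Vale.Agent.P076
end

section

open MeasureTheory Complex

namespace Vale.Agent.P076

variable {m K : ℕ}

/-- translate and dilate frequency data -/
noncomputable def scaled {n : ℕ} (G0 : E n → ℂ) (c : E n) (r : ℝ) (η : E n) : ℂ :=
  ((r ^ n : ℝ) : ℂ) * cexp (-(2 * Real.pi * I * ((inner ℝ c η : ℝ) : ℂ))) * G0 (r • η)

lemma evo_scaled {n : ℕ} (G0 : E n → ℂ) (c : E n) {r : ℝ} (hr : 0 < r) (x : E n) (s a : ℝ) :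
    evo (scaled G0 c r) x s a = evo G0 (r⁻¹ • (x - c)) (s / r ^ 2) (a / r ^ 2) := by
  unfold evo scaled
  set F : E n → ℂ := fun ζ => cexp (2 * Real.pi * I *
    ((inner ℝ (r⁻¹ • (x - c)) ζ - s / r ^ 2 * ‖ζ‖ ^ 2 : ℝ) : ℂ) - (a / r ^ 2 * ‖ζ‖ ^ 2 : ℝ)) * G0 ζ
    with hF
  have h1 : ∀ η : E n, cexp (2 * Real.pi * I * ((inner ℝ x η - s * ‖η‖ ^ 2 : ℝ) : ℂ)
      - (a * ‖η‖ ^ 2 : ℝ)) * (((r ^ n : ℝ) : ℂ) * cexp (-(2 * Real.pi * I * ((inner ℝ c η : ℝ) : ℂ)))
        * G0 (r • η)) = ((r ^ n : ℝ) : ℂ) * F (r • η) := by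
    intro η
    rw [hF]
    simp only
    have e1 : inner ℝ (r⁻¹ • (x - c)) (r • η) = inner ℝ x η - inner ℝ c η := by
      rw [real_inner_smul_left, real_inner_smul_right, inner_sub_left]
      field_simp
    have e2 : ‖r • η‖ ^ 2 = r ^ 2 * ‖η‖ ^ 2 := by
      rw [norm_smul, Real.norm_eq_abs, mul_pow, sq_abs]
    have e3 : s / r ^ 2 * (r ^ 2 * ‖η‖ ^ 2) = s * ‖η‖ ^ 2 := by (clear * - hr; field_simp)
    have e4 : a / r ^ 2 * (r ^ 2 * ‖η‖ ^ 2) = a * ‖η‖ ^ 2 := by (clear * - hr; field_simp)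
    rw [e1, e2, e3, e4]
    have e5 : cexp (2 * Real.pi * I * ((inner ℝ x η - inner ℝ c η - s * ‖η‖ ^ 2 : ℝ) : ℂ)
        - (a * ‖η‖ ^ 2 : ℝ)) = cexp (2 * Real.pi * I * ((inner ℝ x η - s * ‖η‖ ^ 2 : ℝ) : ℂ)
        - (a * ‖η‖ ^ 2 : ℝ)) * cexp (-(2 * Real.pi * I * ((inner ℝ c η : ℝ) : ℂ))) := by
      rw [← Complex.exp_add]
      congr 1
      push_cast
      ring
    rw [e5]
    ring
  simp_rw [h1]
  rw [integral_const_mul, Measure.integral_comp_smul, finrank_euclideanSpace, Fintype.card_fin,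
    abs_of_pos (by positivity), Complex.real_smul, ← mul_assoc, ← Complex.ofReal_mul,
    mul_inv_cancel₀ (by positivity), Complex.ofReal_one, one_mul]

lemma norm_scaled {n : ℕ} (G0 : E n → ℂ) (c : E n) {r : ℝ} (hr : 0 < r) (η : E n) :
    ‖scaled G0 c r η‖ = r ^ n * ‖G0 (r • η)‖ := by
  unfold scaled
  rw [norm_mul, norm_mul, Complex.norm_real, Real.norm_of_nonneg (by positivity)]
  have : -(2 * Real.pi * I * ((inner ℝ c η : ℝ) : ℂ)) = ((-(2 * Real.pi * inner ℝ c η) : ℝ) : ℂ) * I := by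
    push_cast; ring
  rw [this, Complex.norm_exp_ofReal_mul_I, mul_one]

lemma integral_norm_sq_scaled {n : ℕ} (G0 : E n → ℂ) (c : E n) {r : ℝ} (hr : 0 < r) :
    ∫ η, ‖scaled G0 c r η‖ ^ 2 = r ^ n * ∫ η, ‖G0 η‖ ^ 2 := by
  simp_rw [norm_scaled G0 c hr, mul_pow]
  rw [integral_const_mul, Measure.integral_comp_smul volume (fun η : E n => ‖G0 η‖ ^ 2) r,
    finrank_euclideanSpace, Fintype.card_fin, abs_of_pos (by positivity), smul_eq_mul]
  field_simp

lemma measurable_scaled {n : ℕ} {G0 : E n → ℂ} (h : Measurable G0) (c : E n) (r : ℝ) :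
    Measurable (scaled G0 c r) := by
  unfold scaled
  fun_prop

lemma measurable_bG : Measurable (bG m K) :=
  measurable_const.indicator measurableSet_box

lemma integral_norm_sq_bG (hK : 1 ≤ K) : ∫ η, ‖bG m K η‖ ^ 2 = 4 / bV m K := by
  have hV := bV_pos (m := m) hK
  have h1 : (fun η => ‖bG m K η‖ ^ 2) = (box m K).indicator fun _ => (2 / bV m K) ^ 2 := by
    ext η
    unfold bG
    by_cases h : η ∈ box m K
    · rw [Set.indicator_of_mem h, Set.indicator_of_mem h, Complex.norm_real,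
        Real.norm_of_nonneg (by positivity)]
    · rw [Set.indicator_of_notMem h, Set.indicator_of_notMem h]; simp
  rw [h1, integral_indicator measurableSet_box, setIntegral_const, smul_eq_mul, Measure.real,
    volume_box hK, ENNReal.toReal_ofReal hV.le]
  field_simp
  ring

lemma bV_eq : bV m K = bh m K ^ (2 * m + 2) / (bM m : ℝ) ^ (2 * m + 1) := by
  have hM := bM_pos (m := m)
  have hKh : (K : ℝ) = bh m K / bM m := by unfold bh; field_simp
  unfold bV bw
  rw [hKh, div_div, div_pow]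
  field_simp
  ring

lemma bR_rpow (hK : 1 ≤ K) :
    bR m K ^ (((m + 1 : ℕ) : ℝ) / (((m + 1 : ℕ) : ℝ) + 1)) = bh m K ^ (2 * m + 2) := by
  have hh := bh_pos (m := m) hK
  unfold bR
  rw [← Real.rpow_natCast, ← Real.rpow_mul hh.le, ← Real.rpow_natCast]
  congr 1
  push_cast
  have : (m : ℝ) + 1 + 1 ≠ 0 := by positivity
  field_simp
  ring

lemma box_norm (hK : 1 ≤ K) {η : E (m + 1)} (hη : η ∈ box m K) :
    bR m K / 2 ≤ ‖η‖ ∧ ‖η‖ ≤ 3 / 5 * bR m K := by
  have hw := bw_pos (m := m) hK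
  have hR := bR_pos (m := m) hK
  have hM := bM_pos (m := m)
  have hM64 := bM_ge (m := m)
  have hh := bh_pos (m := m) hK
  have hh64 := bh_ge64 (m := m) hK
  have hD := bD_pos (m := m) hK
  have hD64 := bD_ge (m := m) hK
  have hK1 : (1:ℝ) ≤ K := by exact_mod_cast hK
  have hKh : (K : ℝ) = bh m K / bM m := by unfold bh; (clear * - hM hK; field_simp)
  have h0 : bR m K / 2 ≤ η 0 ∧ η 0 < bR m K / 2 + bw m K := by
    have := hη 0
    simpa only [bS, bA0, Fin.cons_zero, Set.mem_Ico] using this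
  have h1 : ∀ i : Fin m, 0 ≤ η i.succ ∧ η i.succ ≤ 2 * bR m K / bM m := by
    intro i
    have := hη i.succ
    simp only [bS, Fin.cons_succ, bA, Set.mem_iUnion, Finset.mem_range, exists_prop] at this
    obtain ⟨k, hk, hv1, hv2⟩ := this
    have hθ0 : 0 ≤ bθ m K i := by unfold bθ; (clear * - hD hh; positivity)
    have hθ1 : bθ m K i ≤ bD m K / 2 := by
      unfold bθ
      have : (1 : ℝ) ≤ bh m K ^ ((i : ℕ) + 1) := one_le_pow₀ (by linarith only [hh64])
      gcongr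
      linarith only [this]
    have hk1 : (k : ℝ) + 1 ≤ K := by exact_mod_cast hk
    have hM1 : 1 / (bM m : ℝ) ≤ 1 := by
      rw [div_le_one hM]; linarith only [hM64]
    refine ⟨le_trans (by (clear * - hθ0 hD; positivity)) hv1, hv2.le.trans ?_⟩
    have hM2 : 1 / (bM m : ℝ) ≤ bD m K / 2 := by linarith only [hD64, hM1]
    calc bθ m K i + bD m K * k + 1 / bM m ≤ bD m K / 2 + bD m K * k + bD m K / 2 := by
          linarith only [hD64, hθ1, hM1]
      _ = bD m K * (k + 1) := by ring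
      _ ≤ bD m K * K := by (clear * - hk1 hD; gcongr)
      _ = bR m K / bM m := by rw [bR_eq, hKh]; ring
      _ ≤ 2 * bR m K / bM m := by gcongr; linarith only [hR]
  have hnorm : ‖η‖ ^ 2 = η 0 ^ 2 + ∑ i : Fin m, η i.succ ^ 2 := by
    rw [EuclideanSpace.real_norm_sq_eq, Fin.sum_univ_succ]
  constructor
  · have : (bR m K / 2) ^ 2 ≤ ‖η‖ ^ 2 := by
      rw [hnorm]
      have : 0 ≤ ∑ i : Fin m, η i.succ ^ 2 := Finset.sum_nonneg fun i _ => sq_nonneg _
      have : (bR m K / 2) ^ 2 ≤ η 0 ^ 2 := by gcongr; exact h0.1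
      (clear hw hM hM64 hh hh64 hD hD64 hK1 hKh h1 hnorm; linarith)
    exact le_of_sq_le_sq this (norm_nonneg _)
  · have hsum : ∑ i : Fin m, η i.succ ^ 2 ≤ bR m K ^ 2 / 1024 := by
      calc ∑ i : Fin m, η i.succ ^ 2 ≤ ∑ i : Fin m, (2 * bR m K / bM m) ^ 2 :=
            Finset.sum_le_sum fun i _ => by
              have := h1 i
              gcongr
              · exact this.1
              · exact this.2
        _ = m * (2 * bR m K / bM m) ^ 2 := by simp only [Finset.sum_const, Finset.card_univ, Fintype.card_fin, nsmul_eq_mul]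
        _ = bR m K ^ 2 * (4 * m / (bM m) ^ 2) := by ring
        _ ≤ bR m K ^ 2 * (1 / 1024) := by
            refine mul_le_mul_of_nonneg_left ?_ (by positivity)
            rw [div_le_div_iff₀ (by (clear * - hM; positivity)) (by norm_num)]
            have := bM_ge' (m := m)
            linarith only [mul_le_mul this this (by positivity) hM.le, sq_nonneg (m:ℝ)]
        _ = _ := by ring
    have hw2 : bw m K ≤ bR m K / 64 := (bw_le hK).trans (by (clear * - hR hM64; gcongr))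
    have h02 : η 0 ^ 2 ≤ (33 / 64 * bR m K) ^ 2 := by
      have : 0 ≤ η 0 := le_trans (by positivity) h0.1
      gcongr
      linarith only [h0, hw2]
    have : ‖η‖ ^ 2 ≤ (3 / 5 * bR m K) ^ 2 := by
      rw [hnorm]
      linarith only [hsum, h02, sq_nonneg (bR m K)]
    exact le_of_sq_le_sq this (by positivity)

end Vale.Agent.P076
end

section

open MeasureTheory Complex

namespace Vale.Agent.P076

variable {m K : ℕ}

/-- the ratio between consecutive admissible values of `R` -/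
noncomputable def bρ (m : ℕ) : ℝ := 2 ^ (2 * m + 4)

lemma bρ_pos : 0 < bρ m := by unfold bρ; positivity

lemma bR_succ (κ : ℕ) : bR m (2 ^ (κ + 1)) = bρ m * bR m (2 ^ κ) := by
  unfold bR bh bρ
  rw [← mul_pow]
  congr 1
  push_cast
  ring

lemma one_le_two_pow' (κ : ℕ) : 1 ≤ 2 ^ κ := Nat.one_le_two_pow

lemma bR_large (κ : ℕ) : (2 : ℝ) ^ κ ≤ bR m (2 ^ κ) := by
  have h1 := bR_ge (m := m) (one_le_two_pow' κ)
  refine le_trans ?_ h1
  unfold bh
  push_cast
  have := bM_ge (m := m)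
  have : (0 : ℝ) < 2 ^ κ := by positivity
  nlinarith

lemma exists_scale {r q : ℝ} (hq : 0 < q) (hq0 : bR m 1 / q ≤ bρ m * r) :
    ∃ κ : ℕ, r ≤ bR m (2 ^ κ) / q ∧ bR m (2 ^ κ) / q ≤ bρ m * r := by
  have hex : ∃ κ : ℕ, r ≤ bR m (2 ^ κ) / q := by
    obtain ⟨κ, hκ⟩ := pow_unbounded_of_one_lt (r * q) (by norm_num : (1 : ℝ) < 2)
    refine ⟨κ, ?_⟩
    rw [le_div_iff₀ hq]
    exact hκ.le.trans (bR_large κ)
  classical
  refine ⟨Nat.find hex, Nat.find_spec hex, ?_⟩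
  rcases Nat.eq_zero_or_pos (Nat.find hex) with h0 | hpos
  · rw [h0]; exact hq0
  · obtain ⟨κ, hκ⟩ := Nat.exists_eq_succ_of_ne_zero hpos.ne'
    have hlt : ¬ r ≤ bR m (2 ^ κ) / q := Nat.find_min hex (by omega)
    push Not at hlt
    rw [hκ, Nat.succ_eq_add_one, bR_succ, mul_div_assoc]
    exact mul_le_mul_of_nonneg_left hlt.le bρ_pos.le

lemma bw_one (hK : 1 ≤ K) : 1 ≤ bw m K := by
  have hM := bM_pos (m := m)
  have hh64 := bh_ge64 (m := m) hK
  unfold bw
  rw [le_div_iff₀ hM, one_mul]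
  calc (bM m : ℝ) ≤ bh m K := bh_ge hK
    _ = bh m K ^ 1 := (pow_one _).symm
    _ ≤ bh m K ^ (m + 2) := pow_le_pow_right₀ (by linarith only [hh64]) (by omega)

/-- shifted corner -/
noncomputable def bshift (c : E (m + 1)) (r : ℝ) : E (m + 1) := c - EuclideanSpace.single 0 r

/-- rescaled position -/
noncomputable def bX (c : E (m + 1)) (r : ℝ) (x : E (m + 1)) : E (m + 1) := r⁻¹ • (x - bshift c r)

lemma bX_zero (c x : E (m + 1)) {r : ℝ} (hr : 0 < r) : bX c r x 0 = (x 0 - c 0 + r) / r := by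
  simp only [bX, bshift, PiLp.smul_apply, PiLp.sub_apply, PiLp.single_apply, if_true, smul_eq_mul]
  field_simp
  ring

lemma bX_succ (c x : E (m + 1)) {r : ℝ} (hr : 0 < r) (i : Fin m) :
    bX c r x i.succ = (x i.succ - c i.succ) / r := by
  simp only [bX, bshift, PiLp.smul_apply, PiLp.sub_apply, PiLp.single_apply, Fin.succ_ne_zero,
    if_false, sub_zero, smul_eq_mul]
  field_simp

/-- the final block -/
noncomputable def fG (m K : ℕ) (c : E (m + 1)) (r : ℝ) : E (m + 1) → ℂ :=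
  scaled (bG m K) (bshift c r) r

section
variable {c : E (m + 1)} {r q : ℝ}

lemma measurable_fG : Measurable (fG m K c r) := measurable_scaled measurable_bG _ _

lemma fG_bounded (hK : 1 ≤ K) (hr : 0 < r) : ∃ b : ℝ, ∀ η, ‖fG m K c r η‖ ≤ b := by
  have hV := bV_pos (m := m) hK
  refine ⟨r ^ (m + 1) * (2 / bV m K), fun η => ?_⟩
  unfold fG
  rw [norm_scaled _ _ hr]
  gcongr
  unfold bG
  by_cases h : r • η ∈ box m K
  · rw [Set.indicator_of_mem h, Complex.norm_real, Real.norm_of_nonneg (by positivity)]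
  · rw [Set.indicator_of_notMem h]; simp only [norm_zero]; positivity

lemma fG_support (hK : 1 ≤ K) (hr : 0 < r) (hq : 0 < q) (hRr : bR m K = r * q) {η : E (m + 1)}
    (hη : fG m K c r η ≠ 0) : 2 * q ≤ 2 * Real.pi * ‖η‖ ∧ 2 * Real.pi * ‖η‖ < 4 * q := by
  have hmem : r • η ∈ box m K := by
    by_contra hcon
    apply hη
    unfold fG scaled bG
    rw [Set.indicator_of_notMem hcon, mul_zero]
  obtain ⟨h1, h2⟩ := box_norm hK hmem
  rw [norm_smul, Real.norm_of_nonneg hr.le, hRr] at h1 h2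
  have h1' : q / 2 ≤ ‖η‖ := by
    have : r * (q / 2) ≤ r * ‖η‖ := by linarith only [h1]
    exact le_of_mul_le_mul_left this hr
  have h2' : ‖η‖ ≤ 3 / 5 * q := by
    have : r * ‖η‖ ≤ r * (3 / 5 * q) := by linarith only [h2]
    exact le_of_mul_le_mul_left this hr
  have hpi1 := Real.pi_gt_three
  have hpi2 := Real.pi_lt_d2
  constructor
  · calc 2 * q ≤ 2 * 3 * (q / 2) := by linarith only [hq]
      _ ≤ 2 * Real.pi * ‖η‖ := by (clear * - hpi1 h1' hq; gcongr)
  · calc 2 * Real.pi * ‖η‖ ≤ 2 * 3.15 * (3 / 5 * q) := by (clear * - hpi2 h2'; gcongr)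
      _ < 4 * q := by linarith only [hq]

lemma fG_cost (hK : 1 ≤ K) (hr : 0 < r) :
    ∫ η, ‖fG m K c r η‖ ^ 2 = r ^ (m + 1) * (4 * (bM m : ℝ) ^ (2 * m + 1) /
      bR m K ^ (((m + 1 : ℕ) : ℝ) / (((m + 1 : ℕ) : ℝ) + 1))) := by
  have hh := bh_pos (m := m) hK
  have hM := bM_pos (m := m)
  unfold fG
  rw [integral_norm_sq_scaled _ _ hr, integral_norm_sq_bG hK, bV_eq, bR_rpow hK]
  field_simp

lemma fG_align (hK : 1 ≤ K) (hr : 0 < r) {x : E (m + 1)} (hx : x ∈ cube c r) :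
    ∃ s, r ^ 2 / (2 * bR m K) ≤ s ∧ s ≤ r ^ 2 * (3 / bR m K) ∧
      1 ≤ ‖evo (fG m K c r) x s 0‖ := by
  have hR := bR_pos (m := m) hK
  have hx0 := hx 0
  obtain ⟨S, hS1, hS2, hS3⟩ := resonance_unit (m := m) hK (X := bX c r x)
    (by rw [bX_zero c x hr, le_div_iff₀ hr]; linarith only [hx0])
    (by rw [bX_zero c x hr, div_le_iff₀ hr]; linarith only [hx0])
    (fun i => by
      have := hx i.succ
      rw [bX_succ c x hr i]
      constructor
      · apply div_nonneg _ hr.le; linarith only [this]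
      · rw [div_le_one hr]; linarith only [this])
  refine ⟨r ^ 2 * S, ?_, ?_, ?_⟩
  · calc r ^ 2 / (2 * bR m K) = r ^ 2 * (1 / (2 * bR m K)) := by ring
      _ ≤ r ^ 2 * S := by (clear * - hS1 hr; gcongr)
  · (clear * - hS2 hr; gcongr)
  · unfold fG
    rw [evo_scaled _ _ hr]
    have : r ^ 2 * S / r ^ 2 = S := by (clear * - hr; field_simp)
    rw [this, zero_div]
    exact hS3

lemma fG_late (hK : 1 ≤ K) (hr : 0 < r) (hq : 0 < q) (hRr : bR m K = r * q) {x : E (m + 1)}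
    {s a : ℝ} (hs : 0 < s) (ha : 0 ≤ a) (hx : ‖x‖ + |c 0| + r ≤ s * q / 2) :
    ‖evo (fG m K c r) x s a‖ ≤ 4 * r / (s * q) := by
  have hw := bw_pos (m := m) hK
  have hw1 := bw_one (m := m) hK
  have hR := bR_pos (m := m) hK
  unfold fG
  rw [evo_scaled _ _ hr]
  have hbd : |x 0 - c 0 + r| ≤ s * q / 2 := by
    refine le_trans ?_ hx
    have hx0 : |x 0| ≤ ‖x‖ := by
      have h1 : ‖x 0‖ ≤ ‖x‖ := PiLp.norm_apply_le x 0
      rwa [Real.norm_eq_abs] at h1
    calc |x 0 - c 0 + r| ≤ |x 0 - c 0| + |r| := abs_add_le _ _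
      _ ≤ (|x 0| + |c 0|) + |r| := by gcongr; exact abs_sub _ _
      _ ≤ ‖x‖ + |c 0| + r := by rw [abs_of_pos hr]; (clear * - hx0; gcongr)
  change ‖evo (bG m K) (bX c r x) (s / r ^ 2) (a / r ^ 2)‖ ≤ _
  refine (late_unit hK (by positivity) (by positivity) ?_).trans ?_
  · rw [bX_zero c x hr, abs_div, abs_of_pos hr]
    calc |x 0 - c 0 + r| / r ≤ (s * q / 2) / r := by (clear * - hbd hr; gcongr)
      _ = s / r ^ 2 * (bR m K / 2) := by rw [hRr]; field_simp
  · calc 4 / (bw m K * (s / r ^ 2 * bR m K)) = 4 * r / (bw m K * (s * q)) := by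
          rw [hRr]; (clear * - hq hr hs hw; field_simp)
      _ ≤ 4 * r / (1 * (s * q)) := by gcongr
      _ = 4 * r / (s * q) := by rw [one_mul]

end

/-- the cost constant -/
noncomputable def bC (m : ℕ) : ℝ :=
  8 * (bM m : ℝ) ^ (2 * m + 1) * bρ m ^ (((m + 1 : ℕ) : ℝ) ^ 2 / (((m + 1 : ℕ) : ℝ) + 1))

lemma bC_pos : 0 < bC m := by
  have := bM_pos (m := m)
  have := bρ_pos (m := m)
  unfold bC
  positivity

lemma cost_bound {r r' : ℝ} (hr : 0 < r) (hr' : 0 < r') (hle : r' ≤ bρ m * r) (k : ℕ) :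
    r' ^ (m + 1) * (4 * (bM m : ℝ) ^ (2 * m + 1) /
      (r' * (2 ^ k / 2)) ^ (((m + 1 : ℕ) : ℝ) / (((m + 1 : ℕ) : ℝ) + 1)))
      ≤ bC m * r ^ (((m + 1 : ℕ) : ℝ) ^ 2 / (((m + 1 : ℕ) : ℝ) + 1))
        * (2 : ℝ) ^ (-(2 * k * sCrit (m + 1))) := by
  have hM := bM_pos (m := m)
  have hρ := bρ_pos (m := m)
  unfold bC sCrit
  generalize hn : ((m + 1 : ℕ) : ℝ) = n
  have hn0 : 0 < n := by rw [← hn]; positivity
  have e1 : r' ^ (m + 1) = r' ^ (n ^ 2 / (n + 1)) * r' ^ (n / (n + 1)) := by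
    rw [← Real.rpow_add hr', ← Real.rpow_natCast, hn]
    congr 1
    (clear * - hn0; field_simp)
  have e2 : ((2 : ℝ) ^ k / 2) ^ (n / (n + 1)) = 2 ^ (2 * k * (n / (2 * (n + 1)))) / 2 ^ (n / (n + 1)) := by
    rw [Real.div_rpow (by positivity) (by norm_num), ← Real.rpow_natCast 2 k,
      ← Real.rpow_mul (by norm_num)]
    congr 2
    (clear * - hn0; field_simp)
  have e3 : (2 : ℝ) ^ (n / (n + 1)) ≤ 2 := by
    calc (2 : ℝ) ^ (n / (n + 1)) ≤ 2 ^ (1 : ℝ) :=
          Real.rpow_le_rpow_of_exponent_le (by norm_num) (by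
            rw [div_le_one (by positivity)]; linarith only [])
      _ = 2 := Real.rpow_one 2
  have e4 : r' ^ (n ^ 2 / (n + 1)) ≤ bρ m ^ (n ^ 2 / (n + 1)) * r ^ (n ^ 2 / (n + 1)) := by
    rw [← Real.mul_rpow hρ.le hr.le]
    exact Real.rpow_le_rpow hr'.le hle (by (clear * - hn0; positivity))
  rw [Real.mul_rpow hr'.le (by positivity), e1, e2, Real.rpow_neg (by norm_num)]
  have hP : (0 : ℝ) < 2 ^ (2 * (k : ℝ) * (n / (2 * (n + 1)))) := by positivity
  have hQ : 0 < r' ^ (n / (n + 1)) := by positivity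
  have h2β : (0 : ℝ) < 2 ^ (n / (n + 1)) := by positivity
  have hA : 0 < r' ^ (n ^ 2 / (n + 1)) := by positivity
  generalize (2 : ℝ) ^ (2 * (k : ℝ) * (n / (2 * (n + 1)))) = P at *
  generalize r' ^ (n / (n + 1)) = Q at *
  generalize (2 : ℝ) ^ (n / (n + 1)) = W at *
  generalize r' ^ (n ^ 2 / (n + 1)) = A at *
  generalize bρ m ^ (n ^ 2 / (n + 1)) = D at *
  generalize r ^ (n ^ 2 / (n + 1)) = F at *
  calc A * Q * (4 * (bM m : ℝ) ^ (2 * m + 1) / (Q * (P / W)))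
      = 4 * (bM m : ℝ) ^ (2 * m + 1) * W * A * P⁻¹ := by
        (clear * - hQ h2β hP hM hA; field_simp)
    _ ≤ 4 * (bM m : ℝ) ^ (2 * m + 1) * 2 * (D * F) * P⁻¹ := by
        (clear * - e3 hM e4 hA hP; gcongr)
    _ = _ := by ring

theorem exists_block (m : ℕ) : ∃ C > 0, BlockProperty (m + 1) C := by
  have hρ := bρ_pos (m := m)
  refine ⟨bC m, bC_pos, ?_⟩
  intro c r B s₀ ε hr hs₀ hε
  -- largeness of `2^k`
  have hR1 : 0 < bR m 1 := bR_pos le_rfl
  set L1 : ℝ := 2 * bR m 1 / (bρ m * r) with hL1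
  set L2 : ℝ := 6 * (bρ m * r) / ε with hL2
  set L3 : ℝ := 4 * (|B| + |c 0| + bρ m * r) / s₀ with hL3
  set L4 : ℝ := 8 * (bρ m * r) / (s₀ * ε) with hL4
  have hL1' : 0 ≤ L1 := by positivity
  have hL2' : 0 ≤ L2 := by positivity
  have hL3' : 0 ≤ L3 := by (clear * - hρ hr hs₀; positivity)
  have hL4' : 0 ≤ L4 := by positivity
  obtain ⟨k₀, hk₀⟩ := pow_unbounded_of_one_lt (L1 + L2 + L3 + L4) (by norm_num : (1 : ℝ) < 2)
  refine ⟨k₀, fun k hk => ?_⟩
  have hLk : L1 + L2 + L3 + L4 ≤ (2 : ℝ) ^ k := hk₀.le.trans (pow_le_pow_right₀ (by norm_num) hk)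
  have h2k : (0 : ℝ) < 2 ^ k := by positivity
  have hA1 : 2 * bR m 1 ≤ (2 : ℝ) ^ k * (bρ m * r) := by
    rw [← div_le_iff₀ (by positivity)]; linarith only [hL2', hL3', hL4', hLk]
  have hA2 : 6 * (bρ m * r) ≤ (2 : ℝ) ^ k * ε := by
    rw [← div_le_iff₀ (by positivity)]; linarith only [hL1', hL3', hL4', hLk]
  have hA3 : 4 * (|B| + |c 0| + bρ m * r) ≤ (2 : ℝ) ^ k * s₀ := by
    rw [← div_le_iff₀ (by positivity)]; linarith only [hL1', hL2', hL4', hLk]
  have hA4 : 8 * (bρ m * r) ≤ (2 : ℝ) ^ k * (s₀ * ε) := by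
    rw [← div_le_iff₀ (by positivity)]; linarith only [hL1', hL2', hL3', hLk]
  clear_value L1 L2 L3 L4
  obtain ⟨κ, hκ1, hκ2⟩ := exists_scale (m := m) (r := r) (by positivity : (0 : ℝ) < 2 ^ k / 2) (by
    rw [div_le_iff₀ (by positivity)]; linarith only [hA1])
  have hK : 1 ≤ 2 ^ κ := one_le_two_pow' κ
  have hR : 0 < bR m (2 ^ κ) := bR_pos hK
  set r' : ℝ := bR m (2 ^ κ) / (2 ^ k / 2) with hr'
  have hr'0 : 0 < r' := by (clear * - hR; positivity)
  have hRr : bR m (2 ^ κ) = r' * (2 ^ k / 2) := by rw [hr']; field_simp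
  refine ⟨fG m (2 ^ κ) c r', r' ^ 2 / (2 * bR m (2 ^ κ)), by (clear * - hR; positivity),
    measurable_fG, fG_bounded hK hr'0, ?_, ?_, ?_, ?_⟩
  · intro η hη
    have := fG_support hK hr'0 (by positivity) hRr hη
    constructor
    · linarith only [this]
    · rw [pow_succ]; linarith only [this]
  · rw [fG_cost hK hr'0, hRr]
    exact cost_bound hr hr'0 hκ2 k
  · intro x hx
    obtain ⟨s, h1, h2, h3⟩ := fG_align (m := m) hK hr'0 (c := c) (x := x) (fun i => by
      have := hx i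
      exact ⟨this.1, by linarith only [hκ1, this]⟩)
    refine ⟨s, h1, h2.trans ?_, h3⟩
    calc r' ^ 2 * (3 / bR m (2 ^ κ)) = 6 * r' / 2 ^ k := by rw [hRr]; field_simp; ring
      _ ≤ 6 * (bρ m * r) / 2 ^ k := by (clear * - hκ2; gcongr)
      _ ≤ ε := by rw [div_le_iff₀ h2k]; linarith only [hA2]
  · intro x hx s hs a ha
    have hs0 : 0 < s := lt_of_lt_of_le hs₀ hs
    refine (fG_late hK hr'0 (by positivity) hRr hs0 ha ?_).trans ?_
    · have h1 : ‖x‖ ≤ |B| := hx.trans (le_abs_self B)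
      have h2 : (2 : ℝ) ^ k * s₀ ≤ 2 ^ k * s := by (clear * - hs; gcongr)
      linarith only [hA3, hκ2, h1, h2]
    · calc 4 * r' / (s * (2 ^ k / 2)) = 8 * r' / (s * 2 ^ k) := by field_simp; ring
        _ ≤ 8 * (bρ m * r) / (s₀ * 2 ^ k) := by (clear * - hρ hr hκ2 hs₀ hs; gcongr)
        _ ≤ ε := by rw [div_le_iff₀ (by positivity)]; linarith only [hA4]

end Vale.Agent.P076
end

section

open MeasureTheory Complex FourierTransform Filter Topology

namespace Vale.Agent.P076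

theorem unifiedConclusion {n : ℕ} (hn : 1 ≤ n) : UnifiedConclusion n := by
  obtain ⟨m, rfl⟩ : ∃ m, n = m + 1 := ⟨n - 1, by omega⟩
  obtain ⟨C, hC, hB⟩ := exists_block m
  exact unified hn hC hB

end Vale.Agent.P076
end

section

/-!
No rate of convergence at the endpoint `H^{s_n}`.
-/

open MeasureTheory Complex FourierTransform Filter Topology

namespace Vale.Agent.P076

variable {n : ℕ}

/-- weighted integrability from the shells -/
lemma integrable_of_shells {w : ℝ → ℝ} (hwm : Measurable w) (hw0 : ∀ r, 0 ≤ w r)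
    {f : Lp ℂ 2 (volume : Measure (E n))} {k : ℕ → ℕ}
    (hsupp : ∀ᵐ ξ, hat f ξ ≠ 0 → ∃ i, 2 ^ k i ≤ ‖ξ‖ ∧ ‖ξ‖ < 2 ^ (k i + 1)) {W : ℕ → ℝ}
    (hW : ∀ i r, 2 ^ k i ≤ r → r < 2 ^ (k i + 1) → w r ≤ W i)
    (hsum : Summable fun i => W i * ∫ ξ in {ξ : E n | 2 ^ k i ≤ ‖ξ‖ ∧ ‖ξ‖ < 2 ^ (k i + 1)},
      ‖hat f ξ‖ ^ 2) :
    Integrable (fun ξ => w ‖ξ‖ * ‖hat f ξ‖ ^ 2) := by
  set S : ℕ → Set (E n) := fun i => {ξ : E n | 2 ^ k i ≤ ‖ξ‖ ∧ ‖ξ‖ < 2 ^ (k i + 1)} with hS
  have hSm : ∀ i, MeasurableSet (S i) := fun i => measurableSet_shell _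
  have hmeas : AEStronglyMeasurable (fun ξ => w ‖ξ‖ * ‖hat f ξ‖ ^ 2) volume :=
    ((hwm.comp measurable_norm).mul
      ((stronglyMeasurable_hat f).measurable.norm.pow_const 2)).aestronglyMeasurable
  have hbd : ∀ i, ∀ ξ ∈ S i, w ‖ξ‖ * ‖hat f ξ‖ ^ 2 ≤ W i * ‖hat f ξ‖ ^ 2 := by
    intro i ξ hξ
    have := hW i ‖ξ‖ hξ.1 hξ.2
    (clear * - this; gcongr)
  have hnn : ∀ ξ, 0 ≤ w ‖ξ‖ * ‖hat f ξ‖ ^ 2 := fun ξ => mul_nonneg (hw0 _) (by positivity)
  have hint : ∀ i, IntegrableOn (fun ξ => w ‖ξ‖ * ‖hat f ξ‖ ^ 2) (S i) := by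
    intro i
    refine Integrable.mono' ((integrable_hat_sq f).const_mul (W i)).integrableOn
      hmeas.restrict ?_
    filter_upwards [ae_restrict_mem (hSm i)] with ξ hξ
    rw [Real.norm_of_nonneg (hnn ξ)]
    exact hbd i ξ hξ
  have hon : IntegrableOn (fun ξ => w ‖ξ‖ * ‖hat f ξ‖ ^ 2) (⋃ i, S i) := by
    refine integrableOn_iUnion_of_summable_integral_norm hint ?_
    refine Summable.of_nonneg_of_le (fun i => integral_nonneg fun _ => norm_nonneg _) (fun i => ?_) hsum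
    calc ∫ ξ in S i, ‖w ‖ξ‖ * ‖hat f ξ‖ ^ 2‖
        = ∫ ξ in S i, w ‖ξ‖ * ‖hat f ξ‖ ^ 2 := by
          congr 1; ext ξ; rw [Real.norm_of_nonneg (hnn ξ)]
      _ ≤ ∫ ξ in S i, W i * ‖hat f ξ‖ ^ 2 :=
          setIntegral_mono_on (hint i) ((integrable_hat_sq f).const_mul _).integrableOn (hSm i) (hbd i)
      _ = W i * ∫ ξ in S i, ‖hat f ξ‖ ^ 2 := integral_const_mul _ _
  refine hon.integrable_of_ae_notMem_eq_zero ?_
  filter_upwards [hsupp] with ξ hξ hmem
  have : hat f ξ = 0 := by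
    by_contra h0
    obtain ⟨i, hi⟩ := hξ h0
    exact hmem (Set.mem_iUnion.2 ⟨i, hi⟩)
  simp [this]

lemma sobolev_weight_le (hn : 1 ≤ n) {k : ℕ} {r : ℝ} (h0 : 2 ^ k ≤ r) (hr : r < 2 ^ (k + 1)) :
    (1 + r ^ 2) ^ sCrit n ≤ 8 * (2 : ℝ) ^ (2 * k * sCrit n) := by
  have hs : 0 ≤ sCrit n := by unfold sCrit; positivity
  have hs1 : sCrit n ≤ 1 := by
    unfold sCrit
    rw [div_le_one (by positivity)]
    have : (1 : ℝ) ≤ n := by exact_mod_cast hn
    linarith only []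
  have h2k : (1 : ℝ) ≤ 2 ^ k := one_le_pow₀ (by norm_num)
  have h1 : 1 + r ^ 2 ≤ 8 * (2 ^ k) ^ 2 := by
    have h3 : r ^ 2 ≤ (2 ^ (k + 1)) ^ 2 := by
      have : 0 ≤ r := le_trans (by positivity) h0
      (clear * - this hr; gcongr)
    have h4 : ((2:ℝ) ^ (k + 1)) ^ 2 = 4 * (2 ^ k) ^ 2 := by rw [pow_succ]; ring
    linarith only [h3, h4, one_le_pow₀ h2k (n := 2)]
  calc (1 + r ^ 2) ^ sCrit n ≤ (8 * (2 ^ k) ^ 2) ^ sCrit n :=
        Real.rpow_le_rpow (by positivity) h1 hs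
    _ = 8 ^ sCrit n * (2 : ℝ) ^ (2 * k * sCrit n) := by
        rw [Real.mul_rpow (by norm_num) (by positivity), ← pow_mul, ← Real.rpow_natCast 2 (k * 2),
          ← Real.rpow_mul (by norm_num)]
        congr 2
        push_cast
        ring
    _ ≤ 8 ^ (1 : ℝ) * (2 : ℝ) ^ (2 * k * sCrit n) := by
        gcongr
        norm_num
    _ = _ := by rw [Real.rpow_one]

/-- scaled block, any amplitude `V > 0` -/
lemma block_of_property' {C : ℝ} (hB : BlockProperty n C) (c : E n) {r V B s₀ ε : ℝ}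
    (hr : 0 < r) (hV0 : 0 < V) (hs₀ : 0 < s₀) (hε : 0 < ε) :
    ∃ k₀ : ℕ, ∀ k ≥ k₀, ∃ (F : E n → ℂ) (s₁ : ℝ), IsBlock 1 k (cube c r) ∅ V
      (V ^ 2 * (C * r ^ ((n : ℝ) ^ 2 / (n + 1))) * (2 : ℝ) ^ (-(2 * k * sCrit n))) B s₀ ε s₁ F := by
  obtain ⟨k₀, hk₀⟩ := hB c r B s₀ (min ε (ε / V)) hr hs₀ (by positivity)
  refine ⟨k₀, fun k hk => ?_⟩
  obtain ⟨G, s₁, hs₁, hm, ⟨b, hb⟩, hsupp, hcost, hgood, htail⟩ := hk₀ k hk
  have hnorm : ∀ η, ‖(V : ℂ) * G η‖ = V * ‖G η‖ := fun η => by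
    rw [norm_mul, Complex.norm_real, Real.norm_of_nonneg hV0.le]
  refine ⟨fun η => (V : ℂ) * G η, s₁, hm.const_mul _, ⟨V * b, fun η => ?_⟩, fun η hη => ?_, ?_, hs₁,
    fun x hx => ?_, fun x hx => hx.elim, fun x hx s hs a ha => ?_⟩
  · rw [hnorm]
    have := hb η
    (clear * - this hV0; gcongr)
  · exact hsupp η (right_ne_zero_of_mul hη)
  · simp_rw [hnorm, mul_pow]
    rw [integral_const_mul]
    calc V ^ 2 * ∫ η, ‖G η‖ ^ 2
        ≤ V ^ 2 * (C * r ^ ((n : ℝ) ^ 2 / (n + 1)) * (2 : ℝ) ^ (-(2 * k * sCrit n))) := by (clear * - hcost hV0; gcongr)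
      _ = _ := by ring
  · obtain ⟨s, h1, h2, h3⟩ := hgood x hx
    refine ⟨s, h1, h2.trans (min_le_left _ _), ?_⟩
    rw [evo_const_mul, norm_mul, Complex.norm_real, Real.norm_of_nonneg hV0.le]
    linarith only [mul_le_mul_of_nonneg_left h3 hV0.le]
  · rw [evo_const_mul, norm_mul, Complex.norm_real, Real.norm_of_nonneg hV0.le]
    have := (htail x hx s hs a ha).trans (min_le_right _ _)
    rw [le_div_iff₀ hV0] at this
    linarith only [this]

theorem noRate (hn : 1 ≤ n) {C : ℝ} (hC : 0 < C) (hB : BlockProperty n C) {ω : ℝ → ℝ}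
    (hω : Tendsto ω (𝓝[>] 0) (𝓝 0)) :
    ∃ (f : Lp ℂ 2 (volume : Measure (E n))) (u : ℝ → E n → ℂ),
      Integrable (fun ξ => (1 + ‖ξ‖ ^ 2) ^ sCrit n * ‖hat f ξ‖ ^ 2) ∧
      (∀ t > 0, ∀ x, Tendsto (fun b => schrReg f t b x) (𝓝[>] 0) (𝓝 (u t x))) ∧
      ∀ᵐ x, ∀ M : ℝ, ∃ᶠ t in 𝓝[>] (0 : ℝ), M * |ω t| < ‖u t x - f x‖ := by
  have hsc : 0 < sCrit n := by
    unfold sCrit
    have : (0 : ℝ) < n := by exact_mod_cast hn
    positivity
  set α : ℝ := (n : ℝ) ^ 2 / (n + 1) with hα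
  set r : ℕ → ℝ := fun i => 2 * i + 1 with hr
  have hr0 : ∀ i, 0 < r i := fun i => by simp only [hr]; (clear * -; positivity)
  set c : ℕ → E n := fun i => WithLp.toLp 2 fun _ => -(i : ℝ) with hc
  set V : ℕ → ℝ := fun i => (1 / 2) ^ i / (1 + C * r i ^ α) with hV
  have hD : ∀ i, 0 < 1 + C * r i ^ α := fun i => by
    have := hr0 i
    (clear * - hC; positivity)
  have hV0 : ∀ i, 0 < V i := fun i => by
    have := hD i
    simp only [hV]; (clear * - hC; positivity)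
  have hcostV : ∀ i, V i ^ 2 * (C * r i ^ α) ≤ (1 / 4) ^ i := by
    intro i
    have h1 : 0 < C * r i ^ α := by have := hr0 i; (clear * - hC; positivity)
    simp only [hV]
    rw [div_pow, div_mul_eq_mul_div, div_le_iff₀ (by have := hD i; (clear * - hC; positivity))]
    have h2 : ((1:ℝ) / 2 ^ 1) ^ i = (1 / 2) ^ i := by norm_num
    have h3 : (((1:ℝ) / 2) ^ i) ^ 2 = (1 / 4) ^ i := by
      rw [← pow_mul, mul_comm, pow_mul]; norm_num
    rw [h3]
    have h4 : (0:ℝ) < (1 / 4) ^ i := by positivity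
    have h5 : C * r i ^ α ≤ (1 + C * r i ^ α) ^ 2 := by linarith only [h1, sq_nonneg (C * r i ^ α)]
    exact mul_le_mul_of_nonneg_left h5 h4.le
  -- thresholds
  have he : ∀ i : ℕ, ∃ e > 0, e ≤ 1 / ((i : ℝ) + 1) ∧ ∀ t, 0 < t → t ≤ e →
      ((i : ℝ) + 1) * |ω t| < V i / 2 := by
    intro i
    have h1 : Tendsto (fun t => ((i : ℝ) + 1) * |ω t|) (𝓝[>] 0) (𝓝 0) := by
      have := (hω.abs).const_mul ((i : ℝ) + 1)
      simpa only [abs_zero, mul_zero] using this
    have h2 := h1.eventually (gt_mem_nhds (half_pos (hV0 i)))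
    obtain ⟨ε, hε, hε2⟩ := mem_nhdsGT_iff_exists_Ioo_subset.1 h2
    have hε0 : (0:ℝ) < ε := hε
    refine ⟨min (ε / 2) (1 / ((i : ℝ) + 1)), by (clear * - hε0; positivity), min_le_right _ _, fun t ht0 ht1 => ?_⟩
    exact hε2 ⟨ht0, by have := ht1.trans (min_le_left _ _); linarith only [ht0, this]⟩
  choose e he0 he1 he2 using he
  set Γ : ℕ → ℕ → ℝ := fun i k => V i ^ 2 * (C * r i ^ α) *
    (2 : ℝ) ^ (-(2 * k * sCrit n)) with hΓdef
  have hΓ : ∀ i, Tendsto (Γ i) atTop (𝓝 0) := by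
    intro i
    have h1 : Tendsto (fun k : ℕ => (2 : ℝ) ^ (-(2 * k * sCrit n))) atTop (𝓝 0) := by
      have h2 : ∀ k : ℕ, (2 : ℝ) ^ (-(2 * k * sCrit n)) = ((2 : ℝ) ^ (-(2 * sCrit n))) ^ k := by
        intro k
        rw [← Real.rpow_natCast, ← Real.rpow_mul (by norm_num)]
        congr 1; ring
      simp_rw [h2]
      exact tendsto_pow_atTop_nhds_zero_of_lt_one (by positivity)
        (Real.rpow_lt_one_of_one_lt_of_neg (by norm_num) (by linarith only [hsc]))
    have := h1.const_mul (V i ^ 2 * (C * r i ^ α))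
    rwa [mul_zero] at this
  obtain ⟨d, k, F, f, u, z, -, -, hk, hFm, hFb, hFs, hFc, hf, hu, hz, hdiv, -⟩ :=
    master (n := n) (α := Unit) 1 (fun _ _ _ => True) (fun i _ => cube (c i) (r i)) ∅ V
      e Γ Set.univ hV0 he0 hΓ
      (by
        intro i _ B s₀ ε K hs₀ hε
        obtain ⟨k₀, hk₀⟩ := block_of_property' hB (c i) (B := B) (hr0 i) (hV0 i) hs₀ hε
        obtain ⟨F, s₁, hF⟩ := hk₀ (max k₀ K) (le_max_left _ _)
        exact ⟨(), max k₀ K, F, s₁, trivial, le_max_right _ _, Set.mem_univ _, hF⟩) () 0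
  have hkmono : StrictMono k := strictMono_nat_of_lt_succ fun i => by
    have := (hk i).2.1
    omega
  have hpi : (0:ℝ) < 2 * Real.pi := by positivity
  have hsupp : ∀ᵐ ξ, hat f ξ ≠ 0 → ∃ i, 2 ^ k i ≤ ‖ξ‖ ∧ ‖ξ‖ < 2 ^ (k i + 1) := by
    filter_upwards [ae_smul hf (inv_ne_zero hpi.ne')] with ξ hξ hne
    have h1 : ∃ i, F i ((2 * Real.pi)⁻¹ • ξ) ≠ 0 := by
      by_contra! h
      apply hne
      have h2 : HasSum (fun i => F i ((2 * Real.pi)⁻¹ • ξ)) 0 := by
        simp_rw [h]; exact hasSum_zero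
      exact hξ.unique h2
    obtain ⟨i, hi⟩ := h1
    have h2 : 2 * Real.pi * ‖(2 * Real.pi)⁻¹ • ξ‖ = ‖ξ‖ := by
      rw [norm_smul, Real.norm_of_nonneg (by positivity), ← mul_assoc,
        mul_inv_cancel₀ hpi.ne', one_mul]
    have h3 := hFs i _ hi
    rw [h2] at h3
    exact ⟨i, h3⟩
  refine ⟨f, u, ?_, hu, ?_⟩
  · refine integrable_of_shells (w := fun r => (1 + r ^ 2) ^ sCrit n) ?_ (fun r => by (clear * -; positivity)) hsupp
      (W := fun i => 8 * (2 : ℝ) ^ (2 * k i * sCrit n)) (fun i r h0 h1 => sobolev_weight_le hn h0 h1) ?_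
    · exact (measurable_const.add (measurable_id.pow_const 2)).pow_const _
    · have hgeo : Summable fun i : ℕ => 8 * (2 * Real.pi) ^ n * (1 / 4 : ℝ) ^ i :=
        (summable_geometric_of_lt_one (by norm_num) (by norm_num)).mul_left _
      refine Summable.of_nonneg_of_le (fun i => ?_) (fun i => ?_) hgeo
      · have : 0 ≤ ∫ ξ in {ξ : E n | 2 ^ k i ≤ ‖ξ‖ ∧ ‖ξ‖ < 2 ^ (k i + 1)}, ‖hat f ξ‖ ^ 2 :=
          integral_nonneg fun _ => by (clear * -; positivity)
        (clear * -; positivity)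
      · have h1 := setIntegral_hat_sq f (k i)
        rw [shell_integral_eq hkmono hFs hf i] at h1
        have h2 : ∫ ξ in {ξ : E n | 2 ^ k i ≤ ‖ξ‖ ∧ ‖ξ‖ < 2 ^ (k i + 1)}, ‖hat f ξ‖ ^ 2
            = (2 * Real.pi) ^ n * ∫ η, ‖F i η‖ ^ 2 := by
          rw [← h1, ← mul_assoc, mul_inv_cancel₀ (by positivity), one_mul]
        rw [h2]
        have h3 := hFc i
        simp only [hΓdef] at h3
        calc 8 * (2 : ℝ) ^ (2 * k i * sCrit n) * ((2 * Real.pi) ^ n * ∫ η, ‖F i η‖ ^ 2)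
            ≤ 8 * (2 : ℝ) ^ (2 * k i * sCrit n) * ((2 * Real.pi) ^ n *
              (V i ^ 2 * (C * r i ^ α) * (2 : ℝ) ^ (-(2 * k i * sCrit n)))) := by (clear * - h3; gcongr)
          _ ≤ 8 * (2 : ℝ) ^ (2 * k i * sCrit n) * ((2 * Real.pi) ^ n *
              ((1 / 4) ^ i * (2 : ℝ) ^ (-(2 * k i * sCrit n)))) := by
              have := hcostV i
              (clear * - this; gcongr)
          _ = 8 * (2 * Real.pi) ^ n * (1 / 4 : ℝ) ^ i := by
              rw [Real.rpow_neg (by norm_num)]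
              have : (0:ℝ) < 2 ^ (2 * (k i : ℝ) * sCrit n) := by positivity
              field_simp
  · filter_upwards [hz, hdiv] with x hx1 hx2 M
    rw [frequently_iff]
    intro U hU
    obtain ⟨ε, hε, hεU⟩ := mem_nhdsGT_iff_exists_Ioo_subset.1 hU
    have h1 : ∀ᶠ i : ℕ in atTop, (1:ℝ) / (i + 1) < ε :=
      tendsto_one_div_add_atTop_nhds_zero_nat.eventually (gt_mem_nhds hε)
    have h2 : ∀ᶠ i : ℕ in atTop, M ≤ i := by
      obtain ⟨m, hm⟩ := exists_nat_ge M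
      filter_upwards [eventually_ge_atTop m] with i hi
      exact hm.trans (by exact_mod_cast hi)
    have h3 : ∀ᶠ i : ℕ in atTop, x ∈ cube (c i) (r i) := by
      obtain ⟨m, hm⟩ := exists_nat_ge ‖x‖
      filter_upwards [eventually_ge_atTop m] with i hi j
      have h4 : |x j| ≤ ‖x‖ := by
        have := PiLp.norm_apply_le x j
        rwa [Real.norm_eq_abs] at this
      have h5 : (m : ℝ) ≤ i := by exact_mod_cast hi
      have h6 := abs_le.1 h4
      simp only [hc, hr]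
      constructor <;> linarith only [hm, h5, h6]
    obtain ⟨i, h4, h5, h6, h7⟩ := (h1.and (h2.and (h3.and hx2))).exists
    obtain ⟨t, ht0, ht1, ht2⟩ := h7 h6
    refine ⟨t, hεU ⟨ht0, (ht1.trans (he1 i)).trans_lt h4⟩, ?_⟩
    have h8 := he2 i t ht0 ht1
    have h9 : M * |ω t| ≤ ((i : ℝ) + 1) * |ω t| :=
      mul_le_mul_of_nonneg_right (by linarith only [h5]) (abs_nonneg _)
    rw [hx1]
    linarith only [ht2, h8, h9]

end Vale.Agent.P076
end

section

namespace Vale.Agent.P076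

/-- `digits` with a thin last coordinate: if `fract (y last) < 1/L` and `L ∣ h` then `J < h^(m+1)/L`. -/
lemma digits_thin (h L : ℕ) (hh : 0 < h) (hL : 0 < L) (hLh : L ∣ h) (m : ℕ) (y : Fin (m + 1) → ℝ)
    (hy : Int.fract (y (Fin.last m)) < 1 / L) :
    ∃ J : ℕ, J * L < h ^ (m + 1) ∧ ∀ i : Fin (m + 1), ∃ z : ℤ,
      |y i - (J : ℝ) / (h : ℝ) ^ ((i : ℕ) + 1) - z| ≤ 1 / h := by
  obtain ⟨J, hJ, hz⟩ := digits h hh m (fun i => y i.castSucc)
  have hhR : (0 : ℝ) < h := by exact_mod_cast hh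
  have hLR : (0 : ℝ) < L := by exact_mod_cast hL
  obtain ⟨g, hg⟩ := hLh
  set f := Int.fract (y (Fin.last m)) with hf
  have hf0 : 0 ≤ f := Int.fract_nonneg _
  set d : ℕ := ⌊h * f⌋₊ with hd
  have hd1 : (d : ℝ) ≤ h * f := Nat.floor_le (by positivity)
  have hd2 : h * f < d + 1 := Nat.lt_floor_add_one _
  have hdg : d < g := by
    have h1 : (d : ℝ) < g := by
      have h2 : (h : ℝ) * f < h * (1 / L) := by gcongr
      have h3 : (h : ℝ) * (1 / L) = g := by
        rw [hg]; push_cast; (clear * - hL; field_simp)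
      linarith only [hd1, h2, h3]
    exact_mod_cast h1
  refine ⟨J + d * h ^ m, ?_, ?_⟩
  · have h1 : J + d * h ^ m < g * h ^ m := by
      calc J + d * h ^ m < h ^ m + d * h ^ m := by omega
        _ = (d + 1) * h ^ m := by ring
        _ ≤ g * h ^ m := Nat.mul_le_mul_right _ hdg
    calc (J + d * h ^ m) * L < (g * h ^ m) * L := Nat.mul_lt_mul_of_pos_right h1 hL
      _ = (L * g) * h ^ m := by ring
      _ = h ^ (m + 1) := by rw [← hg]; ring
  · intro i
    refine Fin.lastCases ?_ (fun i => ?_) i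
    · refine ⟨⌊y (Fin.last m)⌋, ?_⟩
      have e1 : y (Fin.last m) = ⌊y (Fin.last m)⌋ + f := (Int.floor_add_fract _).symm
      have hJ' : (J : ℝ) < (h : ℝ) ^ m := by exact_mod_cast hJ
      have e2 : ((J + d * h ^ m : ℕ) : ℝ) / (h : ℝ) ^ (((Fin.last m : Fin (m+1)) : ℕ) + 1)
          = (J : ℝ) / (h : ℝ) ^ (m + 1) + d / h := by
        rw [Fin.val_last]; push_cast; field_simp; ring
      rw [e2]
      have e3 : (J : ℝ) / (h : ℝ) ^ (m + 1) < 1 / h := by
        rw [div_lt_div_iff₀ (by positivity) hhR]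
        calc (J : ℝ) * h < (h : ℝ) ^ m * h := by (clear * - hJ' hh; gcongr)
          _ = 1 * (h : ℝ) ^ (m + 1) := by ring
      have e4 : 0 ≤ (J : ℝ) / (h : ℝ) ^ (m + 1) := by (clear * - hh; positivity)
      have e5 : (d : ℝ) / h ≤ f := by rw [div_le_iff₀ hhR]; linarith only [hd1]
      have e6 : f < (d : ℝ) / h + 1 / h := by
        rw [← add_div, lt_div_iff₀ hhR]; linarith only [hd2]
      have e7 : y (Fin.last m) - ((J : ℝ) / (h : ℝ) ^ (m + 1) + d / h) - ⌊y (Fin.last m)⌋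
          = f - ((J : ℝ) / (h : ℝ) ^ (m + 1) + d / h) := by
        linarith only [e1]
      rw [e7, abs_le]
      constructor <;> linarith only [e3, e5, e4, e6]
    · obtain ⟨z, hz⟩ := hz i
      refine ⟨z - (d * h ^ (m - (i + 1)) : ℕ), ?_⟩
      have e2 : ((J + d * h ^ m : ℕ) : ℝ) / (h : ℝ) ^ (((i.castSucc : Fin (m+1)) : ℕ) + 1)
          = (J : ℝ) / (h : ℝ) ^ ((i : ℕ) + 1) + d * (h : ℝ) ^ (m - (i + 1)) := by
        rw [Fin.val_castSucc]
        have : (h : ℝ) ^ m = (h : ℝ) ^ (m - (i + 1 : ℕ)) * (h : ℝ) ^ ((i : ℕ) + 1) := by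
          rw [← pow_add]; congr 1; omega
        push_cast
        rw [this]; (clear * - hh; field_simp)
      rw [e2]
      push_cast
      convert hz using 2
      ring

/-- good time for thin blocks -/
lemma good_time_thin (h L : ℕ) (hh : 0 < h) (hL : 0 < L) (hLh : L ∣ h) (m : ℕ) (T : ℝ)
    (hT : Int.fract (T / (h : ℝ) ^ (m + 1)) < 1 / L) (y : Fin (m + 1) → ℝ)
    (hy : Int.fract (y (Fin.last m)) < 1 / L) :
    ∃ j : ℤ, |(j : ℝ) - T| ≤ (h : ℝ) ^ (m + 1) / L ∧ ∀ i : Fin (m + 1), ∃ z : ℤ,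
      |y i - (j : ℝ) / (h : ℝ) ^ ((i : ℕ) + 1) - z| ≤ 1 / h := by
  obtain ⟨J, hJ, hz⟩ := digits_thin h L hh hL hLh m y hy
  have hhR : (0 : ℝ) < h := by exact_mod_cast hh
  have hLR : (0 : ℝ) < L := by exact_mod_cast hL
  set k : ℤ := ⌊T / (h : ℝ) ^ (m + 1)⌋ with hk
  have hpow : (0 : ℝ) < (h : ℝ) ^ (m + 1) := by positivity
  refine ⟨k * (h : ℤ) ^ (m + 1) + J, ?_, ?_⟩
  · have h1 : T / (h : ℝ) ^ (m + 1) = k + Int.fract (T / (h : ℝ) ^ (m + 1)) :=
      (Int.floor_add_fract _).symm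
    have h2 : T = (k + Int.fract (T / (h : ℝ) ^ (m + 1))) * (h : ℝ) ^ (m + 1) := by
      rw [← h1]; field_simp
    set f := Int.fract (T / (h : ℝ) ^ (m + 1)) with hf
    have hf0 : 0 ≤ f := Int.fract_nonneg _
    have h3 : f * (h : ℝ) ^ (m + 1) ≤ (h : ℝ) ^ (m + 1) / L := by
      calc f * (h : ℝ) ^ (m + 1) ≤ (1 / L) * (h : ℝ) ^ (m + 1) := by (clear * - hT hh; gcongr)
        _ = _ := by ring
    have h4 : (J : ℝ) ≤ (h : ℝ) ^ (m + 1) / L := by
      rw [le_div_iff₀ hLR]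
      exact_mod_cast hJ.le
    have h5 : (0 : ℝ) ≤ J := by (clear * -; positivity)
    have h6 : 0 ≤ f * (h : ℝ) ^ (m + 1) := by (clear * - hh; positivity)
    have h7 : ((k * (h : ℤ) ^ (m + 1) + J : ℤ) : ℝ) - T = J - f * (h : ℝ) ^ (m + 1) := by
      rw [h2]; push_cast; ring
    rw [h7, abs_le]
    constructor <;> linarith only [h3, h4, h6]
  · intro i
    obtain ⟨z, hz⟩ := hz i
    refine ⟨z - k * (h : ℤ) ^ (m - (i : ℕ)), ?_⟩
    have e2 : ((k * (h : ℤ) ^ (m + 1) + J : ℤ) : ℝ) / (h : ℝ) ^ ((i : ℕ) + 1)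
        = (J : ℝ) / (h : ℝ) ^ ((i : ℕ) + 1) + k * (h : ℝ) ^ (m - (i : ℕ)) := by
      have h8 : (h : ℝ) ^ (m + 1) = (h : ℝ) ^ (m - (i : ℕ)) * (h : ℝ) ^ ((i : ℕ) + 1) := by
        rw [← pow_add]; congr 1; omega
      have h9 : (h : ℝ) ^ ((i : ℕ) + 1) ≠ 0 := by positivity
      push_cast
      rw [h8]
      generalize (h : ℝ) ^ (m - (i : ℕ)) = a
      generalize (h : ℝ) ^ ((i : ℕ) + 1) = b at h9
      rw [eq_comm, ← mul_assoc, add_div, mul_div_assoc, div_self h9, mul_one, add_comm]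
    rw [e2]
    push_cast
    convert hz using 2
    ring

end Vale.Agent.P076
end

section

/-!
The thin block: a cheaper block whose evolution is large only on a product of stripes.
Parameters `m` (number of lattice directions), `L` (thinness), `κ` (size).
-/

open MeasureTheory Complex

namespace Vale.Agent.P076

section defs
variable (m L κ : ℕ)

noncomputable def th : ℝ := (bM m : ℝ) * (L * κ : ℕ)

noncomputable def tβ : ℝ := ((bM m : ℝ) * κ) ^ 2 * th m L κ ^ m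

noncomputable def tD : ℝ := tβ m L κ * th m L κ ^ (m + 1)

noncomputable def tR : ℝ := tD m L κ * th m L κ

noncomputable def tw : ℝ := κ * th m L κ ^ (m + 1)

noncomputable def tθ (i : ℕ) : ℝ := tD m L κ / (2 * th m L κ ^ (i + 1))

noncomputable def tA0 : Set ℝ := Set.Ico (tR m L κ / 2) (tR m L κ / 2 + tw m L κ)

noncomputable def tA (i : Fin m) : Set ℝ :=
  ⋃ k ∈ Finset.range (L * κ), Set.Ico (tθ m L κ i + tD m L κ * k) (tθ m L κ i + tD m L κ * k + 1 / bM m)

noncomputable def tS : Fin (m + 1) → Set ℝ := Fin.cons (tA0 m L κ) (tA m L κ)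

def tbox : Set (E (m + 1)) := {η | ∀ i, η i ∈ tS m L κ i}

/-- volume of the box -/
noncomputable def tV : ℝ := tw m L κ * (((L * κ : ℕ) : ℝ) / bM m) ^ m

/-- the unit block -/
noncomputable def tG : E (m + 1) → ℂ :=
  (tbox m L κ).indicator fun _ => ((2 / tV m L κ : ℝ) : ℂ)

end defs

variable {m L κ : ℕ}

section
variable (hL : 1 ≤ L) (hκ : 1 ≤ κ)
include hL hκ

lemma tK_ge : (1 : ℝ) ≤ ((L * κ : ℕ) : ℝ) := by
  have : 1 ≤ L * κ := Nat.mul_pos hL hκ
  exact_mod_cast this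

lemma th_ge : (bM m : ℝ) ≤ th m L κ := by
  unfold th
  have := tK_ge hL hκ
  have := bM_pos (m := m)
  nlinarith

lemma th_ge64 : (64 : ℝ) ≤ th m L κ := bM_ge.trans (th_ge hL hκ)

lemma th_pos : (0 : ℝ) < th m L κ := lt_of_lt_of_le (by norm_num) (th_ge64 hL hκ)

lemma tβ_ge : 1 ≤ tβ m L κ := by
  unfold tβ
  have h1 : (1 : ℝ) ≤ κ := by exact_mod_cast hκ
  have h2 := bM_ge (m := m)
  have h3 : (1 : ℝ) ≤ (bM m : ℝ) * κ := by nlinarith only [h1, h2]
  have h4 : (1 : ℝ) ≤ th m L κ := by linarith only [th_ge64 (m := m) hL hκ]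
  exact one_le_mul_of_one_le_of_one_le (one_le_pow₀ h3) (one_le_pow₀ h4)

lemma tβ_pos : 0 < tβ m L κ := lt_of_lt_of_le one_pos (tβ_ge hL hκ)

lemma tD_ge : th m L κ ≤ tD m L κ := by
  unfold tD
  have h1 := tβ_ge (m := m) hL hκ
  have h2 := th_ge64 (m := m) hL hκ
  have h3 : th m L κ ≤ th m L κ ^ (m + 1) := by
    calc th m L κ = th m L κ ^ 1 := (pow_one _).symm
      _ ≤ th m L κ ^ (m + 1) := pow_le_pow_right₀ (by linarith only [h2]) (by omega)
  nlinarith only [h1, h3, h2]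

lemma tD_pos : 0 < tD m L κ := lt_of_lt_of_le (th_pos hL hκ) (tD_ge hL hκ)

lemma tR_ge : th m L κ ≤ tR m L κ := by
  unfold tR
  have h1 := tD_ge (m := m) hL hκ
  have h2 := th_ge64 (m := m) hL hκ
  nlinarith only [h1, h2]

lemma tR_pos : 0 < tR m L κ := lt_of_lt_of_le (th_pos hL hκ) (tR_ge hL hκ)

lemma tw_pos : 0 < tw m L κ := by
  unfold tw
  have h1 : (0 : ℝ) < κ := by exact_mod_cast hκ
  have := th_pos (m := m) hL hκ
  positivity

lemma tw_ge : th m L κ ≤ tw m L κ := by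
  unfold tw
  have h1 : (1 : ℝ) ≤ κ := by exact_mod_cast hκ
  have h2 := th_ge64 (m := m) hL hκ
  have h3 : th m L κ ≤ th m L κ ^ (m + 1) := by
    calc th m L κ = th m L κ ^ 1 := (pow_one _).symm
      _ ≤ th m L κ ^ (m + 1) := pow_le_pow_right₀ (by linarith only [h2]) (by omega)
  nlinarith only [h1, h3, h2]

omit hL hκ in
/-- `w² M² = R` -/
lemma tw_sq : tw m L κ ^ 2 * (bM m : ℝ) ^ 2 = tR m L κ := by
  unfold tw tR tD tβ
  ring

lemma tw_le : tw m L κ ≤ tR m L κ / bM m := by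
  have hM := bM_pos (m := m)
  have hM64 := bM_ge (m := m)
  have hw := tw_pos (m := m) hL hκ
  have hw2 := tw_ge (m := m) hL hκ
  have h64 := th_ge64 (m := m) hL hκ
  rw [le_div_iff₀ hM, ← tw_sq]
  have h1 : (1 : ℝ) ≤ tw m L κ * bM m := one_le_mul_of_one_le_of_one_le (by linarith only [hw2, h64]) (by linarith only [hM64])
  nlinarith only [h1]

omit hL hκ in
lemma measurableSet_tA0 : MeasurableSet (tA0 m L κ) := measurableSet_Ico

omit hL hκ in
lemma measurableSet_tA (i : Fin m) : MeasurableSet (tA m L κ i) :=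
  Finset.measurableSet_biUnion _ fun _ _ => measurableSet_Ico

omit hL hκ in
lemma measurableSet_tS (i : Fin (m + 1)) : MeasurableSet (tS m L κ i) := by
  refine Fin.cases ?_ (fun i => ?_) i
  · exact measurableSet_tA0
  · exact measurableSet_tA i

omit hL hκ in
lemma measurableSet_tbox : MeasurableSet (tbox m L κ) := measurableSet_box_E _ measurableSet_tS

omit hL hκ in
lemma volume_tA0 : volume (tA0 m L κ) = ENNReal.ofReal (tw m L κ) := by
  unfold tA0
  rw [Real.volume_Ico]; congr 1; ring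

lemma volume_tA (i : Fin m) :
    volume (tA m L κ i) = ENNReal.ofReal (((L * κ : ℕ) : ℝ) / bM m) := by
  unfold tA
  rw [measure_biUnion_finset]
  · simp only [Real.volume_Ico, add_sub_cancel_left, Finset.sum_const, Finset.card_range,
      nsmul_eq_mul]
    rw [show (((L * κ : ℕ) : ℝ) / bM m) = ((L * κ : ℕ) : ℝ) * (1 / bM m) by ring,
      ENNReal.ofReal_mul (by positivity), ENNReal.ofReal_natCast]
  · intro k _ l _ hkl
    have hD := (th_ge64 (m := m) hL hκ).trans (tD_ge (m := m) hL hκ)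
    have hM : 1 / (bM m : ℝ) ≤ 1 := by
      rw [div_le_one bM_pos]; linarith only [bM_ge (m := m)]
    rw [Function.onFun, Set.disjoint_left]
    rintro x ⟨hx1, hx2⟩ ⟨hy1, hy2⟩
    rcases lt_or_gt_of_ne hkl with h | h
    · have : (k : ℝ) + 1 ≤ l := by exact_mod_cast h
      linarith only [hD, hM, hx2, hy1, mul_le_mul_of_nonneg_left this (show (0:ℝ) ≤ tD m L κ by linarith)]
    · have : (l : ℝ) + 1 ≤ k := by exact_mod_cast h
      linarith only [hD, hM, hx1, hy2, mul_le_mul_of_nonneg_left this (show (0:ℝ) ≤ tD m L κ by linarith)]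
  · intro k _; exact measurableSet_Ico

lemma tV_pos : 0 < tV m L κ := by
  unfold tV
  have := tw_pos (m := m) hL hκ
  have := tK_ge hL hκ
  have := bM_pos (m := m)
  positivity

lemma volume_tbox : volume (tbox m L κ) = ENNReal.ofReal (tV m L κ) := by
  unfold tbox
  rw [volume_box_E _ measurableSet_tS, Fin.prod_univ_succ]
  simp only [tS, Fin.cons_zero, Fin.cons_succ, volume_tA0, volume_tA hL hκ, Finset.prod_const,
    Finset.card_univ, Fintype.card_fin]
  unfold tV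
  rw [ENNReal.ofReal_mul (tw_pos hL hκ).le, ENNReal.ofReal_pow (by positivity)]

lemma tphase0 {X S : ℝ} (hS : 0 < S) (hSR : S * tR m L κ ≤ 3)
    (hX : |X - S * tR m L κ| ≤ 1 / (bM m * tw m L κ)) :
    ∀ v ∈ tA0 m L κ, |X * v - S * v ^ 2 - (X * (tR m L κ / 2) - S * (tR m L κ / 2) ^ 2)|
      ≤ 3 / (bM m : ℝ) := by
  rintro v ⟨hv1, hv2⟩
  obtain ⟨ζ, rfl⟩ : ∃ ζ, v = tR m L κ / 2 + ζ := ⟨v - tR m L κ / 2, by ring⟩
  have hζ0 : 0 ≤ ζ := by linarith only [hv1]
  have hζ1 : ζ ≤ tw m L κ := by linarith only [hv2]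
  have hM := bM_pos (m := m)
  have hM64 := bM_ge (m := m)
  have hh := th_pos (m := m) hL hκ
  have hw := tw_pos (m := m) hL hκ
  have e1 : X * (tR m L κ / 2 + ζ) - S * (tR m L κ / 2 + ζ) ^ 2
      - (X * (tR m L κ / 2) - S * (tR m L κ / 2) ^ 2) = ζ * (X - S * tR m L κ) - S * ζ ^ 2 := by ring
  rw [e1]
  have e2 : |ζ * (X - S * tR m L κ)| ≤ 1 / (bM m : ℝ) := by
    rw [abs_mul, abs_of_nonneg hζ0]
    calc ζ * |X - S * tR m L κ| ≤ tw m L κ * (1 / (bM m * tw m L κ)) := by (clear * - hζ1 hX hw; gcongr)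
      _ = 1 / (bM m : ℝ) := by (clear * - hw hM; field_simp)
  have e3 : |S * ζ ^ 2| ≤ 1 / (bM m : ℝ) := by
    rw [abs_of_nonneg (by (clear * - hS; positivity))]
    calc S * ζ ^ 2 ≤ S * tw m L κ ^ 2 := by (clear * - hζ0 hζ1 hS; gcongr)
      _ = (S * tR m L κ) / (bM m : ℝ) ^ 2 := by
          rw [← tw_sq]; (clear * - hM hw hS; field_simp)
      _ ≤ 3 / (bM m : ℝ) ^ 2 := by (clear * - hSR hM; gcongr)
      _ ≤ 1 / (bM m : ℝ) := by
          rw [div_le_div_iff₀ (by (clear * - hM; positivity)) hM]; linarith only [mul_le_mul_of_nonneg_right hM64 hM.le]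
  calc |ζ * (X - S * tR m L κ) - S * ζ ^ 2| ≤ |ζ * (X - S * tR m L κ)| + |S * ζ ^ 2| := abs_sub _ _
    _ ≤ 1 / (bM m : ℝ) + 1 / (bM m : ℝ) := add_le_add e2 e3
    _ ≤ 3 / (bM m : ℝ) := by rw [← add_div]; gcongr; norm_num

lemma tphaseA {X S : ℝ} {j : ℤ} {i : Fin m} {z : ℤ} (hS : 0 < S)
    (hSR : S * tR m L κ ≤ 3) (hX0 : 0 ≤ X) (hX1 : X ≤ 1) (hj : S * tD m L κ ^ 2 = j)
    (hz : |tD m L κ * X - (j : ℝ) / th m L κ ^ ((i : ℕ) + 1) - z| ≤ 1 / th m L κ) :
    ∀ v ∈ tA m L κ i, ∃ N : ℤ,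
      |X * v - S * v ^ 2 - (X * tθ m L κ i - S * tθ m L κ i ^ 2) - N| ≤ 3 / (bM m : ℝ) := by
  intro v hv
  simp only [tA, Set.mem_iUnion, Finset.mem_range, exists_prop] at hv
  obtain ⟨k, hk, hv1, hv2⟩ := hv
  set θ := tθ m L κ i with hθ
  obtain ⟨ζ, rfl⟩ : ∃ ζ, v = θ + tD m L κ * k + ζ := ⟨v - (θ + tD m L κ * k), by ring⟩
  have hζ0 : 0 ≤ ζ := by linarith only [hv1]
  have hζ1 : ζ ≤ 1 / (bM m : ℝ) := by linarith only [hv2]
  have hM := bM_pos (m := m)
  have hM64 := bM_ge (m := m)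
  have hh := th_pos (m := m) hL hκ
  have hh64 := th_ge64 (m := m) hL hκ
  have hD := tD_pos (m := m) hL hκ
  have hk' : (k : ℝ) ≤ ((L * κ : ℕ) : ℝ) := by exact_mod_cast hk.le
  have hk1 : (k : ℝ) + 1 ≤ ((L * κ : ℕ) : ℝ) := by exact_mod_cast hk
  have hKh : ((L * κ : ℕ) : ℝ) = th m L κ / bM m := by unfold th; (clear * - hM hL hκ; field_simp)
  have hθ0 : 0 ≤ θ := by rw [hθ]; unfold tθ; (clear * - hD hh; positivity)
  have hθ1 : θ ≤ tD m L κ := by
    rw [hθ]; unfold tθ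
    rw [div_le_iff₀ (by positivity)]
    have : (1 : ℝ) ≤ th m L κ ^ ((i : ℕ) + 1) := one_le_pow₀ (by linarith only [hh64])
    linarith only [hD, mul_le_mul_of_nonneg_left this hD.le]
  have h2 : 2 * S * θ * tD m L κ = (j : ℝ) / th m L κ ^ ((i : ℕ) + 1) := by
    rw [← hj, hθ]; unfold tθ; (clear * - hh hD hS; field_simp)
  refine ⟨k * z - j * k ^ 2, ?_⟩
  have e1 : X * (θ + tD m L κ * k + ζ) - S * (θ + tD m L κ * k + ζ) ^ 2 - (X * θ - S * θ ^ 2)
      - ((k * z - j * k ^ 2 : ℤ) : ℝ)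
      = k * (tD m L κ * X - (j : ℝ) / th m L κ ^ ((i : ℕ) + 1) - z)
        + ζ * (X - 2 * S * (θ + tD m L κ * k)) - S * ζ ^ 2 := by
    rw [← h2]
    push_cast
    rw [← hj]
    ring
  rw [e1]
  have a1 : |(k : ℝ) * (tD m L κ * X - (j : ℝ) / th m L κ ^ ((i : ℕ) + 1) - z)| ≤ 1 / (bM m : ℝ) := by
    rw [abs_mul, Nat.abs_cast]
    calc (k : ℝ) * |tD m L κ * X - (j : ℝ) / th m L κ ^ ((i : ℕ) + 1) - z|
        ≤ ((L * κ : ℕ) : ℝ) * (1 / th m L κ) := by (clear * - hk' hz hL hκ; gcongr)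
      _ = 1 / (bM m : ℝ) := by rw [hKh]; (clear * - hh hM; field_simp)
  have a2 : |ζ * (X - 2 * S * (θ + tD m L κ * k))| ≤ 1 / (bM m : ℝ) := by
    rw [abs_mul, abs_of_nonneg hζ0]
    have b1 : 0 ≤ 2 * S * (θ + tD m L κ * k) := by (clear * - hS hθ0 hD; positivity)
    have b2 : 2 * S * (θ + tD m L κ * k) ≤ 1 := by
      calc 2 * S * (θ + tD m L κ * k) ≤ 2 * S * (tD m L κ * ((L * κ : ℕ) : ℝ)) := by
            gcongr
            calc θ + tD m L κ * k ≤ tD m L κ + tD m L κ * k := by (clear * - hθ1; gcongr)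
              _ = tD m L κ * (k + 1) := by ring
              _ ≤ tD m L κ * ((L * κ : ℕ) : ℝ) := by (clear * - hk1 hD; gcongr)
        _ = 2 * (S * tR m L κ) / bM m := by unfold tR; rw [hKh]; ring
        _ ≤ 2 * 3 / bM m := by (clear * - hSR hM; gcongr)
        _ ≤ 1 := by rw [div_le_one hM]; linarith only [hM64]
    have b3 : |X - 2 * S * (θ + tD m L κ * k)| ≤ 1 := by
      rw [abs_le]; constructor <;> linarith only [hX0, b2, hX1, b1]
    calc ζ * |X - 2 * S * (θ + tD m L κ * k)| ≤ (1 / (bM m : ℝ)) * 1 := by (clear * - hζ1 b3 hM; gcongr)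
      _ = 1 / (bM m : ℝ) := mul_one _
  have a3 : |S * ζ ^ 2| ≤ 1 / (bM m : ℝ) := by
    rw [abs_of_nonneg (by (clear * - hS; positivity))]
    have hR := tR_ge (m := m) hL hκ
    have hS3 : S ≤ 1 := by
      by_contra hcon
      push Not at hcon
      (clear * - hSR hh64 hR hcon; linarith [mul_le_mul_of_nonneg_right hcon.le (show (0:ℝ) ≤ tR m L κ by linarith)])
    calc S * ζ ^ 2 ≤ 1 * (1 / (bM m : ℝ)) ^ 2 := by (clear * - hS3 hζ0 hζ1; gcongr)
      _ = (1 / (bM m : ℝ)) * (1 / (bM m : ℝ)) := by ring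
      _ ≤ (1 / (bM m : ℝ)) * 1 := by
          gcongr
          rw [div_le_one hM]; linarith only [hM64]
      _ = 1 / (bM m : ℝ) := mul_one _
  calc _ ≤ |(k : ℝ) * (tD m L κ * X - (j : ℝ) / th m L κ ^ ((i : ℕ) + 1) - z)
        + ζ * (X - 2 * S * (θ + tD m L κ * k))| + |S * ζ ^ 2| := abs_sub _ _
    _ ≤ (|(k : ℝ) * (tD m L κ * X - (j : ℝ) / th m L κ ^ ((i : ℕ) + 1) - z)|
        + |ζ * (X - 2 * S * (θ + tD m L κ * k))|) + |S * ζ ^ 2| := by
          gcongr; exact abs_add_le _ _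
    _ ≤ (1 / (bM m : ℝ) + 1 / (bM m : ℝ)) + 1 / (bM m : ℝ) := by (clear * - a1 a2 a3; gcongr)
    _ = 3 / (bM m : ℝ) := by ring

/-- product bound: bounds the evolution by the first factor -/
lemma norm_evo_tG_le {X : E (m + 1)} {S a b : ℝ} (ha : 0 ≤ a) (hb : 0 ≤ b)
    (h0 : ‖∫ v in tS m L κ 0, cexp (oscE (X 0) S a v)‖ ≤ b) :
    ‖evo (tG m L κ) X S a‖ ≤ 2 * b / tw m L κ := by
  have hw := tw_pos (m := m) hL hκ
  have hM := bM_pos (m := m)
  have hV := tV_pos (m := m) hL hκ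
  have hK0 : (0:ℝ) < ((L * κ : ℕ) : ℝ) := lt_of_lt_of_le one_pos (tK_ge hL hκ)
  unfold tG tbox
  rw [evo_box _ measurableSet_tS, norm_mul, norm_prod, Fin.prod_univ_succ]
  have h1 : ∀ i : Fin m, ‖∫ v in tS m L κ i.succ, cexp (oscE (X i.succ) S a v)‖
      ≤ ((L * κ : ℕ) : ℝ) / bM m := by
    intro i
    have hv : volume (tS m L κ i.succ) = ENNReal.ofReal (((L * κ : ℕ) : ℝ) / bM m) := by
      simp only [tS, Fin.cons_succ]; exact volume_tA hL hκ i
    have := norm_int_oscE_le (A := tS m L κ i.succ) (by rw [hv]; simp only [Nat.cast_mul, ne_eq, ENNReal.ofReal_ne_top, not_false_eq_true]) (X i.succ) S a ha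
    rw [hv, ENNReal.toReal_ofReal (by positivity)] at this
    exact this
  have h2 : ∏ i : Fin m, ‖∫ v in tS m L κ i.succ, cexp (oscE (X i.succ) S a v)‖
      ≤ (((L * κ : ℕ) : ℝ) / bM m) ^ m := by
    calc _ ≤ ∏ i : Fin m, (((L * κ : ℕ) : ℝ) / bM m) :=
          Finset.prod_le_prod (fun _ _ => norm_nonneg _) (fun i _ => h1 i)
      _ = _ := by rw [Finset.prod_const, Finset.card_univ, Fintype.card_fin]
  rw [Complex.norm_real, Real.norm_of_nonneg (by positivity)]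
  calc 2 / tV m L κ * (‖∫ v in tS m L κ 0, cexp (oscE (X 0) S a v)‖
        * ∏ i : Fin m, ‖∫ v in tS m L κ i.succ, cexp (oscE (X i.succ) S a v)‖)
      ≤ 2 / tV m L κ * (b * (((L * κ : ℕ) : ℝ) / bM m) ^ m) := by (clear * - h0 h2 hb hV; gcongr)
    _ = 2 * b / tw m L κ := by
        unfold tV
        have hq : 0 < (((L * κ : ℕ) : ℝ) / bM m) ^ m := by positivity
        generalize (((L * κ : ℕ) : ℝ) / bM m) ^ m = q at hq ⊢
        (clear * - hq hw; field_simp)

/-- late-time bound for the unit block -/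
lemma tlate {X : E (m + 1)} {S a : ℝ} (hS : 0 < S) (ha : 0 ≤ a)
    (hX : |X 0| ≤ S * (tR m L κ / 2)) :
    ‖evo (tG m L κ) X S a‖ ≤ 4 / (tw m L κ * (S * tR m L κ)) := by
  have hw := tw_pos (m := m) hL hκ
  have hR := tR_pos (m := m) hL hκ
  have hM := bM_pos (m := m)
  have hM64 := bM_ge (m := m)
  have h0 : ‖∫ v in tS m L κ 0, cexp (oscE (X 0) S a v)‖ ≤ 1 / (S * (tR m L κ / 2)) := by
    have : ∫ v in tS m L κ 0, cexp (oscE (X 0) S a v)
        = ∫ v in (tR m L κ / 2)..(tR m L κ / 2 + tw m L κ), cexp (oscE (X 0) S a v) := by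
      rw [intervalIntegral.integral_of_le (by linarith only [hw]), ← integral_Ico_eq_integral_Ioc]
      rfl
    rw [this]
    refine osc_bound (by linarith only [hR]) hw.le ?_ hS ha hX
    have := tw_le (m := m) hL hκ
    calc tw m L κ ≤ tR m L κ / bM m := this
      _ ≤ tR m L κ / 2 := by gcongr; linarith only [hM64]
  refine (norm_evo_tG_le hL hκ ha (by positivity) h0).trans (le_of_eq ?_)
  field_simp
  ring

/-- initial value -/
lemma tinit {X : E (m + 1)} (hX : 1 ≤ X 0) :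
    ‖evo (tG m L κ) X 0 0‖ ≤ 2 / tw m L κ := by
  have hw := tw_pos (m := m) hL hκ
  have hpi := Real.pi_gt_three
  have h0 : ‖∫ v in tS m L κ 0, cexp (oscE (X 0) 0 0 v)‖ ≤ 1 := by
    have h1 : ∫ v in tS m L κ 0, cexp (oscE (X 0) 0 0 v)
        = ∫ v in (tR m L κ / 2)..(tR m L κ / 2 + tw m L κ),
          cexp ((2 * Real.pi * I * (X 0)) * v) := by
      rw [intervalIntegral.integral_of_le (by linarith only [hw]), ← integral_Ico_eq_integral_Ioc]
      refine setIntegral_congr_fun measurableSet_Ico fun v _ => ?_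
      simp only [oscE]
      congr 1
      push_cast
      ring
    have hc : (2 * Real.pi * I * (X 0) : ℂ) ≠ 0 := by
      have h2 : (X 0 : ℂ) ≠ 0 := by
        have : (X 0 : ℝ) ≠ 0 := by linarith only [hX]
        exact_mod_cast this
      have h3 : (Real.pi : ℂ) ≠ 0 := by exact_mod_cast Real.pi_ne_zero
      simp only [ne_eq, mul_eq_zero, OfNat.ofNat_ne_zero, h3, or_self, I_ne_zero, h2, not_false_eq_true]
    have hn : ‖(2 * Real.pi * I * (X 0) : ℂ)‖ = 2 * Real.pi * X 0 := by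
      have : (2 * Real.pi * I * (X 0) : ℂ) = ((2 * Real.pi * X 0 : ℝ) : ℂ) * I := by
        push_cast; ring
      rw [this, norm_mul, Complex.norm_I, mul_one, Complex.norm_real,
        Real.norm_of_nonneg (by positivity)]
    have he : ∀ v : ℝ, ‖cexp ((2 * Real.pi * I * (X 0)) * v)‖ = 1 := by
      intro v
      have : (2 * Real.pi * I * (X 0)) * v = ((2 * Real.pi * X 0 * v : ℝ) : ℂ) * I := by
        push_cast; ring
      rw [this, Complex.norm_exp_ofReal_mul_I]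
    rw [h1, integral_exp_mul_complex hc, norm_div, hn, div_le_one (by positivity)]
    refine (norm_sub_le _ _).trans ?_
    rw [he, he]
    linarith only [mul_le_mul hpi.le hX (zero_le_one) Real.pi_pos.le]
  exact (norm_evo_tG_le hL hκ le_rfl zero_le_one h0).trans (by rw [mul_one])

end

end Vale.Agent.P076
end

section

open MeasureTheory Complex

namespace Vale.Agent.P076

variable {m L κ : ℕ}

/-- integer version of `tβ` -/
def nβ (m L κ : ℕ) : ℕ := (bM m * κ) ^ 2 * (bM m * (L * κ)) ^ m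

/-- integer version of `tD` -/
def nD (m L κ : ℕ) : ℕ := nβ m L κ * (bM m * (L * κ)) ^ (m + 1)

lemma cast_h : ((bM m * (L * κ) : ℕ) : ℝ) = th m L κ := by unfold th; push_cast; ring

lemma cast_nβ : ((nβ m L κ : ℕ) : ℝ) = tβ m L κ := by
  unfold nβ tβ
  rw [← cast_h]
  push_cast
  ring

lemma cast_nD : ((nD m L κ : ℕ) : ℝ) = tD m L κ := by
  unfold nD tD
  rw [Nat.cast_mul, cast_nβ, ← cast_h]
  push_cast
  ring

/-- the zone in which the blocks live -/
def zone (m : ℕ) : Set (E (m + 1)) :=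
  {x | (1 ≤ x 0 ∧ x 0 ≤ 2) ∧ ∀ i : Fin m, 0 ≤ x i.succ ∧ x i.succ ≤ 1}

/-- the thin set -/
def thinSet (m : ℕ) (β D L : ℕ) : Set (E (m + 2)) :=
  {x | x ∈ zone (m + 1) ∧ Int.fract ((β : ℝ) * x 0) < 1 / L ∧
    Int.fract ((D : ℝ) * x (Fin.last (m + 1))) < 1 / L}

/-- alignment for the thin block -/
lemma tresonance (hL : 1 ≤ L) (hκ : 1 ≤ κ) {X : E (m + 2)}
    (hX : X ∈ thinSet m (nβ (m + 1) L κ) (nD (m + 1) L κ) L) :
    ∃ S : ℝ, 1 / (2 * tR (m + 1) L κ) ≤ S ∧ S ≤ 3 / tR (m + 1) L κ ∧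
      1 ≤ ‖evo (tG (m + 1) L κ) X S 0‖ := by
  obtain ⟨⟨⟨h0, h0'⟩, h1⟩, hβ, hDl⟩ := hX
  rw [cast_nβ] at hβ
  rw [cast_nD] at hDl
  have hw := tw_pos (m := m + 1) hL hκ
  have hR := tR_pos (m := m + 1) hL hκ
  have hM := bM_pos (m := m + 1)
  have hM64 := bM_ge (m := m + 1)
  have hV := tV_pos (m := m + 1) hL hκ
  have hh := th_pos (m := m + 1) hL hκ
  have hh64 := th_ge64 (m := m + 1) hL hκ
  have hD := tD_pos (m := m + 1) hL hκ
  have hb := tβ_pos (m := m + 1) hL hκ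
  have hL0 : (0:ℝ) < L := by exact_mod_cast hL
  have hκ0 : (0:ℝ) < κ := by exact_mod_cast hκ
  have hMn : 0 < bM (m + 1) := by unfold bM; positivity
  obtain ⟨j, hj, hz⟩ := good_time_thin (bM (m + 1) * (L * κ)) L (by positivity) hL
    ((Dvd.intro _ rfl : L ∣ L * κ).mul_left _) m
    (X 0 * tβ (m + 1) L κ * th (m + 1) L κ ^ (m + 1))
    (by
      rw [cast_h]
      have e : X 0 * tβ (m + 1) L κ * th (m + 1) L κ ^ (m + 1) / th (m + 1) L κ ^ (m + 1)
          = tβ (m + 1) L κ * X 0 := by (clear * - hh hb h0; field_simp)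
      rw [e]; exact hβ)
    (fun i => tD (m + 1) L κ * X i.succ) (by
      have e : (Fin.last m).succ = Fin.last (m + 1) := Fin.succ_last m
      simp only [e]
      exact hDl)
  simp only [cast_h] at hj hz
  set S : ℝ := (j : ℝ) / tD (m + 1) L κ ^ 2 with hS
  have hSR : S * tR (m + 1) L κ = j / (tβ (m + 1) L κ * th (m + 1) L κ ^ (m + 1)) := by
    rw [hS]; unfold tR
    have e : tD (m + 1) L κ = tβ (m + 1) L κ * th (m + 1) L κ ^ (m + 1) * th (m + 1) L κ := by
      unfold tD; ring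
    have hb' : tβ (m + 1) L κ * th (m + 1) L κ ^ (m + 1) ≠ 0 := by (clear * - hb hh; positivity)
    generalize tβ (m + 1) L κ * th (m + 1) L κ ^ (m + 1) = b at e hb'
    rw [e]
    (clear * - hh hb'; field_simp)
  have hkey : 1 / ((L : ℝ) * tβ (m + 1) L κ) = 1 / (bM (m + 1) * tw (m + 1) L κ) := by
    congr 1
    unfold tw tβ
    have e : th (m + 1) L κ ^ (m + 1 + 1) = th (m + 1) L κ * th (m + 1) L κ ^ (m + 1) := by ring
    rw [e]
    nth_rewrite 2 [th]
    push_cast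
    ring
  have hXS : |X 0 - S * tR (m + 1) L κ| ≤ 1 / (bM (m + 1) * tw (m + 1) L κ) := by
    rw [hSR, ← hkey]
    have e : X 0 - j / (tβ (m + 1) L κ * th (m + 1) L κ ^ (m + 1))
        = -((j - X 0 * tβ (m + 1) L κ * th (m + 1) L κ ^ (m + 1))
          / (tβ (m + 1) L κ * th (m + 1) L κ ^ (m + 1))) := by
      field_simp
      ring
    rw [e, abs_neg, abs_div, abs_of_pos (by (clear * - hb hh; positivity) : 0 < tβ (m + 1) L κ * th (m + 1) L κ ^ (m + 1)),
      div_le_div_iff₀ (by (clear * - hb hh; positivity)) (by (clear * - hL hb; positivity))]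
    calc |(j : ℝ) - X 0 * tβ (m + 1) L κ * th (m + 1) L κ ^ (m + 1)| * (L * tβ (m + 1) L κ)
        ≤ (th (m + 1) L κ ^ (m + 1) / L) * (L * tβ (m + 1) L κ) := by (clear * - hj hL hb; gcongr)
      _ = 1 * (tβ (m + 1) L κ * th (m + 1) L κ ^ (m + 1)) := by (clear * - hL hb hh; field_simp)
  have hsmall : 1 / (bM (m + 1) * tw (m + 1) L κ) ≤ 1 / 64 := by
    gcongr
    have := tw_ge (m := m + 1) hL hκ
    (clear * - hM64 hM hh64 this; linarith [le_mul_of_one_le_right hM.le (show (1 : ℝ) ≤ tw (m + 1) L κ by linarith)])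
  have hX' := abs_le.1 (hXS.trans hsmall)
  have hSR1 : 1 / 2 ≤ S * tR (m + 1) L κ := by linarith only [h0, hX']
  have hSR3 : S * tR (m + 1) L κ ≤ 3 := by linarith only [h0', hX']
  have hSpos : 0 < S := by
    by_contra hcon
    push Not at hcon
    have : S * tR (m + 1) L κ ≤ 0 := mul_nonpos_of_nonpos_of_nonneg hcon hR.le
    linarith only [h0, hX', this]
  refine ⟨S, ?_, ?_, ?_⟩
  · rw [div_le_iff₀ (by positivity)]; linarith only [h0, hX']
  · rw [le_div_iff₀ hR]; exact hSR3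
  -- phases
  have hph : ∀ i : Fin (m + 1 + 1), ∃ P : ℝ, ∀ v ∈ tS (m + 1) L κ i, ∃ N : ℤ,
      |X i * v - S * v ^ 2 - P - N| ≤ 3 / (bM (m + 1) : ℝ) := by
    refine Fin.cases ?_ (fun i => ?_)
    · refine ⟨X 0 * (tR (m + 1) L κ / 2) - S * (tR (m + 1) L κ / 2) ^ 2, fun v hv => ⟨0, ?_⟩⟩
      have := tphase0 hL hκ hSpos hSR3 hXS v hv
      simpa only [Int.cast_zero, sub_zero, ge_iff_le] using this
    · obtain ⟨z, hz⟩ := hz i
      refine ⟨X i.succ * tθ (m + 1) L κ i - S * tθ (m + 1) L κ i ^ 2, fun v hv => ?_⟩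
      exact tphaseA hL hκ hSpos hSR3 (h1 i).1 (h1 i).2 (by rw [hS]; (clear * - hD; field_simp)) hz v hv
  choose P hP using hph
  have hfin : volume (tbox (m + 1) L κ) ≠ ⊤ := by rw [volume_tbox hL hκ]; simp
  have hcoh := coherent (μ := volume) hfin
    (fun η : E (m + 1 + 1) => inner ℝ X η - S * ‖η‖ ^ 2) (by fun_prop) (∑ i, P i) (3 / 64) (by
      intro η hη
      have hN : ∀ i, ∃ N : ℤ, |X i * η i - S * η i ^ 2 - P i - N| ≤ 3 / (bM (m + 1) : ℝ) :=
        fun i => hP i (η i) (hη i)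
      choose N hN using hN
      refine ⟨∑ i, N i, ?_⟩
      have e : inner ℝ X η - S * ‖η‖ ^ 2 - ∑ i, P i - ((∑ i, N i : ℤ) : ℝ)
          = ∑ i, (X i * η i - S * η i ^ 2 - P i - N i) := by
        rw [inner_E, EuclideanSpace.real_norm_sq_eq]
        push_cast
        simp only [Finset.mul_sum, Finset.sum_sub_distrib]
      rw [e]
      calc |∑ i, (X i * η i - S * η i ^ 2 - P i - N i)|
          ≤ ∑ i, |X i * η i - S * η i ^ 2 - P i - N i| := Finset.abs_sum_le_sum_abs _ _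
        _ ≤ ∑ i : Fin (m + 1 + 1), 3 / (bM (m + 1) : ℝ) := Finset.sum_le_sum fun i _ => hN i
        _ = 3 * (((m + 1 : ℕ) : ℝ) + 1) / bM (m + 1) := by simp only [Finset.sum_const, Finset.card_univ, Fintype.card_fin, nsmul_eq_mul, Nat.cast_add, Nat.cast_one]; ring
        _ ≤ 3 / 64 := by
            rw [div_le_div_iff₀ hM (by norm_num)]
            have := bM_ge' (m := m + 1)
            linarith only [this])
  rw [volume_tbox hL hκ, ENNReal.toReal_ofReal hV.le] at hcoh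
  have hevo : evo (tG (m + 1) L κ) X S 0 = ((2 / tV (m + 1) L κ : ℝ) : ℂ) *
      ∫ η in tbox (m + 1) L κ, cexp (2 * Real.pi * I * ((inner ℝ X η - S * ‖η‖ ^ 2 : ℝ) : ℂ)) := by
    unfold evo tG
    rw [← integral_const_mul, ← integral_indicator measurableSet_tbox]
    congr 1
    ext η
    by_cases hη : η ∈ tbox (m + 1) L κ
    · simp only [Set.indicator_of_mem hη]
      simp only [mul_comm, ofReal_sub, ofReal_mul, ofReal_pow, zero_mul, ofReal_zero, sub_zero, ofReal_div, ofReal_ofNat]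
    · simp only [Set.indicator_of_notMem hη, mul_zero]
  rw [hevo, norm_mul, Complex.norm_real, Real.norm_of_nonneg (by positivity)]
  have hpi := Real.pi_lt_d2
  calc (1 : ℝ) ≤ 2 / tV (m + 1) L κ * (tV (m + 1) L κ * (1 - 2 * Real.pi * (3 / 64))) := by
        rw [← mul_assoc, div_mul_cancel₀ _ hV.ne']
        linarith only [hpi]
    _ ≤ _ := by (clear * - hcoh hV; gcongr)

lemma measurable_tG : Measurable (tG m L κ) :=
  measurable_const.indicator measurableSet_tbox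

lemma integral_norm_sq_tG (hL : 1 ≤ L) (hκ : 1 ≤ κ) : ∫ η, ‖tG m L κ η‖ ^ 2 = 4 / tV m L κ := by
  have hV := tV_pos (m := m) hL hκ
  have h1 : (fun η => ‖tG m L κ η‖ ^ 2) = (tbox m L κ).indicator fun _ => (2 / tV m L κ) ^ 2 := by
    ext η
    unfold tG
    by_cases h : η ∈ tbox m L κ
    · rw [Set.indicator_of_mem h, Set.indicator_of_mem h, Complex.norm_real,
        Real.norm_of_nonneg (by positivity)]
    · rw [Set.indicator_of_notMem h, Set.indicator_of_notMem h]; simp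
  rw [h1, integral_indicator measurableSet_tbox, setIntegral_const, smul_eq_mul, Measure.real,
    volume_tbox hL hκ, ENNReal.toReal_ofReal hV.le]
  field_simp
  ring

lemma tV_eq (hL : 1 ≤ L) : tV m L κ * (L * (bM m : ℝ) ^ (2 * m + 1)) = th m L κ ^ (2 * m + 2) := by
  have hM := bM_pos (m := m)
  have hL0 : (0:ℝ) < L := by exact_mod_cast hL
  have hKh : ((L * κ : ℕ) : ℝ) = th m L κ / bM m := by unfold th; field_simp
  have hκ' : (κ : ℝ) * (L * bM m) = th m L κ := by unfold th; push_cast; ring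
  unfold tV tw
  rw [hKh, div_div, div_pow]
  have e1 : (κ : ℝ) * th m L κ ^ (m + 1) * (th m L κ ^ m / ((bM m : ℝ) * bM m) ^ m)
      * (L * (bM m : ℝ) ^ (2 * m + 1))
      = (κ * (L * bM m)) * th m L κ ^ (2 * m + 1) * ((bM m : ℝ) ^ (2 * m) / ((bM m : ℝ) * bM m) ^ m) := by
    ring
  rw [e1, hκ']
  have e2 : (bM m : ℝ) ^ (2 * m) / ((bM m : ℝ) * bM m) ^ m = 1 := by
    rw [← pow_two, ← pow_mul, div_self (by (clear * - hM; positivity))]
  rw [e2, mul_one]
  ring

lemma tR_eq : tR m L κ * (L : ℝ) ^ 2 = th m L κ ^ (2 * m + 4) := by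
  have e : ((bM m : ℝ) * κ) * L = th m L κ := by unfold th; push_cast; ring
  unfold tR tD tβ
  calc ((bM m : ℝ) * κ) ^ 2 * th m L κ ^ m * th m L κ ^ (m + 1) * th m L κ * (L : ℝ) ^ 2
      = (((bM m : ℝ) * κ) * L) ^ 2 * th m L κ ^ (2 * m + 2) := by ring
    _ = _ := by rw [e]; ring

lemma tbox_norm (hL : 1 ≤ L) (hκ : 1 ≤ κ) {η : E (m + 1)} (hη : η ∈ tbox m L κ) :
    tR m L κ / 2 ≤ ‖η‖ ∧ ‖η‖ ≤ 3 / 5 * tR m L κ := by
  have hw := tw_pos (m := m) hL hκ
  have hR := tR_pos (m := m) hL hκ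
  have hM := bM_pos (m := m)
  have hM64 := bM_ge (m := m)
  have hh := th_pos (m := m) hL hκ
  have hh64 := th_ge64 (m := m) hL hκ
  have hD := tD_pos (m := m) hL hκ
  have hD64 := (th_ge64 (m := m) hL hκ).trans (tD_ge (m := m) hL hκ)
  have hKh : ((L * κ : ℕ) : ℝ) = th m L κ / bM m := by unfold th; field_simp
  have h0 : tR m L κ / 2 ≤ η 0 ∧ η 0 < tR m L κ / 2 + tw m L κ := by
    have := hη 0
    simpa only [tS, tA0, Fin.cons_zero, Set.mem_Ico] using this
  have h1 : ∀ i : Fin m, 0 ≤ η i.succ ∧ η i.succ ≤ 2 * tR m L κ / bM m := by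
    intro i
    have := hη i.succ
    simp only [tS, Fin.cons_succ, tA, Set.mem_iUnion, Finset.mem_range, exists_prop] at this
    obtain ⟨k, hk, hv1, hv2⟩ := this
    have hθ0 : 0 ≤ tθ m L κ i := by unfold tθ; (clear * - hD hh; positivity)
    have hθ1 : tθ m L κ i ≤ tD m L κ / 2 := by
      unfold tθ
      have : (1 : ℝ) ≤ th m L κ ^ ((i : ℕ) + 1) := one_le_pow₀ (by linarith only [hh64])
      gcongr
      linarith only [this]
    have hk1 : (k : ℝ) + 1 ≤ ((L * κ : ℕ) : ℝ) := by exact_mod_cast hk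
    have hM1 : 1 / (bM m : ℝ) ≤ 1 := by
      rw [div_le_one hM]; linarith only [hM64]
    refine ⟨le_trans (by (clear * - hθ0 hD; positivity)) hv1, hv2.le.trans ?_⟩
    have hM2 : 1 / (bM m : ℝ) ≤ tD m L κ / 2 := by linarith only [hD64, hM1]
    calc tθ m L κ i + tD m L κ * k + 1 / bM m ≤ tD m L κ / 2 + tD m L κ * k + tD m L κ / 2 := by
          linarith only [hD64, hθ1, hM1]
      _ = tD m L κ * (k + 1) := by ring
      _ ≤ tD m L κ * ((L * κ : ℕ) : ℝ) := by (clear * - hk1 hD; gcongr)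
      _ = tR m L κ / bM m := by unfold tR; rw [hKh]; ring
      _ ≤ 2 * tR m L κ / bM m := by gcongr; linarith only [hR]
  have hnorm : ‖η‖ ^ 2 = η 0 ^ 2 + ∑ i : Fin m, η i.succ ^ 2 := by
    rw [EuclideanSpace.real_norm_sq_eq, Fin.sum_univ_succ]
  constructor
  · have : (tR m L κ / 2) ^ 2 ≤ ‖η‖ ^ 2 := by
      rw [hnorm]
      have : 0 ≤ ∑ i : Fin m, η i.succ ^ 2 := Finset.sum_nonneg fun i _ => sq_nonneg _
      have : (tR m L κ / 2) ^ 2 ≤ η 0 ^ 2 := by gcongr; exact h0.1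
      (clear hw hM hM64 hh hh64 hD hD64 hKh h1 hnorm; linarith)
    exact le_of_sq_le_sq this (norm_nonneg _)
  · have hsum : ∑ i : Fin m, η i.succ ^ 2 ≤ tR m L κ ^ 2 / 1024 := by
      calc ∑ i : Fin m, η i.succ ^ 2 ≤ ∑ i : Fin m, (2 * tR m L κ / bM m) ^ 2 :=
            Finset.sum_le_sum fun i _ => by
              have := h1 i
              gcongr
              · exact this.1
              · exact this.2
        _ = m * (2 * tR m L κ / bM m) ^ 2 := by simp only [Finset.sum_const, Finset.card_univ, Fintype.card_fin, nsmul_eq_mul]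
        _ = tR m L κ ^ 2 * (4 * m / (bM m) ^ 2) := by ring
        _ ≤ tR m L κ ^ 2 * (1 / 1024) := by
            refine mul_le_mul_of_nonneg_left ?_ (by positivity)
            rw [div_le_div_iff₀ (by (clear * - hM; positivity)) (by norm_num)]
            have := bM_ge' (m := m)
            linarith only [mul_le_mul this this (by positivity) hM.le, sq_nonneg (m:ℝ)]
        _ = _ := by ring
    have hw2 : tw m L κ ≤ tR m L κ / 64 := (tw_le hL hκ).trans (by (clear * - hR hM64; gcongr))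
    have h02 : η 0 ^ 2 ≤ (33 / 64 * tR m L κ) ^ 2 := by
      have : 0 ≤ η 0 := le_trans (by positivity) h0.1
      gcongr
      linarith only [h0, hw2]
    have : ‖η‖ ^ 2 ≤ (3 / 5 * tR m L κ) ^ 2 := by
      rw [hnorm]
      linarith [sq_nonneg (tR m L κ)]
    exact le_of_sq_le_sq this (by positivity)

end Vale.Agent.P076
end

section

open MeasureTheory Complex

namespace Vale.Agent.P076

variable {m L κ : ℕ}

lemma evo_const_mul' {n : ℕ} (v : ℂ) (G : E n → ℂ) (x : E n) (s a : ℝ) :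
    evo (fun η => v * G η) x s a = v * evo G x s a := by
  rw [evo_eq, evo_eq, ← integral_const_mul]
  congr 1
  ext η
  ring

lemma tcost (hL : 1 ≤ L) (hκ : 1 ≤ κ) {k : ℕ} (hk : (2:ℝ) ^ k ≤ Real.pi * tR m L κ) :
    4 / tV m L κ ≤ 16 * (bM m : ℝ) ^ (2 * m + 1) * (L : ℝ) ^ (-((m : ℝ) / (m + 2))) *
      (2 : ℝ) ^ (-(2 * k * sCrit (m + 1))) := by
  have hM := bM_pos (m := m)
  have hh := th_pos (m := m) hL hκ
  have hV := tV_pos (m := m) hL hκ
  have hR := tR_pos (m := m) hL hκ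
  have hL0 : (0:ℝ) < L := by exact_mod_cast hL
  have hpi := Real.pi_pos
  have hpi4 := Real.pi_le_four
  set e : ℝ := ((m : ℝ) + 1) / (m + 2) with he
  have he0 : 0 < e := by (clear * -; positivity)
  have he1 : e ≤ 1 := by rw [he, div_le_one (by (clear * -; positivity))]; linarith only []
  have h1 : tR m L κ ^ e * (L : ℝ) ^ (2 * e) = th m L κ ^ (2 * m + 2) := by
    have h2 : (tR m L κ * (L : ℝ) ^ 2) ^ e = th m L κ ^ (2 * m + 2) := by
      rw [tR_eq, ← Real.rpow_natCast, ← Real.rpow_mul hh.le, ← Real.rpow_natCast]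
      congr 1
      rw [he]
      push_cast
      field_simp
      ring
    rw [← h2, Real.mul_rpow hR.le (by positivity), ← Real.rpow_natCast (L : ℝ) 2,
      ← Real.rpow_mul hL0.le]
    push_cast
    rfl
  have h3 := tV_eq (m := m) (κ := κ) hL
  have h4 : 4 / tV m L κ = 4 * (bM m : ℝ) ^ (2 * m + 1) * ((L : ℝ) ^ (1 - 2 * e)) * tR m L κ ^ (-e) := by
    have h5 : tV m L κ = tR m L κ ^ e * (L : ℝ) ^ (2 * e) / (L * (bM m : ℝ) ^ (2 * m + 1)) := by
      rw [h1, ← h3]; field_simp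
    have hRe : 0 < tR m L κ ^ e := by positivity
    have hLe : 0 < (L : ℝ) ^ (2 * e) := by positivity
    rw [h5, Real.rpow_neg hR.le, Real.rpow_sub hL0, Real.rpow_one]
    field_simp
  have h5 : 1 - 2 * e = -((m : ℝ) / (m + 2)) := by
    rw [he]; field_simp; ring
  have h6 : tR m L κ ^ (-e) ≤ 4 * (2 : ℝ) ^ (-(2 * k * sCrit (m + 1))) := by
    have h7 : -(2 * k * sCrit (m + 1)) = (k : ℝ) * (-e) := by
      unfold sCrit
      rw [he]
      push_cast
      have : (m : ℝ) + 1 + 1 ≠ 0 := by (clear * -; positivity)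
      have h9 : (m : ℝ) + 1 + 1 = m + 2 := by ring
      rw [h9]
      (clear * -; field_simp)
    have h8 : (2 : ℝ) ^ k / Real.pi ≤ tR m L κ := by
      rw [div_le_iff₀ hpi]; linarith only [hk]
    rw [h7, Real.rpow_mul (by norm_num), Real.rpow_natCast, Real.rpow_neg hR.le,
      Real.rpow_neg (by positivity)]
    have h9 : ((2 : ℝ) ^ k / Real.pi) ^ e ≤ tR m L κ ^ e :=
      Real.rpow_le_rpow (by positivity) h8 he0.le
    rw [Real.div_rpow (by positivity) hpi.le] at h9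
    have h10 : Real.pi ^ e ≤ 4 := by
      calc Real.pi ^ e ≤ Real.pi ^ (1 : ℝ) :=
            Real.rpow_le_rpow_of_exponent_le (by linarith only [Real.pi_gt_three]) he1
        _ = Real.pi := Real.rpow_one _
        _ ≤ 4 := hpi4
    have h11 : 0 < Real.pi ^ e := by positivity
    have h12 : (0:ℝ) < ((2 : ℝ) ^ k) ^ e := by positivity
    have h13 : ((2 : ℝ) ^ k) ^ e / 4 ≤ tR m L κ ^ e := by
      refine le_trans ?_ h9
      (clear * - h10; gcongr)
    rw [inv_le_iff_one_le_mul₀ (by positivity)]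
    calc (1 : ℝ) = 4 * (((2 : ℝ) ^ k) ^ e)⁻¹ * (((2 : ℝ) ^ k) ^ e / 4) := by field_simp
      _ ≤ 4 * (((2 : ℝ) ^ k) ^ e)⁻¹ * tR m L κ ^ e := by (clear * - h13; gcongr)
  rw [h4, h5]
  calc 4 * (bM m : ℝ) ^ (2 * m + 1) * ((L : ℝ) ^ (-((m : ℝ) / (m + 2)))) * tR m L κ ^ (-e)
      ≤ 4 * (bM m : ℝ) ^ (2 * m + 1) * ((L : ℝ) ^ (-((m : ℝ) / (m + 2)))) *
        (4 * (2 : ℝ) ^ (-(2 * k * sCrit (m + 1)))) := by (clear * - h6 hM hL; gcongr)
    _ = _ := by ring

/-- cost constant -/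
noncomputable def tC (m : ℕ) : ℝ := 16 * (bM (m + 1) : ℝ) ^ (2 * (m + 1) + 1)

lemma tC_pos : 0 < tC m := by
  have := bM_pos (m := m + 1)
  unfold tC
  positivity

theorem thin_block (m : ℕ) {L : ℕ} (hL : 1 ≤ L) {V B s₀ ε : ℝ} (hV : 1 ≤ V) (hs₀ : 0 < s₀)
    (hε : 0 < ε) (K : ℕ) : ∃ κ₀ ≥ 1, ∀ κ ≥ κ₀, ∃ k ≥ K, ∃ (F : E (m + 2) → ℂ) (s₁ : ℝ),
      IsBlock 2 k (thinSet m (nβ (m + 1) L κ) (nD (m + 1) L κ) L) (zone (m + 1)) V
        (V ^ 2 * (tC m * (L : ℝ) ^ (-(((m + 1 : ℕ) : ℝ) / (((m + 1 : ℕ) : ℝ) + 2)))) *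
          (2 : ℝ) ^ (-(2 * k * sCrit (m + 2)))) B s₀ ε s₁ F := by
  have hV0 : 0 < V := one_pos.trans_le hV
  set Z : ℝ := 3 / ε + 2 * V / ε + 2 * |B| / s₀ + 4 * V / (s₀ * ε) + 2 ^ K with hZ
  refine ⟨max 1 ⌈Z⌉₊, le_max_left _ _, fun κ hκ' => ?_⟩
  have hκ : 1 ≤ κ := (le_max_left _ _).trans hκ'
  have hκZ : Z ≤ κ := (Nat.le_ceil Z).trans (by exact_mod_cast (le_max_right _ _).trans hκ')
  have hh64 := th_ge64 (m := m + 1) hL hκ
  have hR := tR_pos (m := m + 1) hL hκ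
  have hw := tw_pos (m := m + 1) hL hκ
  have hκth : (κ : ℝ) ≤ th (m + 1) L κ := by
    unfold th
    have h1 := bM_ge (m := m + 1)
    have h2 : (1 : ℝ) ≤ L := by exact_mod_cast hL
    have h3 : (0 : ℝ) ≤ κ := by positivity
    push_cast
    calc (κ : ℝ) = 1 * (1 * κ) := by ring
      _ ≤ (bM (m + 1) : ℝ) * (L * κ) := by
          gcongr
          linarith only [h1]
  have hRZ : Z ≤ tR (m + 1) L κ := (hκZ.trans hκth).trans (tR_ge hL hκ)
  have hwZ : Z ≤ tw (m + 1) L κ := (hκZ.trans hκth).trans (tw_ge hL hκ)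
  have hp1 : 0 < 3 / ε := by positivity
  have hp2 : 0 < 2 * V / ε := by positivity
  have hp3 : 0 ≤ 2 * |B| / s₀ := by (clear * - hs₀; positivity)
  have hp4 : 0 < 4 * V / (s₀ * ε) := by positivity
  have hp5 : (0 : ℝ) < 2 ^ K := by positivity
  have hZ1 : 3 / ε ≤ Z := by linarith only [hp2, hp3, hp4, hp5]
  have hZ2 : 2 * V / ε ≤ Z := by linarith only [hp1, hp3, hp4, hp5]
  have hZ3 : 2 * |B| / s₀ ≤ Z := by linarith only [hp1, hp2, hp4, hp5]
  have hZ4 : 4 * V / (s₀ * ε) ≤ Z := by linarith only [hp1, hp2, hp3, hp5]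
  have hZ5 : (2 : ℝ) ^ K ≤ Z := by linarith only [hp1, hp2, hp3, hp4]
  clear_value Z
  have hpi := Real.pi_gt_three
  have hpi4 := Real.pi_lt_d2
  have hw1 : 1 ≤ tw (m + 1) L κ := by linarith only [hh64, tw_ge (m := m + 1) hL hκ]
  obtain ⟨k, hk1, hk2⟩ := exists_nat_pow_near (x := Real.pi * tR (m + 1) L κ) (y := 2)
    (by have := tR_ge (m := m + 1) hL hκ; linarith only [hh64, this, mul_le_mul_of_nonneg_right hpi.le hR.le]) (by norm_num)
  have hKk : K ≤ k := by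
    have h1 : (2 : ℝ) ^ K < 2 ^ (k + 1) := by
      refine lt_of_le_of_lt ?_ hk2
      linarith only [hZ, hRZ, hp1, hp2, hp3, hp4, hR, mul_le_mul_of_nonneg_right hpi.le hR.le]
    have := (pow_lt_pow_iff_right₀ (by norm_num : (1 : ℝ) < 2)).1 h1
    omega
  have hnorm : ∀ η, ‖(V : ℂ) * tG (m + 1) L κ η‖ = V * ‖tG (m + 1) L κ η‖ := fun η => by
    rw [norm_mul, Complex.norm_real, Real.norm_of_nonneg hV0.le]
  refine ⟨k, hKk, fun η => (V : ℂ) * tG (m + 1) L κ η, 1 / (2 * tR (m + 1) L κ),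
    measurable_tG.const_mul _, ⟨V * (2 / tV (m + 1) L κ), fun η => ?_⟩, fun η hη => ?_, ?_,
    by positivity, fun x hx => ?_, fun x hx => ?_, fun x hx s hs a ha => ?_⟩
  · rw [hnorm]
    have hV' := tV_pos (m := m + 1) hL hκ
    gcongr
    unfold tG
    by_cases h : η ∈ tbox (m + 1) L κ
    · rw [Set.indicator_of_mem h, Complex.norm_real, Real.norm_of_nonneg (by (clear * - hV'; positivity))]
    · rw [Set.indicator_of_notMem h]; simp only [norm_zero]; (clear * - hV'; positivity)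
  · have hmem : η ∈ tbox (m + 1) L κ := by
      by_contra hcon
      apply hη
      unfold tG
      rw [Set.indicator_of_notMem hcon, mul_zero]
    obtain ⟨h1, h2⟩ := tbox_norm hL hκ hmem
    constructor
    · calc (2:ℝ) ^ k ≤ Real.pi * tR (m + 1) L κ := hk1
        _ = 2 * Real.pi * (tR (m + 1) L κ / 2) := by ring
        _ ≤ 2 * Real.pi * ‖η‖ := by (clear * - h1; gcongr)
    · calc 2 * Real.pi * ‖η‖ ≤ 2 * Real.pi * (3 / 5 * tR (m + 1) L κ) := by (clear * - h2; gcongr)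
        _ = 6 / 5 * (Real.pi * tR (m + 1) L κ) := by ring
        _ < 6 / 5 * 2 ^ (k + 1) := by (clear * - hk2; gcongr)
        _ ≤ 2 * 2 ^ (k + 1) := by gcongr; norm_num
        _ = 2 ^ (k + 2) := by ring
  · simp_rw [hnorm, mul_pow]
    rw [integral_const_mul, integral_norm_sq_tG hL hκ, mul_assoc]
    have := tcost (m := m + 1) hL hκ hk1
    unfold tC
    (clear * - this hV; gcongr)
  · obtain ⟨S, h1, h2, h3⟩ := tresonance hL hκ hx
    refine ⟨S, h1, h2.trans ?_, ?_⟩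
    · rw [div_le_iff₀ hR]
      have : 3 / ε ≤ tR (m + 1) L κ := hZ1.trans hRZ
      rw [div_le_iff₀ hε] at this
      linarith only [this]
    · rw [evo_const_mul', norm_mul, Complex.norm_real, Real.norm_of_nonneg hV0.le]
      linarith only [mul_le_mul_of_nonneg_left h3 hV0.le]
  · rw [evo_const_mul', norm_mul, Complex.norm_real, Real.norm_of_nonneg hV0.le]
    have h1 := tinit (m := m + 1) hL hκ (X := x) hx.1.1
    have h2 : 2 * V / ε ≤ tw (m + 1) L κ := hZ2.trans hwZ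
    calc V * ‖evo (tG (m + 1) L κ) x 0 0‖ ≤ V * (2 / tw (m + 1) L κ) := by (clear * - h1 hV; gcongr)
      _ = 2 * V / tw (m + 1) L κ := by ring
      _ ≤ ε := by
          rw [div_le_iff₀ hw]
          rw [div_le_iff₀ hε] at h2
          linarith only [h2]
  · have hs0 : 0 < s := lt_of_lt_of_le hs₀ hs
    rw [evo_const_mul', norm_mul, Complex.norm_real, Real.norm_of_nonneg hV0.le]
    have h1 := tlate (m := m + 1) hL hκ (X := x) hs0 ha (by
      have hx0 : |x 0| ≤ ‖x‖ := by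
        have h1 : ‖x 0‖ ≤ ‖x‖ := PiLp.norm_apply_le x 0
        rwa [Real.norm_eq_abs] at h1
      have h2 : 2 * |B| / s₀ ≤ tR (m + 1) L κ := hZ3.trans hRZ
      rw [div_le_iff₀ hs₀] at h2
      have h3 : tR (m + 1) L κ * s₀ ≤ tR (m + 1) L κ * s := by (clear * - hs hR; gcongr)
      have h4 : ‖x‖ ≤ |B| := hx.trans (le_abs_self B)
      linarith only [hx0, h2, h3, h4])
    have h2 : 4 * V / (s₀ * ε) ≤ tR (m + 1) L κ := hZ4.trans hRZ
    rw [div_le_iff₀ (by positivity)] at h2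
    calc V * ‖evo (tG (m + 1) L κ) x s a‖ ≤ V * (4 / (tw (m + 1) L κ * (s * tR (m + 1) L κ))) := by
          (clear * - h1 hV; gcongr)
      _ ≤ V * (4 / (1 * (s₀ * tR (m + 1) L κ))) := by (clear * - hs₀ hR hw1 hs hw hV; gcongr)
      _ = 4 * V / (s₀ * tR (m + 1) L κ) := by ring
      _ ≤ ε := by
          rw [div_le_iff₀ (by positivity)]
          linarith only [h2]

end Vale.Agent.P076
end

section

/-!
A one-dimensional Cantor measure carried by `{y | ∀ j, fract (A j * y) < 1 / Λ j}`.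
-/

open MeasureTheory Filter Topology
open scoped ENNReal NNReal

namespace Vale.Agent.P076

section defs
variable (A Λ : ℕ → ℕ)

/-- number of children -/
def cq : ℕ → ℕ
  | 0 => A 0
  | (j + 1) => A (j + 1) / (A j * Λ j)

/-- number of pieces of generation `j` -/
def cQ : ℕ → ℕ
  | 0 => A 0
  | (j + 1) => cQ j * cq A Λ (j + 1)

/-- position (times `A j`) of the `N`-th piece of generation `j` -/
def cX : ℕ → ℕ → ℕ
  | 0, N => N
  | (j + 1), N => (Λ j * cq A Λ (j + 1)) * cX j (N / cq A Λ (j + 1)) + N % cq A Λ (j + 1)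

/-- position of the piece of generation `j` indexed by `u` -/
noncomputable def cx (j : ℕ) (u : ℝ) : ℝ := cX A Λ j ⌊(cQ A Λ j : ℝ) * u⌋₊ / A j

/-- product of thinness parameters -/
def cP (j : ℕ) : ℕ := ∏ l ∈ Finset.range j, Λ l

end defs

/-- standing assumptions -/
structure CantorData (A Λ : ℕ → ℕ) : Prop where
  pos : ∀ j, 0 < A j
  two : ∀ j, 2 ≤ Λ j
  dvd : ∀ j, A j * Λ j ∣ A (j + 1)
  grow : ∀ j, 2 * (A j * Λ j) ≤ A (j + 1)

variable {A Λ : ℕ → ℕ}

namespace CantorData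
variable (h : CantorData A Λ)
include h

lemma q_succ (j : ℕ) : cq A Λ (j + 1) * (A j * Λ j) = A (j + 1) := Nat.div_mul_cancel (h.dvd j)

lemma q_pos (j : ℕ) : 0 < cq A Λ j := by
  cases j with
  | zero => exact h.pos 0
  | succ j =>
    have h1 := h.q_succ j
    have h2 := h.pos (j + 1)
    rcases Nat.eq_zero_or_pos (cq A Λ (j + 1)) with h3 | h3
    · rw [h3, zero_mul] at h1; omega
    · exact h3

lemma q_two (j : ℕ) : 2 ≤ cq A Λ (j + 1) := by
  have h1 := h.q_succ j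
  have h2 := h.grow j
  have h3 : 0 < A j * Λ j := Nat.mul_pos (h.pos j) (by have := h.two j; omega)
  by_contra hc
  have h4 : cq A Λ (j + 1) ≤ 1 := by omega
  have h5 : cq A Λ (j + 1) * (A j * Λ j) ≤ 1 * (A j * Λ j) := Nat.mul_le_mul_right _ h4
  omega

lemma Q_mul_P (j : ℕ) : cQ A Λ j * cP Λ j = A j := by
  induction j with
  | zero => simp only [cQ, cP, Finset.range_zero, Finset.prod_empty, mul_one]
  | succ j ih =>
    have h1 := h.q_succ j
    rw [cQ, cP, Finset.prod_range_succ]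
    change cQ A Λ j * cq A Λ (j + 1) * (cP Λ j * Λ j) = _
    calc cQ A Λ j * cq A Λ (j + 1) * (cP Λ j * Λ j)
        = cq A Λ (j + 1) * ((cQ A Λ j * cP Λ j) * Λ j) := by ring
      _ = A (j + 1) := by rw [ih, h1]

lemma Q_pos (j : ℕ) : 0 < cQ A Λ j := by
  have h1 := h.Q_mul_P j
  have h2 := h.pos j
  rcases Nat.eq_zero_or_pos (cQ A Λ j) with h3 | h3
  · rw [h3, zero_mul] at h1; omega
  · exact h3

lemma P_pos (j : ℕ) : 0 < cP Λ j := Finset.prod_pos fun l _ => by have := h.two l; omega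

lemma Q_ge (j : ℕ) : 2 ^ j ≤ cQ A Λ j := by
  induction j with
  | zero => exact h.Q_pos 0
  | succ j ih =>
    rw [cQ, pow_succ]
    exact Nat.mul_le_mul ih (h.q_two j)

lemma X_injective (j : ℕ) : Function.Injective (cX A Λ j) := by
  induction j with
  | zero => intro a b hab; simpa [cX] using hab
  | succ j ih =>
    intro a b hab
    simp only [cX] at hab
    have hq := h.q_pos (j + 1)
    have hL : 0 < Λ j := by have := h.two j; omega
    set q := cq A Λ (j + 1)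
    have ha : a % q < Λ j * q := (Nat.mod_lt a hq).trans_le (Nat.le_mul_of_pos_left q hL)
    have hb : b % q < Λ j * q := (Nat.mod_lt b hq).trans_le (Nat.le_mul_of_pos_left q hL)
    have hpos : 0 < Λ j * q := Nat.mul_pos hL hq
    have h1 : cX A Λ j (a / q) = cX A Λ j (b / q) := by
      have e1 : (Λ j * q * cX A Λ j (a / q) + a % q) / (Λ j * q)
          = (Λ j * q * cX A Λ j (b / q) + b % q) / (Λ j * q) := by rw [hab]
      rwa [Nat.mul_add_div hpos, Nat.mul_add_div hpos, Nat.div_eq_of_lt ha, Nat.div_eq_of_lt hb,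
        add_zero, add_zero] at e1
    have h2 : a % q = b % q := by
      rw [h1] at hab
      omega
    have h3 : a / q = b / q := ih h1
    rw [← Nat.div_add_mod a q, ← Nat.div_add_mod b q, h2, h3]

lemma X_succ (j : ℕ) (u : ℝ) :
    cX A Λ (j + 1) ⌊(cQ A Λ (j + 1) : ℝ) * u⌋₊ =
      (Λ j * cq A Λ (j + 1)) * cX A Λ j ⌊(cQ A Λ j : ℝ) * u⌋₊
        + ⌊(cQ A Λ (j + 1) : ℝ) * u⌋₊ % cq A Λ (j + 1) := by
  rw [cX]
  have hq := h.q_pos (j + 1)
  have h1 : ⌊(cQ A Λ (j + 1) : ℝ) * u⌋₊ / cq A Λ (j + 1) = ⌊(cQ A Λ j : ℝ) * u⌋₊ := by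
    rw [← Nat.floor_div_natCast]
    congr 1
    rw [cQ]
    push_cast
    have : (cq A Λ (j + 1) : ℝ) ≠ 0 := by positivity
    field_simp
  rw [h1]

lemma A_pos (j : ℕ) : (0 : ℝ) < A j := by exact_mod_cast h.pos j

lemma Λ_two (j : ℕ) : (2 : ℝ) ≤ Λ j := by exact_mod_cast h.two j

/-- one step: the next position lies in the first `1/Λ` part of the current cell -/
lemma x_succ (j : ℕ) (u : ℝ) : cx A Λ j u ≤ cx A Λ (j + 1) u ∧
    cx A Λ (j + 1) u + 1 / A (j + 1) ≤ cx A Λ j u + 1 / (A j * Λ j) := by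
  have hq := h.q_pos (j + 1)
  have hq' : (0 : ℝ) < cq A Λ (j + 1) := by exact_mod_cast hq
  have hA := h.A_pos j
  have hA' := h.A_pos (j + 1)
  have hΛ := h.Λ_two j
  have hrel : (cq A Λ (j + 1) : ℝ) * (A j * Λ j) = A (j + 1) := by exact_mod_cast h.q_succ j
  set d := ⌊(cQ A Λ (j + 1) : ℝ) * u⌋₊ % cq A Λ (j + 1) with hd
  have hd0 : (0 : ℝ) ≤ d := by (clear * -; positivity)
  have hd1 : (d : ℝ) + 1 ≤ cq A Λ (j + 1) := by
    have : d < cq A Λ (j + 1) := Nat.mod_lt _ hq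
    exact_mod_cast this
  have e1 : cx A Λ (j + 1) u = cx A Λ j u + d / A (j + 1) := by
    unfold cx
    rw [h.X_succ j u, ← hd]
    push_cast
    rw [← hrel]
    (clear * - hq hΛ hA; field_simp)
  constructor
  · rw [e1]
    have : 0 ≤ (d : ℝ) / A (j + 1) := by (clear * - hA'; positivity)
    linarith only [this]
  · rw [e1]
    have e2 : 1 / ((A j : ℝ) * Λ j) = cq A Λ (j + 1) / A (j + 1) := by
      rw [← hrel]; field_simp
    rw [e2, add_assoc, ← add_div]
    (clear * - hd1 hA'; gcongr)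

lemma x_mono (u : ℝ) : Monotone fun j => cx A Λ j u :=
  monotone_nat_of_le_succ fun j => (h.x_succ j u).1

lemma x_le (u : ℝ) (j : ℕ) (l : ℕ) :
    cx A Λ (j + 1 + l) u ≤ cx A Λ (j + 1) u + 1 / (A (j + 1) * Λ (j + 1)) := by
  have key : ∀ l, cx A Λ (j + 1 + l) u + 1 / (A (j + 1 + l) * Λ (j + 1 + l)) ≤
      cx A Λ (j + 1) u + 1 / (A (j + 1) * Λ (j + 1)) := by
    intro l
    induction l with
    | zero => simp only [add_zero, one_div, mul_inv_rev, Std.le_refl]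
    | succ l ih =>
      have h1 := (h.x_succ (j + 1 + l) u).2
      have hA' := h.A_pos (j + 1 + l + 1)
      have hΛ := h.Λ_two (j + 1 + l + 1)
      have h2 : 1 / ((A (j + 1 + l + 1) : ℝ) * Λ (j + 1 + l + 1)) ≤ 1 / A (j + 1 + l + 1) := by
        apply one_div_le_one_div_of_le hA'
        exact le_mul_of_one_le_right hA'.le (by linarith only [hΛ])
      rw [← add_assoc]
      linarith
  have hA' := h.A_pos (j + 1 + l)
  have hΛ := h.Λ_two (j + 1 + l)
  have h3 : 0 ≤ 1 / ((A (j + 1 + l) : ℝ) * Λ (j + 1 + l)) := by positivity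
  linarith only [h3, key l]

end CantorData

/-- the limit point -/
noncomputable def cg (A Λ : ℕ → ℕ) (u : ℝ) : ℝ := ⨆ j, cx A Λ j u

namespace CantorData
variable (h : CantorData A Λ)
include h

lemma x_bdd (u : ℝ) : BddAbove (Set.range fun j => cx A Λ j u) := by
  refine ⟨cx A Λ 1 u + 1 / (A 1 * Λ 1), ?_⟩
  rintro _ ⟨j, rfl⟩
  refine (h.x_mono u (by omega : j ≤ 0 + 1 + j)).trans ?_
  exact h.x_le u 0 j

lemma x_le_g (j : ℕ) (u : ℝ) : cx A Λ j u ≤ cg A Λ u := le_ciSup (h.x_bdd u) j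

lemma g_lt (j : ℕ) (u : ℝ) : cg A Λ u < cx A Λ j u + 1 / (A j * Λ j) := by
  have h1 : cg A Λ u ≤ cx A Λ (j + 1) u + 1 / (A (j + 1) * Λ (j + 1)) := by
    refine ciSup_le fun l => ?_
    exact (h.x_mono u (by omega : l ≤ j + 1 + l)).trans (h.x_le u j l)
  have h2 := (h.x_succ j u).2
  have hA' := h.A_pos (j + 1)
  have hΛ := h.Λ_two (j + 1)
  have h3 : 1 / ((A (j + 1) : ℝ) * Λ (j + 1)) < 1 / A (j + 1) := by
    apply one_div_lt_one_div_of_lt hA'
    exact lt_mul_of_one_lt_right hA' (by linarith only [hΛ])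
  linarith

lemma tendsto_x (u : ℝ) : Tendsto (fun j => cx A Λ j u) atTop (𝓝 (cg A Λ u)) :=
  tendsto_atTop_ciSup (h.x_mono u) (h.x_bdd u)

omit h in
lemma measurable_x (j : ℕ) : Measurable (cx A Λ j) := by
  unfold cx
  have h1 : Measurable fun u : ℝ => ⌊(cQ A Λ j : ℝ) * u⌋₊ :=
    Nat.measurable_floor.comp (measurable_id.const_mul _)
  have h2 : Measurable fun N : ℕ => (cX A Λ j N : ℝ) := measurable_from_nat
  exact (h2.comp h1).div_const _

lemma measurable_g : Measurable (cg A Λ) :=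
  measurable_of_tendsto_metrizable (fun j => measurable_x j)
    (tendsto_pi_nhds.2 fun u => h.tendsto_x u)

/-- the limit point is in all the stripes -/
lemma fract_g (j : ℕ) (u : ℝ) : Int.fract ((A j : ℝ) * cg A Λ u) < 1 / Λ j := by
  have hA := h.A_pos j
  have hΛ := h.Λ_two j
  set X := cX A Λ j ⌊(cQ A Λ j : ℝ) * u⌋₊ with hX
  have hx : (A j : ℝ) * cx A Λ j u = X := by
    unfold cx; rw [← hX]; field_simp
  have h1 : (X : ℝ) ≤ A j * cg A Λ u := by
    rw [← hx]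
    exact mul_le_mul_of_nonneg_left (h.x_le_g j u) hA.le
  have h2 : (A j : ℝ) * cg A Λ u < X + 1 / Λ j := by
    rw [← hx]
    calc (A j : ℝ) * cg A Λ u < A j * (cx A Λ j u + 1 / (A j * Λ j)) :=
          mul_lt_mul_of_pos_left (h.g_lt j u) hA
      _ = A j * cx A Λ j u + 1 / Λ j := by (clear * - hΛ hA; field_simp)
  have h3 : 1 / (Λ j : ℝ) ≤ 1 := by
    rw [div_le_one (by linarith only [hΛ])]; linarith only [hΛ]
  have h4 : ⌊(A j : ℝ) * cg A Λ u⌋ = (X : ℤ) := by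
    rw [Int.floor_eq_iff]
    push_cast
    constructor <;> linarith only [h1, h2, h3]
  rw [Int.fract, h4]
  push_cast
  linarith only [h2]

lemma g_mem {u : ℝ} (hu : u ∈ Set.Ico (0 : ℝ) 1) : cg A Λ u ∈ Set.Ico (0 : ℝ) 1 := by
  have hA := h.A_pos 0
  have hΛ := h.Λ_two 0
  have h1 := h.x_le_g 0 u
  have h2 := h.g_lt 0 u
  have hx : cx A Λ 0 u = ⌊(A 0 : ℝ) * u⌋₊ / A 0 := by
    simp [cx, cX, cQ]
  rw [hx] at h1 h2
  constructor
  · refine le_trans ?_ h1
    (clear * - hA; positivity)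
  · have h3 : (⌊(A 0 : ℝ) * u⌋₊ : ℝ) + 1 ≤ A 0 := by
      have h4 : ⌊(A 0 : ℝ) * u⌋₊ < A 0 := by
        rw [Nat.floor_lt (mul_nonneg hA.le hu.1)]
        have := hu.2
        exact mul_lt_of_lt_one_right hA this
      exact_mod_cast h4
    have h5 : 1 / ((A 0 : ℝ) * Λ 0) ≤ 1 / A 0 := by
      apply one_div_le_one_div_of_le hA
      exact le_mul_of_one_le_right hA.le (by linarith only [hΛ])
    have h6 : (⌊(A 0 : ℝ) * u⌋₊ : ℝ) / A 0 + 1 / A 0 ≤ 1 := by
      rw [← add_div, div_le_one hA]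
      exact h3
    linarith only [h2, h5, h6]

end CantorData

/-- the Cantor measure -/
noncomputable def cν (A Λ : ℕ → ℕ) : Measure ℝ :=
  (volume.restrict (Set.Ico (0 : ℝ) 1)).map (cg A Λ)

namespace CantorData
variable (h : CantorData A Λ)
include h

lemma isProb : IsProbabilityMeasure (cν A Λ) := by
  have : IsProbabilityMeasure (volume.restrict (Set.Ico (0 : ℝ) 1)) := ⟨by simp only [MeasurableSet.univ, Measure.restrict_apply, Set.univ_inter, Real.volume_Ico, sub_zero, ENNReal.ofReal_one]⟩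
  exact Measure.isProbabilityMeasure_map h.measurable_g.aemeasurable

lemma ae_stripes : ∀ᵐ y ∂(cν A Λ), y ∈ Set.Ico (0 : ℝ) 1 ∧ ∀ j, Int.fract ((A j : ℝ) * y) < 1 / Λ j := by
  have hm : MeasurableSet {y : ℝ | y ∈ Set.Ico (0 : ℝ) 1 ∧ ∀ j, Int.fract ((A j : ℝ) * y) < 1 / Λ j} := by
    have h1 : {y : ℝ | y ∈ Set.Ico (0 : ℝ) 1 ∧ ∀ j, Int.fract ((A j : ℝ) * y) < 1 / Λ j}
        = Set.Ico (0 : ℝ) 1 ∩ ⋂ j, {y : ℝ | Int.fract ((A j : ℝ) * y) < 1 / Λ j} := by
      ext y; simp only [Set.mem_Ico, one_div, Set.mem_ofPred_eq, Set.mem_inter_iff, Set.mem_iInter]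
    rw [h1]
    refine MeasurableSet.inter measurableSet_Ico (MeasurableSet.iInter fun j => ?_)
    exact measurableSet_lt (measurable_fract.comp (measurable_id.const_mul _)) measurable_const
  unfold cν
  rw [ae_map_iff h.measurable_g.aemeasurable hm]
  filter_upwards [ae_restrict_mem measurableSet_Ico] with u hu
  exact ⟨h.g_mem hu, fun j => h.fract_g j u⟩

lemma volume_level (j X : ℕ) :
    volume ({u : ℝ | cX A Λ j ⌊(cQ A Λ j : ℝ) * u⌋₊ = X} ∩ Set.Ico 0 1)
      ≤ ENNReal.ofReal (1 / cQ A Λ j) := by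
  have hQ : (0 : ℝ) < cQ A Λ j := by exact_mod_cast h.Q_pos j
  by_cases hne : ({u : ℝ | cX A Λ j ⌊(cQ A Λ j : ℝ) * u⌋₊ = X} ∩ Set.Ico 0 1).Nonempty
  · obtain ⟨u₀, hu₀, -⟩ := hne
    set N := ⌊(cQ A Λ j : ℝ) * u₀⌋₊ with hN
    have hsub : ({u : ℝ | cX A Λ j ⌊(cQ A Λ j : ℝ) * u⌋₊ = X} ∩ Set.Ico 0 1)
        ⊆ Set.Icc ((N : ℝ) / cQ A Λ j) ((N + 1) / cQ A Λ j) := by
      rintro u ⟨hu, hu0, -⟩
      have h1 : ⌊(cQ A Λ j : ℝ) * u⌋₊ = N := h.X_injective j (by rw [hu]; exact hu₀.symm)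
      have h2 : (N : ℝ) ≤ cQ A Λ j * u := by
        rw [← h1]; exact Nat.floor_le (by (clear * - hQ hu0; positivity))
      have h3 : (cQ A Λ j : ℝ) * u < N + 1 := by
        rw [← h1]; exact Nat.lt_floor_add_one _
      constructor
      · rw [div_le_iff₀ hQ]; linarith only [h2]
      · rw [le_div_iff₀ hQ]; linarith only [h3]
    refine (measure_mono hsub).trans ?_
    rw [Real.volume_Icc]
    apply ENNReal.ofReal_le_ofReal
    apply le_of_eq
    field_simp
    ring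
  · rw [Set.not_nonempty_iff_eq_empty] at hne
    rw [hne]; simp only [measure_empty, one_div, zero_le]

/-- Frostman-type bound -/
lemma ν_Icc_le (j : ℕ) {a b : ℝ} (hab : a ≤ b) :
    cν A Λ (Set.Icc a b) ≤ ENNReal.ofReal (cP Λ j * (b - a + 2 / A j)) := by
  have hA := h.A_pos j
  have hΛ := h.Λ_two j
  have hQ : (0 : ℝ) < cQ A Λ j := by exact_mod_cast h.Q_pos j
  unfold cν
  rw [Measure.map_apply h.measurable_g measurableSet_Icc,
    Measure.restrict_apply (h.measurable_g measurableSet_Icc)]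
  rcases lt_or_ge b 0 with hb | hb
  · have : cg A Λ ⁻¹' Set.Icc a b ∩ Set.Ico 0 1 = ∅ := by
      ext u
      simp only [Set.mem_inter_iff, Set.mem_preimage, Set.mem_Icc, Set.mem_empty_iff_false,
        iff_false, not_and]
      rintro ⟨-, h1⟩ h2
      have := (h.g_mem h2).1
      linarith only [hb, h1, this]
    rw [this]; simp only [measure_empty, Nat.cast_nonneg, ENNReal.ofReal_mul, ENNReal.ofReal_natCast, zero_le]
  set lo := ⌈a * A j - 1⌉₊ with hlo
  set hi := ⌊b * A j⌋₊ with hhi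
  have hsub : cg A Λ ⁻¹' Set.Icc a b ∩ Set.Ico 0 1 ⊆
      ⋃ X ∈ Finset.Icc lo hi, ({u : ℝ | cX A Λ j ⌊(cQ A Λ j : ℝ) * u⌋₊ = X} ∩ Set.Ico 0 1) := by
    rintro u ⟨⟨hu1, hu2⟩, hu⟩
    set X := cX A Λ j ⌊(cQ A Λ j : ℝ) * u⌋₊ with hX
    have hx : (A j : ℝ) * cx A Λ j u = X := by
      unfold cx; rw [← hX]; (clear * - hA; field_simp)
    have h1 : (X : ℝ) ≤ b * A j := by
      rw [← hx, mul_comm b]
      exact mul_le_mul_of_nonneg_left ((h.x_le_g j u).trans hu2) hA.le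
    have h2 : a * A j - 1 ≤ X := by
      have h3 := hu1.trans (h.g_lt j u).le
      have h4 : 1 / ((A j : ℝ) * Λ j) ≤ 1 / A j := by
        apply one_div_le_one_div_of_le hA
        nlinarith only [hΛ]
      have h5 : a ≤ cx A Λ j u + 1 / A j := h3.trans (by linarith only [h4])
      have h6 : a * A j ≤ (cx A Λ j u + 1 / A j) * A j := by (clear * - h5 hA; gcongr)
      have h7 : (cx A Λ j u + 1 / A j) * A j = X + 1 := by
        rw [← hx]; (clear * - hA; field_simp)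
      linarith only [h6, h7]
    refine Set.mem_iUnion₂.2 ⟨X, Finset.mem_Icc.2 ⟨Nat.ceil_le.2 h2, Nat.le_floor h1⟩, rfl, hu⟩
  refine (measure_mono hsub).trans ((measure_biUnion_finset_le _ _).trans ?_)
  refine (Finset.sum_le_sum fun X _ => h.volume_level j X).trans ?_
  rw [Finset.sum_const, Nat.card_Icc, nsmul_eq_mul]
  have hP : (cQ A Λ j : ℝ) * cP Λ j = A j := by exact_mod_cast h.Q_mul_P j
  rcases Nat.lt_or_ge hi lo with hlt | hge
  · have : hi + 1 - lo = 0 := by omega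
    rw [this]; simp only [CharP.cast_eq_zero, one_div, zero_mul, Nat.cast_nonneg, ENNReal.ofReal_mul, ENNReal.ofReal_natCast, zero_le]
  · have h1 : ((hi + 1 - lo : ℕ) : ℝ) ≤ (b - a) * A j + 2 := by
      rw [Nat.cast_sub (by omega)]
      push_cast
      have h2 : a * A j - 1 ≤ lo := Nat.le_ceil _
      have h3 : (hi : ℝ) ≤ b * A j := Nat.floor_le (by (clear * - hb hA; positivity))
      linarith only [h2, h3]
    rw [← ENNReal.ofReal_natCast, ← ENNReal.ofReal_mul (by (clear * -; positivity))]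
    apply ENNReal.ofReal_le_ofReal
    have hPc : (cP Λ j : ℝ) = A j / cQ A Λ j := by rw [← hP]; (clear * - hQ; field_simp)
    rw [hPc]
    calc ((hi + 1 - lo : ℕ) : ℝ) * (1 / cQ A Λ j) ≤ ((b - a) * A j + 2) * (1 / cQ A Λ j) := by (clear * - h1 hQ; gcongr)
      _ = A j / cQ A Λ j * (b - a + 2 / A j) := by (clear * - hA hQ; field_simp)

end CantorData

end Vale.Agent.P076
end

section

/-!
A product of Cantor measures on `E (m+1)` and the comparison with gauge measures.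
-/

open MeasureTheory Filter Topology
open scoped ENNReal NNReal

namespace Vale.Agent.P076

variable {A Λ : ℕ → ℕ} {m : ℕ}

/-- one-dimensional factors: the first coordinate is shifted by one -/
noncomputable def gν (A Λ : ℕ → ℕ) (i : Fin (m + 1)) : Measure ℝ :=
  (cν A Λ).map fun y => y + (if i = 0 then 1 else 0)

/-- the product measure -/
noncomputable def gμ (m : ℕ) (A Λ : ℕ → ℕ) : Measure (E (m + 1)) :=
  (Measure.pi (gν (m := m) A Λ)).map (MeasurableEquiv.toLp 2 (Fin (m + 1) → ℝ))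

namespace CantorData
variable (h : CantorData A Λ)
include h

lemma isProb_gν (i : Fin (m + 1)) : IsProbabilityMeasure (gν A Λ i) := by
  have := h.isProb
  exact Measure.isProbabilityMeasure_map (by fun_prop)

lemma isProb_gμ : IsProbabilityMeasure (gμ m A Λ) := by
  have : ∀ i : Fin (m + 1), IsProbabilityMeasure (gν A Λ i) := h.isProb_gν
  exact Measure.isProbabilityMeasure_map (by (clear * -; fun_prop))

lemma gν_Icc_le (i : Fin (m + 1)) (j : ℕ) {a b : ℝ} (hab : a ≤ b) :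
    gν A Λ i (Set.Icc a b) ≤ ENNReal.ofReal (cP Λ j * (b - a + 2 / A j)) := by
  unfold gν
  rw [Measure.map_apply (by fun_prop) measurableSet_Icc]
  have : (fun y : ℝ => y + (if i = 0 then (1:ℝ) else 0)) ⁻¹' Set.Icc a b
      = Set.Icc (a - (if i = 0 then 1 else 0)) (b - (if i = 0 then 1 else 0)) := by
    ext y
    simp only [Set.mem_preimage, Set.mem_Icc]
    constructor <;> rintro ⟨h1, h2⟩ <;> constructor <;> linarith
  rw [this]
  refine (h.ν_Icc_le j (by linarith)).trans ?_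
  apply ENNReal.ofReal_le_ofReal
  apply le_of_eq
  ring

lemma gμ_le (j : ℕ) (U : Set (E (m + 1))) {r : ℝ} (hr : 0 ≤ r) (hU : Metric.ediam U ≤ ENNReal.ofReal r) :
    gμ m A Λ U ≤ ENNReal.ofReal ((cP Λ j * (2 * r + 2 / A j)) ^ (m + 1)) := by
  have : ∀ i : Fin (m + 1), IsProbabilityMeasure (gν A Λ i) := h.isProb_gν
  rcases U.eq_empty_or_nonempty with rfl | ⟨x₀, hx₀⟩
  · simp only [measure_empty, zero_le]
  have hA := h.A_pos j
  have hsub : U ⊆ {x : E (m + 1) | ∀ i, x i ∈ Set.Icc (x₀ i - r) (x₀ i + r)} := by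
    intro x hx i
    have h1 : edist x x₀ ≤ ENNReal.ofReal r := (Metric.edist_le_ediam_of_mem hx hx₀).trans hU
    rw [edist_dist, ENNReal.ofReal_le_ofReal_iff hr, dist_eq_norm] at h1
    have h2 : |x i - x₀ i| ≤ r := by
      have h3 := PiLp.norm_apply_le (x - x₀) i
      rw [Real.norm_eq_abs] at h3
      exact h3.trans h1
    have h4 := abs_le.1 h2
    constructor <;> linarith only [h4]
  have hms : MeasurableSet {x : E (m + 1) | ∀ i, x i ∈ Set.Icc (x₀ i - r) (x₀ i + r)} :=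
    measurableSet_box_E _ fun _ => measurableSet_Icc
  refine (measure_mono hsub).trans ?_
  unfold gμ
  rw [Measure.map_apply (by (clear * -; fun_prop)) hms]
  have hpre : (MeasurableEquiv.toLp 2 (Fin (m + 1) → ℝ)) ⁻¹'
      {x : E (m + 1) | ∀ i, x i ∈ Set.Icc (x₀ i - r) (x₀ i + r)}
      = Set.pi Set.univ fun i => Set.Icc (x₀ i - r) (x₀ i + r) := by
    ext y
    rw [Set.mem_univ_pi]
    exact Iff.rfl
  rw [hpre, Measure.pi_pi]
  calc ∏ i, gν A Λ i (Set.Icc (x₀ i - r) (x₀ i + r))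
      ≤ ∏ i : Fin (m + 1), ENNReal.ofReal (cP Λ j * (2 * r + 2 / A j)) := by
        refine Finset.prod_le_prod' fun i _ => ?_
        refine (h.gν_Icc_le i j (by linarith only [hr])).trans ?_
        apply ENNReal.ofReal_le_ofReal
        apply le_of_eq
        ring
    _ = _ := by
        rw [Finset.prod_const, Finset.card_univ, Fintype.card_fin, ENNReal.ofReal_pow (by (clear * - hr hA; positivity))]

lemma A_tendsto : Tendsto A atTop atTop := by
  refine tendsto_atTop_mono (fun j => ?_) (tendsto_pow_atTop_atTop_of_one_lt (by norm_num : 1 < 2))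
  have h1 := h.Q_mul_P j
  calc 2 ^ j ≤ cQ A Λ j := h.Q_ge j
    _ ≤ cQ A Λ j * cP Λ j := Nat.le_mul_of_pos_right _ (h.P_pos j)
    _ = A j := h1

lemma gμ_singleton (U : Set (E (m + 1))) (hU : Metric.ediam U = 0) : gμ m A Λ U = 0 := by
  have h1 : ∀ j, gμ m A Λ U ≤ ENNReal.ofReal ((2 * (1 / 2) ^ j) ^ (m + 1)) := by
    intro j
    refine (h.gμ_le j U le_rfl (by simp [hU])).trans ?_
    apply ENNReal.ofReal_le_ofReal
    have hA := h.A_pos j
    have hQ : (0 : ℝ) < cQ A Λ j := by exact_mod_cast h.Q_pos j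
    have hP : (cQ A Λ j : ℝ) * cP Λ j = A j := by exact_mod_cast h.Q_mul_P j
    have hP0 : (0 : ℝ) < cP Λ j := by exact_mod_cast h.P_pos j
    have hQ2 : (2 : ℝ) ^ j ≤ cQ A Λ j := by exact_mod_cast h.Q_ge j
    have h2 : (cP Λ j : ℝ) * (2 * 0 + 2 / A j) = 2 / cQ A Λ j := by
      rw [← hP]; field_simp; ring
    rw [h2]
    gcongr
    calc 2 / (cQ A Λ j : ℝ) ≤ 2 / 2 ^ j := by (clear * - hQ2; gcongr)
      _ = 2 * (1 / 2) ^ j := by rw [one_div_pow]; ring
  have h2 : Tendsto (fun j : ℕ => ENNReal.ofReal ((2 * (1 / 2 : ℝ) ^ j) ^ (m + 1))) atTop (𝓝 0) := by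
    rw [← ENNReal.ofReal_zero]
    refine ENNReal.tendsto_ofReal ?_
    have h3 : Tendsto (fun j : ℕ => (2 * (1 / 2 : ℝ) ^ j) ^ (m + 1)) atTop
        (𝓝 ((2 * 0) ^ (m + 1))) :=
      ((tendsto_pow_atTop_nhds_zero_of_lt_one (by norm_num) (by norm_num)).const_mul 2).pow _
    simpa only [one_div, inv_pow, mul_zero, ne_eq, Nat.add_eq_zero_iff, one_ne_zero, and_false, not_false_eq_true,     zero_pow] using h3
  exact le_antisymm (ge_of_tendsto' h2 h1) bot_le

/-- The gauge measure of a set charged by the Cantor product measure is infinite. -/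
lemma mkMetric_eq_top {φ : ℝ≥0∞ → ℝ≥0∞}
    (hφ : ∀ j : ℕ, ∀ r : ℝ, 0 < r → r ≤ 1 / A j →
      ENNReal.ofReal ((j + 1) * (4 * cP Λ (j + 1) * r) ^ (m + 1)) ≤ φ (ENNReal.ofReal r))
    {F : Set (E (m + 1))} (hF : gμ m A Λ F ≠ 0) : Measure.mkMetric φ F = ⊤ := by
  have key : ∀ N : ℕ, (N : ℝ≥0∞) • gμ m A Λ ≤ Measure.mkMetric φ := by
    intro N
    refine Measure.le_mkMetric φ _ (ENNReal.ofReal (1 / A N)) (by simpa only [one_div, ENNReal.ofReal_pos, inv_pos, Nat.cast_pos] using h.pos N) ?_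
    intro U hU
    have hfin : Metric.ediam U ≠ ⊤ := ne_top_of_le_ne_top ENNReal.ofReal_ne_top hU
    rcases eq_or_ne (Metric.ediam U) 0 with h0 | h0
    · rw [Measure.smul_apply, h.gμ_singleton U h0, smul_zero]; exact bot_le
    set r := (Metric.ediam U).toReal with hr
    have hr0 : 0 < r := ENNReal.toReal_pos h0 hfin
    have hrU : Metric.ediam U = ENNReal.ofReal r := (ENNReal.ofReal_toReal hfin).symm
    have hrN : r ≤ 1 / A N := by
      rw [hrU, ENNReal.ofReal_le_ofReal_iff (by (clear * -; positivity))] at hU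
      exact hU
    have hex : ∃ j, 1 / (A j : ℝ) < r := by
      obtain ⟨j, hj⟩ := (h.A_tendsto.eventually (eventually_gt_atTop ⌈1 / r⌉₊)).exists
      refine ⟨j, ?_⟩
      have h1 : 1 / r < A j := (Nat.le_ceil _).trans_lt (by exact_mod_cast hj)
      rw [div_lt_iff₀ hr0] at h1
      rw [div_lt_iff₀ (h.A_pos j)]
      linarith only [h1]
    classical
    set j := Nat.find hex with hj
    have hj1 : 1 / (A j : ℝ) < r := Nat.find_spec hex
    have hjpos : j ≠ 0 := by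
      intro hj0
      rw [hj0] at hj1
      have h2 : A 0 ≤ A N := by
        have hmono : Monotone A := monotone_nat_of_le_succ fun i => by
          have := h.grow i
          have h3 : A i ≤ A i * Λ i := Nat.le_mul_of_pos_right _ (by have := h.two i; omega)
          omega
        exact hmono (Nat.zero_le _)
      have h3 : 1 / (A N : ℝ) ≤ 1 / A 0 := by
        apply one_div_le_one_div_of_le (h.A_pos 0)
        exact_mod_cast h2
      linarith only [hrN, hj1, h3]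
    obtain ⟨i, hi⟩ := Nat.exists_eq_succ_of_ne_zero hjpos
    have hi1 : r ≤ 1 / A i := by
      have := Nat.find_min hex (m := i) (by omega)
      push Not at this
      exact this
    have hNi : N ≤ i := by
      by_contra hc
      have h2 : A j ≤ A N := by
        have hmono : Monotone A := monotone_nat_of_le_succ fun i => by
          have := h.grow i
          have h3 : A i ≤ A i * Λ i := Nat.le_mul_of_pos_right _ (by have := h.two i; omega)
          omega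
        exact hmono (by omega)
      have h3 : 1 / (A N : ℝ) ≤ 1 / A j := by
        apply one_div_le_one_div_of_le (h.A_pos j)
        exact_mod_cast h2
      linarith only [hrN, hj1, h3]
    have hi2 : j = i + 1 := hi
    rw [Measure.smul_apply, hrU, smul_eq_mul]
    have h4 := h.gμ_le j U hr0.le hrU.le
    refine le_trans ?_ (hφ i r hr0 hi1)
    calc (N : ℝ≥0∞) * gμ m A Λ U
        ≤ ENNReal.ofReal (i + 1) * ENNReal.ofReal ((cP Λ j * (2 * r + 2 / A j)) ^ (m + 1)) := by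
          gcongr
          rw [← ENNReal.ofReal_natCast]
          apply ENNReal.ofReal_le_ofReal
          have : (N : ℝ) ≤ i := by exact_mod_cast hNi
          linarith only [this]
      _ = ENNReal.ofReal ((i + 1) * (cP Λ j * (2 * r + 2 / A j)) ^ (m + 1)) := by
          rw [ENNReal.ofReal_mul (by (clear * -; positivity))]
      _ ≤ _ := by
          apply ENNReal.ofReal_le_ofReal
          have hA := h.A_pos j
          have h5 : (cP Λ j : ℝ) * (2 * r + 2 / A j) ≤ 4 * cP Λ (i + 1) * r := by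
            rw [hi2] at hj1 ⊢
            have hP0 : (0 : ℝ) < cP Λ (i + 1) := by exact_mod_cast h.P_pos (i + 1)
            have h6 : 2 / (A (i + 1) : ℝ) = 2 * (1 / A (i + 1)) := by ring
            rw [h6]
            nlinarith only [hj1]
          (clear * - hr0 hA h5; gcongr)
  by_contra hne
  have hle : ∀ N : ℕ, (N : ℝ≥0∞) * gμ m A Λ F ≤ Measure.mkMetric φ F := fun N => by
    have := key N F
    simpa only [ge_iff_le, Measure.smul_apply, smul_eq_mul] using this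
  have : IsProbabilityMeasure (gμ m A Λ) := h.isProb_gμ
  obtain ⟨N, hN⟩ := ENNReal.exists_nat_mul_gt hF hne
  exact absurd (hle N) (not_le.2 hN)

lemma ae_gμ : ∀ᵐ x ∂(gμ m A Λ), ∀ i : Fin (m + 1),
    x i - (if i = 0 then 1 else 0) ∈ Set.Ico (0 : ℝ) 1 ∧
      ∀ j, Int.fract ((A j : ℝ) * x i) < 1 / Λ j := by
  have hprob : ∀ i : Fin (m + 1), IsProbabilityMeasure (gν A Λ i) := h.isProb_gν
  unfold gμ
  rw [(MeasurableEquiv.toLp 2 (Fin (m + 1) → ℝ)).measurableEmbedding.ae_map_iff, ae_all_iff]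
  intro i
  have h1 : ∀ᵐ y ∂(gν A Λ i), y - (if i = 0 then 1 else 0) ∈ Set.Ico (0 : ℝ) 1 ∧
      ∀ j, Int.fract ((A j : ℝ) * y) < 1 / Λ j := by
    unfold gν
    have hme : MeasurableEmbedding fun y : ℝ => y + (if i = 0 then (1:ℝ) else 0) :=
      measurableEmbedding_addRight _
    rw [hme.ae_map_iff]
    filter_upwards [h.ae_stripes] with y hy
    refine ⟨by rw [add_sub_cancel_right]; exact hy.1, fun j => ?_⟩
    have := hy.2 j
    split_ifs
    · rw [mul_add, mul_one, Int.fract_add_natCast]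
      exact this
    · rw [add_zero]
      exact this
  have h2 := (Measure.tendsto_eval_ae_ae (μ := gν (m := m) A Λ) (i := i)).eventually h1
  filter_upwards [h2] with x hx
  exact hx

end CantorData

end Vale.Agent.P076
end

section

/-!
Weighted integrability of the Fourier transform of a superposition of pieces supported in
shells `2^(k i) ≤ |ξ| < 2^(k i + w)` of width `w`.
-/

open MeasureTheory Complex FourierTransform Filter Topology

namespace Vale.Agent.P076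

variable {n : ℕ}

lemma measurableSet_wshell (a b : ℝ) : MeasurableSet {ξ : E n | a ≤ ‖ξ‖ ∧ ‖ξ‖ < b} :=
  (measurableSet_le measurable_const measurable_norm).inter
    (measurableSet_lt measurable_norm measurable_const)

lemma measurableSet_wshell' (a b : ℝ) :
    MeasurableSet {η : E n | a ≤ 2 * Real.pi * ‖η‖ ∧ 2 * Real.pi * ‖η‖ < b} :=
  (measurableSet_le measurable_const (measurable_norm.const_mul _)).inter
    (measurableSet_lt (measurable_norm.const_mul _) measurable_const)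

lemma setIntegral_hat_sq' (f : Lp ℂ 2 (volume : Measure (E n))) (a b : ℝ) :
    ∫ ξ in {ξ : E n | a ≤ ‖ξ‖ ∧ ‖ξ‖ < b}, ‖hat f ξ‖ ^ 2
      = (2 * Real.pi) ^ n * ∫ η in {η : E n | a ≤ 2 * Real.pi * ‖η‖ ∧ 2 * Real.pi * ‖η‖ < b},
        ‖(𝓕 f : Lp ℂ 2 (volume : Measure (E n))) η‖ ^ 2 := by
  have hpi : (0:ℝ) < 2 * Real.pi := by positivity
  rw [← integral_indicator (measurableSet_wshell a b), ← integral_indicator (measurableSet_wshell' a b)]
  have h1 : ∀ ξ : E n, Set.indicator {ξ : E n | a ≤ ‖ξ‖ ∧ ‖ξ‖ < b}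
      (fun ξ => ‖hat f ξ‖ ^ 2) ξ =
      (fun η => Set.indicator {η : E n | a ≤ 2 * Real.pi * ‖η‖ ∧
        2 * Real.pi * ‖η‖ < b}
        (fun η => ‖(𝓕 f : Lp ℂ 2 (volume : Measure (E n))) η‖ ^ 2) η) ((2 * Real.pi)⁻¹ • ξ) := by
    intro ξ
    have h2 : 2 * Real.pi * ‖(2 * Real.pi)⁻¹ • ξ‖ = ‖ξ‖ := by
      rw [norm_smul, Real.norm_of_nonneg (by positivity), ← mul_assoc,
        mul_inv_cancel₀ hpi.ne', one_mul]
    simp only [Set.indicator, Set.mem_ofPred_eq, h2, hat]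
    split_ifs <;> rfl
  simp_rw [h1]
  rw [Measure.integral_comp_inv_smul_of_nonneg _ _ hpi.le, finrank_euclideanSpace,
    Fintype.card_fin, smul_eq_mul]

section
variable {F : ℕ → E n → ℂ} {k : ℕ → ℕ} {w : ℕ}
  (hk : ∀ i, k i + w ≤ k (i + 1))
  (hsupp : ∀ i η, F i η ≠ 0 → 2 ^ (k i) ≤ 2 * Real.pi * ‖η‖ ∧ 2 * Real.pi * ‖η‖ < 2 ^ (k i + w))
include hk hsupp

lemma wide_unique {i j : ℕ} {η : E n} (hij : i ≠ j)
    (hi : (2:ℝ) ^ (k i) ≤ 2 * Real.pi * ‖η‖ ∧ 2 * Real.pi * ‖η‖ < 2 ^ (k i + w)) : F j η = 0 := by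
  by_contra h0
  have h2 := hsupp j η h0
  have hstep : ∀ a b : ℕ, a < b → k a + w ≤ k b := by
    intro a b hab
    obtain ⟨c, rfl⟩ := Nat.exists_eq_add_of_lt hab
    clear hab
    induction c with
    | zero => exact hk a
    | succ c ih => exact ih.trans ((Nat.le_add_right _ _).trans (hk (a + c + 1)))
  rcases lt_or_gt_of_ne hij with h | h
  · have h3 : (2 : ℝ) ^ (k i + w) ≤ 2 ^ (k j) := pow_le_pow_right₀ (by norm_num) (hstep i j h)
    linarith only [hi, h2, h3]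
  · have h3 : (2 : ℝ) ^ (k j + w) ≤ 2 ^ (k i) := pow_le_pow_right₀ (by norm_num) (hstep j i h)
    linarith only [hi, h2, h3]

lemma wide_integral_eq {g : E n → ℂ} (hg : ∀ᵐ η, HasSum (fun i => F i η) (g η)) (i : ℕ) :
    ∫ η in {η : E n | 2 ^ (k i) ≤ 2 * Real.pi * ‖η‖ ∧ 2 * Real.pi * ‖η‖ < 2 ^ (k i + w)}, ‖g η‖ ^ 2
      = ∫ η, ‖F i η‖ ^ 2 := by
  rw [← integral_indicator (measurableSet_wshell' _ _)]
  apply integral_congr_ae
  filter_upwards [hg] with η hη
  by_cases hm : η ∈ {η : E n | 2 ^ (k i) ≤ 2 * Real.pi * ‖η‖ ∧ 2 * Real.pi * ‖η‖ < 2 ^ (k i + w)}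
  · rw [Set.indicator_of_mem hm]
    have h1 : ∀ j ≠ i, F j η = 0 := fun j hj => wide_unique hk hsupp hj.symm hm
    rw [hη.unique (hasSum_single i h1)]
  · rw [Set.indicator_of_notMem hm]
    have : F i η = 0 := by
      by_contra h0
      exact hm (hsupp i η h0)
    simp [this]

omit hk in
lemma wide_support {f : Lp ℂ 2 (volume : Measure (E n))}
    (hf : ∀ᵐ η, HasSum (fun i => F i η) ((𝓕 f : Lp ℂ 2 (volume : Measure (E n))) η)) :
    ∀ᵐ ξ, hat f ξ ≠ 0 → ∃ i, 2 ^ k i ≤ ‖ξ‖ ∧ ‖ξ‖ < 2 ^ (k i + w) := by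
  have hpi : (0:ℝ) < 2 * Real.pi := by positivity
  filter_upwards [ae_smul hf (inv_ne_zero hpi.ne')] with ξ hξ hne
  have h1 : ∃ i, F i ((2 * Real.pi)⁻¹ • ξ) ≠ 0 := by
    by_contra! h
    apply hne
    have h2 : HasSum (fun i => F i ((2 * Real.pi)⁻¹ • ξ)) 0 := by
      simp_rw [h]; exact hasSum_zero
    exact hξ.unique h2
  obtain ⟨i, hi⟩ := h1
  have h2 : 2 * Real.pi * ‖(2 * Real.pi)⁻¹ • ξ‖ = ‖ξ‖ := by
    rw [norm_smul, Real.norm_of_nonneg (by positivity), ← mul_assoc,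
      mul_inv_cancel₀ hpi.ne', one_mul]
  have h3 := hsupp i _ hi
  rw [h2] at h3
  exact ⟨i, h3⟩

/-- weighted integrability -/
lemma integrable_wide {f : Lp ℂ 2 (volume : Measure (E n))}
    (hf : ∀ᵐ η, HasSum (fun i => F i η) ((𝓕 f : Lp ℂ 2 (volume : Measure (E n))) η))
    {v : ℝ → ℝ} (hvm : Measurable v) (hv0 : ∀ r, 0 ≤ v r) {W : ℕ → ℝ}
    (hW : ∀ i r, 2 ^ k i ≤ r → r < 2 ^ (k i + w) → v r ≤ W i)
    (hsum : Summable fun i => W i * ∫ η, ‖F i η‖ ^ 2) :
    Integrable (fun ξ => v ‖ξ‖ * ‖hat f ξ‖ ^ 2) := by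
  set S : ℕ → Set (E n) := fun i => {ξ : E n | 2 ^ k i ≤ ‖ξ‖ ∧ ‖ξ‖ < 2 ^ (k i + w)} with hS
  have hSm : ∀ i, MeasurableSet (S i) := fun i => measurableSet_wshell _ _
  have hmeas : AEStronglyMeasurable (fun ξ => v ‖ξ‖ * ‖hat f ξ‖ ^ 2) volume :=
    ((hvm.comp measurable_norm).mul
      ((stronglyMeasurable_hat f).measurable.norm.pow_const 2)).aestronglyMeasurable
  have hbd : ∀ i, ∀ ξ ∈ S i, v ‖ξ‖ * ‖hat f ξ‖ ^ 2 ≤ W i * ‖hat f ξ‖ ^ 2 := by
    intro i ξ hξ
    have := hW i ‖ξ‖ hξ.1 hξ.2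
    (clear * - this; gcongr)
  have hnn : ∀ ξ, 0 ≤ v ‖ξ‖ * ‖hat f ξ‖ ^ 2 := fun ξ => mul_nonneg (hv0 _) (by (clear * -; positivity))
  have hint : ∀ i, IntegrableOn (fun ξ => v ‖ξ‖ * ‖hat f ξ‖ ^ 2) (S i) := by
    intro i
    refine Integrable.mono' ((integrable_hat_sq f).const_mul (W i)).integrableOn
      hmeas.restrict ?_
    filter_upwards [ae_restrict_mem (hSm i)] with ξ hξ
    rw [Real.norm_of_nonneg (hnn ξ)]
    exact hbd i ξ hξ
  have hon : IntegrableOn (fun ξ => v ‖ξ‖ * ‖hat f ξ‖ ^ 2) (⋃ i, S i) := by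
    refine integrableOn_iUnion_of_summable_integral_norm hint ?_
    refine Summable.of_nonneg_of_le (fun i => integral_nonneg fun _ => norm_nonneg _) (fun i => ?_)
      (hsum.mul_left ((2 * Real.pi) ^ n))
    calc ∫ ξ in S i, ‖v ‖ξ‖ * ‖hat f ξ‖ ^ 2‖
        = ∫ ξ in S i, v ‖ξ‖ * ‖hat f ξ‖ ^ 2 := by
          congr 1; ext ξ; rw [Real.norm_of_nonneg (hnn ξ)]
      _ ≤ ∫ ξ in S i, W i * ‖hat f ξ‖ ^ 2 :=
          setIntegral_mono_on (hint i) ((integrable_hat_sq f).const_mul _).integrableOn (hSm i) (hbd i)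
      _ = W i * ∫ ξ in S i, ‖hat f ξ‖ ^ 2 := integral_const_mul _ _
      _ = (2 * Real.pi) ^ n * (W i * ∫ η, ‖F i η‖ ^ 2) := by
          simp only [hS]
          rw [setIntegral_hat_sq', wide_integral_eq hk hsupp hf i]
          ring
  refine hon.integrable_of_ae_notMem_eq_zero ?_
  filter_upwards [wide_support hsupp hf] with ξ hξ hmem
  have : hat f ξ = 0 := by
    by_contra h0
    obtain ⟨i, hi⟩ := hξ h0
    exact hmem (Set.mem_iUnion.2 ⟨i, hi⟩)
  simp [this]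

end

end Vale.Agent.P076
end

section

/-!
Divergence on a set of infinite gauge measure for a function in `H^{s_n}`.
-/

open MeasureTheory Complex FourierTransform Filter Topology
open scoped ENNReal NNReal

namespace Vale.Agent.P076

variable {m L κ : ℕ}

lemma bMn_ge : 64 ≤ bM m := by
  have := bM_ge (m := m)
  exact_mod_cast this

lemma nβ_pos (hL : 1 ≤ L) (hκ : 1 ≤ κ) : 0 < nβ m L κ := by
  have := bMn_ge (m := m)
  unfold nβ
  positivity

lemma dvd_nβ : κ ∣ nβ m L κ := by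
  unfold nβ
  exact Dvd.dvd.mul_right ((Dvd.intro_left _ rfl : κ ∣ bM m * κ).trans (dvd_pow_self _ (by norm_num))) _

lemma L_dvd (m' : ℕ) : L ∣ (bM m * (L * κ)) ^ (m' + 1) := by
  refine Dvd.dvd.trans ?_ (dvd_pow_self _ (by omega))
  exact (Dvd.intro _ rfl : L ∣ L * κ).mul_left _

lemma nβ_mul_dvd : nβ m L κ * L ∣ nD m L κ := by
  unfold nD
  exact Nat.mul_dvd_mul_left _ (L_dvd m)

lemma two_nβ_le (hL : 1 ≤ L) (hκ : 1 ≤ κ) : 2 * (nβ m L κ * L) ≤ nD m L κ := by
  unfold nD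
  have h1 : 2 * L ≤ (bM m * (L * κ)) ^ (m + 1) := by
    have h2 := bMn_ge (m := m)
    calc 2 * L ≤ bM m * (L * κ) := by
          have : L ≤ L * κ := Nat.le_mul_of_pos_right _ hκ
          nlinarith only [h2, this]
      _ = (bM m * (L * κ)) ^ 1 := (pow_one _).symm
      _ ≤ _ := Nat.pow_le_pow_right (by positivity) (by omega)
  calc 2 * (nβ m L κ * L) = nβ m L κ * (2 * L) := by ring
    _ ≤ _ := Nat.mul_le_mul_left _ h1

/-- thinness sequence -/
def gL (i : ℕ) : ℕ := ((i + 1) ^ 2 * 2 ^ (i + 1)) ^ 3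

lemma gL_two (i : ℕ) : 2 ≤ gL i := by
  unfold gL
  have h1 : 2 ≤ (i + 1) ^ 2 * 2 ^ (i + 1) := by
    have h2 : 2 ≤ 2 ^ (i + 1) := by
      calc 2 = 2 ^ 1 := rfl
        _ ≤ 2 ^ (i + 1) := Nat.pow_le_pow_right (by norm_num) (by omega)
    have h3 : 1 ≤ (i + 1) ^ 2 := Nat.one_le_pow _ _ (by omega)
    nlinarith
  calc 2 ≤ (i + 1) ^ 2 * 2 ^ (i + 1) := h1
    _ = ((i + 1) ^ 2 * 2 ^ (i + 1)) ^ 1 := (pow_one _).symm
    _ ≤ _ := Nat.pow_le_pow_right (by omega) (by omega)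

lemma gL_rpow (i : ℕ) {θ : ℝ} (hθ : 1 / 3 ≤ θ) :
    ((i : ℝ) + 1) ^ 2 * (gL i : ℝ) ^ (-θ) ≤ (1 / 2) ^ (i + 1) := by
  have h1 : (1 : ℝ) ≤ gL i := by
    have := gL_two i
    exact_mod_cast (by omega : 1 ≤ gL i)
  have h2 : (gL i : ℝ) ^ (-θ) ≤ (gL i : ℝ) ^ (-(1 / 3 : ℝ)) :=
    Real.rpow_le_rpow_of_exponent_le h1 (by linarith)
  have h3 : (gL i : ℝ) ^ (-(1 / 3 : ℝ)) = (((i : ℝ) + 1) ^ 2 * 2 ^ (i + 1))⁻¹ := by
    have h4 : (gL i : ℝ) = (((i : ℝ) + 1) ^ 2 * 2 ^ (i + 1)) ^ (3 : ℝ) := by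
      unfold gL; push_cast; norm_cast
    rw [h4, ← Real.rpow_mul (by positivity), show (3 : ℝ) * -(1 / 3) = -1 by norm_num,
      Real.rpow_neg_one]
  calc ((i : ℝ) + 1) ^ 2 * (gL i : ℝ) ^ (-θ) ≤ ((i : ℝ) + 1) ^ 2 * (((i : ℝ) + 1) ^ 2 * 2 ^ (i + 1))⁻¹ := by
        rw [← h3]; (clear * - h2; gcongr)
    _ = (1 / 2) ^ (i + 1) := by
        rw [one_div_pow]; field_simp

/-- thinness of the `j`-th stripe -/
def gΛ (j : ℕ) : ℕ := gL (j / 2)

/-- modulus of the `j`-th stripe -/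
def gA (β D : ℕ → ℕ) (j : ℕ) : ℕ := if j % 2 = 0 then β (j / 2) else D (j / 2)

lemma gA_even (β D : ℕ → ℕ) (i : ℕ) : gA β D (2 * i) = β i := by
  unfold gA
  rw [if_pos (by omega)]
  congr 1; omega

lemma gA_odd (β D : ℕ → ℕ) (i : ℕ) : gA β D (2 * i + 1) = D i := by
  unfold gA
  rw [if_neg (by omega)]
  congr 1; omega

lemma gΛ_even (i : ℕ) : gΛ (2 * i) = gL i := by unfold gΛ; congr 1; omega

lemma gΛ_odd (i : ℕ) : gΛ (2 * i + 1) = gL i := by unfold gΛ; congr 1; omega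

lemma cantorData_of {β D : ℕ → ℕ} (hβ : ∀ i, 0 < β i) (hD : ∀ i, 0 < D i)
    (h1 : ∀ i, β i * gL i ∣ D i) (h2 : ∀ i, 2 * (β i * gL i) ≤ D i)
    (h3 : ∀ i, D i * gL i ∣ β (i + 1)) (h4 : ∀ i, 2 * (D i * gL i) ≤ β (i + 1)) :
    CantorData (gA β D) gΛ := by
  have hpar : ∀ j : ℕ, ∃ i, j = 2 * i ∨ j = 2 * i + 1 := fun j => ⟨j / 2, by omega⟩
  refine ⟨fun j => ?_, fun j => gL_two _, fun j => ?_, fun j => ?_⟩
  · obtain ⟨i, rfl | rfl⟩ := hpar j
    · rw [gA_even]; exact hβ i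
    · rw [gA_odd]; exact hD i
  · obtain ⟨i, rfl | rfl⟩ := hpar j
    · rw [gA_even, gΛ_even, gA_odd]; exact h1 i
    · rw [gA_odd, gΛ_odd, show 2 * i + 1 + 1 = 2 * (i + 1) by ring, gA_even]; exact h3 i
  · obtain ⟨i, rfl | rfl⟩ := hpar j
    · rw [gA_even, gΛ_even, gA_odd]; exact h2 i
    · rw [gA_odd, gΛ_odd, show 2 * i + 1 + 1 = 2 * (i + 1) by ring, gA_even]; exact h4 i

/-- thresholds for the gauge -/
lemma exists_thr {φ : ℝ≥0∞ → ℝ≥0∞} {n : ℕ}
    (hφ : Tendsto (fun r => φ r / r ^ n) (𝓝[>] 0) (𝓝 ⊤)) (j : ℕ) :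
    ∃ N : ℕ, 1 ≤ N ∧ ∀ r : ℝ, 0 < r → r ≤ 1 / N →
      ENNReal.ofReal ((j + 1) * (4 * cP gΛ (j + 1) * r) ^ n) ≤ φ (ENNReal.ofReal r) := by
  set c : ℝ := (j + 1) * (4 * cP gΛ (j + 1)) ^ n with hc
  have hc0 : 0 ≤ c := by (clear * -; positivity)
  have h1 := hφ.eventually (lt_mem_nhds (ENNReal.ofReal_lt_top (r := c)))
  rw [eventually_iff, mem_nhdsGT_iff_exists_Ioo_subset' (u' := ⊤) (by simp)] at h1
  obtain ⟨δ, hδ, hsub⟩ := h1
  have hδ0 : (0 : ℝ≥0∞) < δ := hδ
  obtain ⟨N, hN⟩ := ENNReal.exists_inv_nat_lt hδ0.ne'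
  have hN0 : N ≠ 0 := by
    rintro rfl
    simp at hN
  refine ⟨N, Nat.one_le_iff_ne_zero.2 hN0, fun r hr hrN => ?_⟩
  have hNpos : (0:ℝ) < N := by exact_mod_cast Nat.pos_of_ne_zero hN0
  have hr0 : (0 : ℝ≥0∞) < ENNReal.ofReal r := by simpa using hr
  have hrδ : ENNReal.ofReal r < δ := by
    refine lt_of_le_of_lt ?_ hN
    rw [← ENNReal.ofReal_natCast, ← ENNReal.ofReal_inv_of_pos hNpos]
    apply ENNReal.ofReal_le_ofReal
    rw [← one_div]; exact hrN
  have h2 : ENNReal.ofReal c < φ (ENNReal.ofReal r) / ENNReal.ofReal r ^ n := hsub ⟨hr0, hrδ⟩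
  rw [ENNReal.lt_div_iff_mul_lt (Or.inl (by simpa only [ne_eq, pow_eq_zero_iff', ENNReal.ofReal_eq_zero, not_and, Decidable.not_not] using fun h =>     absurd h (not_le.2 hr)))
    (Or.inl (by simp))] at h2
  refine le_trans (le_of_eq ?_) h2.le
  rw [← ENNReal.ofReal_pow hr.le, ← ENNReal.ofReal_mul hc0]
  congr 1
  rw [hc, mul_pow _ r]
  ring

/-- recursion data: the two integer moduli of a block -/
def gP (thr : ℕ → ℕ) (i : ℕ) (d d' : ℕ × ℕ) : Prop :=
  0 < d'.1 ∧ 0 < d'.2 ∧ d'.1 * gL i ∣ d'.2 ∧ 2 * (d'.1 * gL i) ≤ d'.2 ∧ thr (2 * i) ≤ d'.1 ∧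
    thr (2 * i + 1) ≤ d'.2 ∧ (0 < d.2 → d.2 * gL (i - 1) ∣ d'.1 ∧ 2 * (d.2 * gL (i - 1)) ≤ d'.1)

lemma gP_step (m : ℕ) (thr : ℕ → ℕ) (i : ℕ) (d : ℕ × ℕ) (κ₀ : ℕ) :
    ∃ κ, κ₀ ≤ κ ∧ gP thr i d (nβ (m + 1) (gL i) κ, nD (m + 1) (gL i) κ) := by
  have hL : 1 ≤ gL i := by have := gL_two i; omega
  obtain ⟨a, ha⟩ : ∃ a, a = max 1 (d.2 * gL (i - 1)) := ⟨_, rfl⟩
  obtain ⟨b, hb⟩ : ∃ b, b = κ₀ + thr (2 * i) + thr (2 * i + 1) + 2 := ⟨_, rfl⟩
  have ha1 : 1 ≤ a := by rw [ha]; exact le_max_left _ _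
  have hκb : b ≤ a * b := Nat.le_mul_of_pos_left _ ha1
  obtain ⟨κ, hκ⟩ : ∃ κ, κ = a * b := ⟨_, rfl⟩
  have hκ1 : 1 ≤ κ := by omega
  obtain ⟨B, hB⟩ : ∃ B, B = nβ (m + 1) (gL i) κ := ⟨_, rfl⟩
  obtain ⟨D, hD⟩ : ∃ D, D = nD (m + 1) (gL i) κ := ⟨_, rfl⟩
  have hκβ : κ ∣ B := by rw [hB]; exact dvd_nβ
  have hβpos : 0 < B := by rw [hB]; exact nβ_pos hL hκ1
  have hκle : κ ≤ B := Nat.le_of_dvd hβpos hκβ
  have h1 : B * gL i ∣ D := by rw [hB, hD]; exact nβ_mul_dvd
  have h2 : 2 * (B * gL i) ≤ D := by rw [hB, hD]; exact two_nβ_le hL hκ1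
  have h3 : B ≤ B * gL i := Nat.le_mul_of_pos_right _ hL
  refine ⟨κ, by omega, ?_⟩
  rw [← hB, ← hD]
  refine ⟨hβpos, ?_, h1, h2, ?_, ?_, fun hd2 => ?_⟩
  · change 0 < D; omega
  · change thr (2 * i) ≤ B; omega
  · change thr (2 * i + 1) ≤ D; omega
  · have h4 : a = d.2 * gL (i - 1) := by
      have : 1 ≤ d.2 * gL (i - 1) := Nat.mul_pos hd2 (by have := gL_two (i - 1); omega)
      rw [ha]; exact max_eq_right this
    change d.2 * gL (i - 1) ∣ B ∧ 2 * (d.2 * gL (i - 1)) ≤ B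
    rw [← h4]
    refine ⟨(Dvd.intro b hκ.symm).trans hκβ, ?_⟩
    calc 2 * a = a * 2 := mul_comm _ _
      _ ≤ a * b := Nat.mul_le_mul_left _ (by omega)
      _ = κ := hκ.symm
      _ ≤ B := hκle

theorem gaugeDiv (m : ℕ) {φ : ℝ≥0∞ → ℝ≥0∞}
    (hφ : Tendsto (fun r => φ r / r ^ (m + 2)) (𝓝[>] 0) (𝓝 ⊤)) :
    ∃ (f : Lp ℂ 2 (volume : Measure (E (m + 2)))) (u : ℝ → E (m + 2) → ℂ),
      Integrable (fun ξ => (1 + ‖ξ‖ ^ 2) ^ sCrit (m + 2) * ‖hat f ξ‖ ^ 2) ∧
      (∀ t > 0, ∀ x, Tendsto (fun b => schrReg f t b x) (𝓝[>] 0) (𝓝 (u t x))) ∧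
      Measure.mkMetric φ {x : E (m + 2) | ∀ M : ℝ, ∃ᶠ t in 𝓝[>] (0 : ℝ), M < ‖u t x‖} = ⊤ := by
  choose thr hthr1 hthr using fun j => exists_thr hφ j
  have hsc : 0 < sCrit (m + 2) := by unfold sCrit; positivity
  set V : ℕ → ℝ := fun i => (i : ℝ) + 1 with hVdef
  have hV1 : ∀ i, 1 ≤ V i := fun i => by simp only [hVdef]; linarith only []
  set θ : ℝ := ((m + 1 : ℕ) : ℝ) / (((m + 1 : ℕ) : ℝ) + 2) with hθ
  have hθ3 : 1 / 3 ≤ θ := by
    rw [hθ, div_le_div_iff₀ (by norm_num) (by positivity)]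
    push_cast
    linarith only []
  set Γ : ℕ → ℕ → ℝ := fun i k => V i ^ 2 * (tC m * (gL i : ℝ) ^ (-θ)) *
    (2 : ℝ) ^ (-(2 * k * sCrit (m + 2))) with hΓdef
  have hΓ : ∀ i, Tendsto (Γ i) atTop (𝓝 0) := by
    intro i
    have h1 : Tendsto (fun k : ℕ => (2 : ℝ) ^ (-(2 * k * sCrit (m + 2)))) atTop (𝓝 0) := by
      have h2 : ∀ k : ℕ, (2 : ℝ) ^ (-(2 * k * sCrit (m + 2))) = ((2 : ℝ) ^ (-(2 * sCrit (m + 2)))) ^ k := by
        intro k
        rw [← Real.rpow_natCast, ← Real.rpow_mul (by norm_num)]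
        congr 1; ring
      simp_rw [h2]
      exact tendsto_pow_atTop_nhds_zero_of_lt_one (by positivity)
        (Real.rpow_lt_one_of_one_lt_of_neg (by norm_num) (by linarith only [hsc]))
    have := h1.const_mul (V i ^ 2 * (tC m * (gL i : ℝ) ^ (-θ)))
    rwa [mul_zero] at this
  obtain ⟨d, k, F, f, u, z, -, hd, hk, hFm, hFb, hFs, hFc, hf, hu, -, -, hdiv⟩ :=
    master (n := m + 2) (α := ℕ × ℕ) 2 (gP thr) (fun i d => thinSet m d.1 d.2 (gL i))
      (zone (m + 1)) V (fun i => 1 / (i + 1)) Γ Set.univ (fun i => one_pos.trans_le (hV1 i))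
      (fun i => by (clear * -; positivity)) hΓ
      (by
        intro i d B s₀ ε K hs₀ hε
        have hL : 1 ≤ gL i := by have := gL_two i; omega
        obtain ⟨κ₀, hκ₀, hblk⟩ := thin_block m hL (B := B) (hV1 i) hs₀ hε K
        obtain ⟨κ, hκ, hP⟩ := gP_step m thr i d κ₀
        obtain ⟨k, hk, F, s₁, hF⟩ := hblk κ hκ
        exact ⟨(nβ (m + 1) (gL i) κ, nD (m + 1) (gL i) κ), k, F, s₁, hP, hk, Set.mem_univ _, hF⟩)
      (1, 1) 0
  refine ⟨f, u, ?_, hu, ?_⟩
  · refine integrable_wide (w := 2) (fun i => (hk i).2.1) hFs hf (v := fun r => (1 + r ^ 2) ^ sCrit (m + 2))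
      ((measurable_const.add (measurable_id.pow_const 2)).pow_const _) (fun r => by (clear * -; positivity))
      (W := fun i => 32 * (2 : ℝ) ^ (2 * k i * sCrit (m + 2))) (fun i r h0 h1 => ?_) ?_
    · have hs1 : sCrit (m + 2) ≤ 1 := by
        unfold sCrit
        rw [div_le_one (by (clear * -; positivity))]
        push_cast
        linarith only []
      have h2k : (1 : ℝ) ≤ 2 ^ k i := one_le_pow₀ (by norm_num)
      have h3 : 1 + r ^ 2 ≤ 32 * (2 ^ k i) ^ 2 := by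
        have h3 : r ^ 2 ≤ (2 ^ (k i + 2)) ^ 2 := by
          have : 0 ≤ r := le_trans (by positivity) h0
          (clear * - this h1; gcongr)
        have h4 : ((2:ℝ) ^ (k i + 2)) ^ 2 = 16 * (2 ^ k i) ^ 2 := by rw [pow_add]; ring
        linarith only [h3, h4, one_le_pow₀ h2k (n := 2)]
      calc (1 + r ^ 2) ^ sCrit (m + 2) ≤ (32 * (2 ^ k i) ^ 2) ^ sCrit (m + 2) :=
            Real.rpow_le_rpow (by (clear * -; positivity)) h3 hsc.le
        _ = 32 ^ sCrit (m + 2) * (2 : ℝ) ^ (2 * k i * sCrit (m + 2)) := by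
            rw [Real.mul_rpow (by norm_num) (by positivity), ← pow_mul, ← Real.rpow_natCast 2 (k i * 2),
              ← Real.rpow_mul (by norm_num)]
            congr 2
            push_cast
            ring
        _ ≤ 32 ^ (1 : ℝ) * (2 : ℝ) ^ (2 * k i * sCrit (m + 2)) := by
            gcongr
            norm_num
        _ = _ := by rw [Real.rpow_one]
    · have hgeo : Summable fun i : ℕ => 32 * tC m * (1 / 2 : ℝ) ^ (i + 1) :=
        ((summable_nat_add_iff 1).2 (summable_geometric_of_lt_one (by norm_num) (by norm_num))).mul_left _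
      refine Summable.of_nonneg_of_le (fun i => ?_) (fun i => ?_) hgeo
      · have : 0 ≤ ∫ η, ‖F i η‖ ^ 2 := integral_nonneg fun _ => by (clear * -; positivity)
        (clear * -; positivity)
      · have h3 := hFc i
        simp only [hΓdef] at h3
        have htC := tC_pos (m := m)
        have hgL := gL_rpow i hθ3
        calc 32 * (2 : ℝ) ^ (2 * k i * sCrit (m + 2)) * ∫ η, ‖F i η‖ ^ 2
            ≤ 32 * (2 : ℝ) ^ (2 * k i * sCrit (m + 2)) * (V i ^ 2 * (tC m * (gL i : ℝ) ^ (-θ)) *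
              (2 : ℝ) ^ (-(2 * k i * sCrit (m + 2)))) := by (clear * - h3; gcongr)
          _ = 32 * tC m * (((i : ℝ) + 1) ^ 2 * (gL i : ℝ) ^ (-θ)) *
              ((2 : ℝ) ^ (2 * k i * sCrit (m + 2)) * (2 : ℝ) ^ (-(2 * k i * sCrit (m + 2)))) := by
              simp only [hVdef]
              ring
          _ = 32 * tC m * (((i : ℝ) + 1) ^ 2 * (gL i : ℝ) ^ (-θ)) := by
              rw [← Real.rpow_add (by norm_num), add_neg_cancel, Real.rpow_zero, mul_one]
          _ ≤ 32 * tC m * (1 / 2 : ℝ) ^ (i + 1) := by (clear * - hgL htC; gcongr)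
  · set β : ℕ → ℕ := fun i => (d (i + 1)).1 with hβ
    set D : ℕ → ℕ := fun i => (d (i + 1)).2 with hD
    have hdata : CantorData (gA β D) gΛ :=
      cantorData_of (fun i => (hd i).1) (fun i => (hd i).2.1) (fun i => (hd i).2.2.1)
        (fun i => (hd i).2.2.2.1)
        (fun i => ((hd (i + 1)).2.2.2.2.2.2 (hd i).2.1).1)
        (fun i => ((hd (i + 1)).2.2.2.2.2.2 (hd i).2.1).2)
    have hthrA : ∀ j, thr j ≤ gA β D j := by
      intro j
      obtain ⟨i, rfl | rfl⟩ : ∃ i, j = 2 * i ∨ j = 2 * i + 1 := ⟨j / 2, by omega⟩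
      · rw [gA_even]; exact (hd i).2.2.2.2.1
      · rw [gA_odd]; exact (hd i).2.2.2.2.2.1
    have hprob : IsProbabilityMeasure (gμ (m + 1) (gA β D) gΛ) := hdata.isProb_gμ
    refine hdata.mkMetric_eq_top (m := m + 1) (fun j r hr0 hr1 => ?_) ?_
    · refine hthr j r hr0 (hr1.trans ?_)
      have h1 : (0:ℝ) < thr j := by
        have := hthr1 j
        exact_mod_cast this
      apply one_div_le_one_div_of_le h1
      exact_mod_cast hthrA j
    · -- almost every point of the product measure diverges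
      have hae : ∀ᵐ x ∂(gμ (m + 1) (gA β D) gΛ),
          x ∈ {x : E (m + 2) | ∀ M : ℝ, ∃ᶠ t in 𝓝[>] (0 : ℝ), M < ‖u t x‖} := by
        filter_upwards [hdata.ae_gμ (m := m + 1)] with x hx
        have hzone : x ∈ zone (m + 1) := by
          refine ⟨?_, fun i => ?_⟩
          · have h1 := (hx 0).1
            rw [if_pos rfl] at h1
            exact ⟨by linarith only [h1.1], by linarith only [h1.2]⟩
          · have h1 := (hx i.succ).1
            rw [if_neg (Fin.succ_ne_zero i), sub_zero] at h1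
            exact ⟨h1.1, h1.2.le⟩
        have hthin : ∀ i, x ∈ thinSet m (d (i + 1)).1 (d (i + 1)).2 (gL i) := by
          intro i
          refine ⟨hzone, ?_, ?_⟩
          · have h1 := (hx 0).2 (2 * i)
            rwa [gA_even, gΛ_even] at h1
          · have h1 := (hx (Fin.last (m + 1))).2 (2 * i + 1)
            rwa [gA_odd, gΛ_odd] at h1
        intro M
        rw [frequently_iff]
        intro U hU
        obtain ⟨ε, hε, hεU⟩ := mem_nhdsGT_iff_exists_Ioo_subset.1 hU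
        have h1 : ∀ᶠ i : ℕ in atTop, (1:ℝ) / (i + 1) < ε :=
          tendsto_one_div_add_atTop_nhds_zero_nat.eventually (gt_mem_nhds hε)
        have h2 : ∀ᶠ i : ℕ in atTop, M + ‖z x‖ < V i / 2 := by
          obtain ⟨N, hN⟩ := exists_nat_ge (2 * (M + ‖z x‖))
          filter_upwards [eventually_ge_atTop N] with i hi
          have : (N : ℝ) ≤ i := by exact_mod_cast hi
          simp only [hVdef]
          linarith only [hN, this]
        obtain ⟨i, h3, h4, h5⟩ := (h1.and (h2.and (hdiv x hzone))).exists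
        obtain ⟨t, ht0, ht1, ht2⟩ := h5 (hthin i)
        refine ⟨t, hεU ⟨ht0, ht1.trans_lt h3⟩, ?_⟩
        have h6 := norm_sub_le (u t x) (z x)
        linarith only [h4, ht2, h6]
      intro h0
      have h1 : gμ (m + 1) (gA β D) gΛ Set.univ = 0 := by
        have h2 : (Set.univ : Set (E (m + 2))) ⊆
            {x : E (m + 2) | ∀ M : ℝ, ∃ᶠ t in 𝓝[>] (0 : ℝ), M < ‖u t x‖} ∪
            {x : E (m + 2) | ∀ M : ℝ, ∃ᶠ t in 𝓝[>] (0 : ℝ), M < ‖u t x‖}ᶜ := by simp
        refine measure_mono_null h2 (measure_union_null h0 ?_)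
        exact hae
      rw [measure_univ] at h1
      exact one_ne_zero h1

end Vale.Agent.P076
end

section

open MeasureTheory FourierTransform SchwartzMap TemperedDistribution
open scoped ContDiff

namespace Vale.Agent.P076

variable {E : Type*} [NormedAddCommGroup E] [InnerProductSpace ℝ E] [FiniteDimensional ℝ E]
  [MeasurableSpace E] [BorelSpace E]

lemma continuous_fourier {G : E → ℂ} (h1 : Integrable G) : Continuous (𝓕 G : E → ℂ) := by
  have : (𝓕 G : E → ℂ) = fun w => VectorFourier.fourierIntegral Real.fourierChar volume (innerₗ E) G w := rfl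
  rw [this]
  apply VectorFourier.fourierIntegral_continuous Real.continuous_fourierChar _ h1
  simp only [innerₗ_apply_apply]
  fun_prop

lemma integral_fourier_mul {φ G : E → ℂ} (hφ : Integrable φ) (h1 : Integrable G) :
    ∫ x, (𝓕 φ : E → ℂ) x • G x = ∫ x, φ x • (𝓕 G : E → ℂ) x := by
  have := VectorFourier.integral_fourierIntegral_smul_eq_flip (L := innerₗ E)
    (μ := (volume : Measure E)) (ν := (volume : Measure E)) Real.continuous_fourierChar
    (by simp only [innerₗ_apply_apply]; fun_prop) hφ h1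
  have hflip : (innerₗ E).flip = innerₗ E := by
    ext x y
    simp
  rw [hflip] at this
  exact this

lemma fourier_L2_ae_eq {G : E → ℂ} (h1 : Integrable G) (h2 : MemLp G 2) :
    (𝓕 (h2.toLp G) : Lp ℂ 2 (volume : Measure E)) =ᵐ[volume] (𝓕 G : E → ℂ) := by
  apply ae_eq_of_integral_contDiff_smul_eq
  · exact (Lp.memLp _).locallyIntegrable (by norm_num)
  · exact (continuous_fourier h1).locallyIntegrable
  · intro g g_smooth g_cpt
    have hg₁ : HasCompactSupport (Complex.ofRealCLM ∘ g) := g_cpt.comp_left rfl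
    have hg₂ : ContDiff ℝ ∞ (Complex.ofRealCLM ∘ g) := by (clear * - g_smooth; fun_prop)
    set φ := hg₁.toSchwartzMap hg₂ with hφ
    have e1 : ∫ x, g x • (𝓕 (h2.toLp G) : Lp ℂ 2 (volume : Measure E)) x
        = Lp.toTemperedDistribution (𝓕 (h2.toLp G) : Lp ℂ 2 (volume : Measure E)) φ := by
      rw [Lp.toTemperedDistribution_apply]
      rfl
    rw [e1, ← Lp.fourier_toTemperedDistribution_eq, TemperedDistribution.fourier_apply,
      Lp.toTemperedDistribution_apply]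
    have e2 : ∫ x, (𝓕 φ : 𝓢(E, ℂ)) x • (h2.toLp G) x = ∫ x, (𝓕 (φ : E → ℂ) : E → ℂ) x • G x := by
      apply integral_congr_ae
      filter_upwards [h2.coeFn_toLp] with x hx
      rw [hx, SchwartzMap.fourier_coe]
    rw [e2, integral_fourier_mul φ.integrable h1]
    rfl

end Vale.Agent.P076
end

section

open MeasureTheory Complex FourierTransform Filter Topology
open scoped ENNReal

namespace Vale.Agent.P076

variable {n : ℕ}

/-- the identification `ℝⁿ → EuclideanSpace` -/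
def toE (x : Fin n → ℝ) : E n := WithLp.toLp 2 x

lemma toE_apply (x : Fin n → ℝ) (i : Fin n) : toE x i = x i := rfl

lemma measurePreserving_toE : MeasurePreserving (toE (n := n)) volume volume :=
  PiLp.volume_preserving_toLp (Fin n)

lemma measurableEmbedding_toE : MeasurableEmbedding (toE (n := n)) :=
  (MeasurableEquiv.toLp 2 (Fin n → ℝ)).measurableEmbedding

lemma integral_toE {F : Type*} [NormedAddCommGroup F] [NormedSpace ℝ F] (G : E n → F) :
    ∫ x : Fin n → ℝ, G (toE x) = ∫ y, G y :=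
  measurePreserving_toE.integral_comp measurableEmbedding_toE G

lemma setIntegral_toE {F : Type*} [NormedAddCommGroup F] [NormedSpace ℝ F] (G : E n → F)
    (S : Set (E n)) : ∫ x in toE ⁻¹' S, G (toE x) = ∫ y in S, G y :=
  measurePreserving_toE.setIntegral_preimage_emb measurableEmbedding_toE G S

lemma nrm_eq (ξ : Fin n → ℝ) : nrm ξ = ‖toE ξ‖ := by
  unfold nrm
  rw [EuclideanSpace.norm_eq]
  simp only [toE_apply, Real.norm_eq_abs, sq_abs]

lemma inner_toE (x ξ : Fin n → ℝ) : inner ℝ (toE x) (toE ξ) = ∑ i, x i * ξ i := by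
  simp only [PiLp.inner_apply, toE_apply, RCLike.inner_apply, Real.ringHom_apply, mul_comm]

lemma ae_toE {p : E n → Prop} (h : ∀ᵐ x : E n, p x) : ∀ᵐ x : Fin n → ℝ, p (toE x) :=
  measurePreserving_toE.quasiMeasurePreserving.ae h

/-- the function on `Fin n → ℝ` -/
noncomputable def phys (f : Lp ℂ 2 (volume : Measure (E n))) (x : Fin n → ℝ) : ℂ := f (toE x)

/-- its Fourier transform on `Fin n → ℝ` -/
noncomputable def freq (f : Lp ℂ 2 (volume : Measure (E n))) (ξ : Fin n → ℝ) : ℂ := hat f (toE ξ)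

lemma evolve_freq (f : Lp ℂ 2 (volume : Measure (E n))) (t a : ℝ) (x : Fin n → ℝ) :
    evolve (freq f) t a x = schrReg f t a (toE x) := by
  unfold evolve schrReg freq
  rw [← integral_toE]
  push_cast
  congr 1
  refine integral_congr_ae (Eventually.of_forall fun ξ => ?_)
  simp only
  congr 2
  rw [inner_toE, nrm_eq]
  push_cast
  rfl

lemma shellL2_freq (f : Lp ℂ 2 (volume : Measure (E n))) (j : ℕ) :
    shellL2 (freq f) j = shellNorm f j := by
  unfold shellL2 shellNorm freq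
  congr 2
  rw [← setIntegral_toE]
  congr 2
  ext ξ
  simp only [Set.mem_preimage, Set.mem_ofPred_eq, nrm_eq]

lemma blowUp_of {f : Lp ℂ 2 (volume : Measure (E n))} {u : ℝ → E n → ℂ}
    (h1 : ∀ t > 0, ∀ x, Tendsto (fun b => schrReg f t b x) (𝓝[>] 0) (𝓝 (u t x)))
    (h2 : ∀ᵐ x, ∀ M : ℝ, ∃ᶠ t in 𝓝[>] (0 : ℝ), M < ‖u t x‖) : BlowUp (freq f) := by
  refine ⟨fun t x => u t (toE x), fun t ht x => ?_, ae_toE h2⟩
  simp_rw [evolve_freq]
  exact h1 t ht (toE x)

lemma memLp_hat (f : Lp ℂ 2 (volume : Measure (E n))) : MemLp (hat f) 2 :=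
  (memLp_two_iff_integrable_sq_norm (stronglyMeasurable_hat f).aestronglyMeasurable).2
    (integrable_hat_sq f)

/-- truncation to the cube `[-R, R]ⁿ` -/
noncomputable def trunc (f : E n → ℂ) (R : ℝ) : E n → ℂ := {x : E n | ∀ i, |x i| ≤ R}.indicator f

lemma measurableSet_absCube (R : ℝ) : MeasurableSet {x : E n | ∀ i, |x i| ≤ R} :=
  measurableSet_box_E (fun _ => {v : ℝ | |v| ≤ R}) fun _ =>
    measurableSet_le measurable_norm measurable_const

lemma volume_absCube (R : ℝ) : volume {x : E n | ∀ i, |x i| ≤ R} ≠ ⊤ := by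
  have : volume {x : E n | ∀ i, x i ∈ Set.Icc (-R) R} ≠ ⊤ := by
    rw [volume_box_E (fun _ => Set.Icc (-R) R) fun _ => measurableSet_Icc]
    simp only [Real.volume_Icc, sub_neg_eq_add, Finset.prod_const, Finset.card_univ, Fintype.card_fin, ne_eq, ENNReal.pow_eq_top_iff, ENNReal.ofReal_ne_top, false_and, not_false_eq_true]
  refine ne_top_of_le_ne_top this (measure_mono fun x hx i => ?_)
  exact abs_le.1 (hx i)

lemma memLp_trunc {f : E n → ℂ} (hf : MemLp f 2) (R : ℝ) : MemLp (trunc f R) 2 :=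
  hf.indicator (measurableSet_absCube R)

lemma integrable_trunc {f : E n → ℂ} (hf : MemLp f 2) (R : ℝ) : Integrable (trunc f R) := by
  unfold trunc
  rw [integrable_indicator_iff (measurableSet_absCube R)]
  have : IsFiniteMeasure (volume.restrict {x : E n | ∀ i, |x i| ≤ R}) :=
    ⟨by rw [Measure.restrict_apply_univ]; exact lt_top_iff_ne_top.2 (volume_absCube R)⟩
  exact (hf.restrict _).integrable (by norm_num)

lemma inner_integral_eq (f : Lp ℂ 2 (volume : Measure (E n))) (R : ℝ) (ξ : Fin n → ℝ) :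
    ∫ x in {x : Fin n → ℝ | ∀ i, |x i| ≤ R}, cexp (-(I * ∑ i, x i * ξ i)) * phys f x
      = (𝓕 (trunc f R) : E n → ℂ) ((2 * Real.pi)⁻¹ • toE ξ) := by
  rw [Real.fourier_eq']
  have h1 : (fun v : E n => cexp (((-2 * Real.pi * inner ℝ v ((2 * Real.pi)⁻¹ • toE ξ) : ℝ) : ℂ) * I)
      • trunc f R v) = {x : E n | ∀ i, |x i| ≤ R}.indicator fun v =>
        cexp (-(I * ((inner ℝ v (toE ξ) : ℝ) : ℂ))) * f v := by
    ext v
    unfold trunc
    by_cases hv : v ∈ {x : E n | ∀ i, |x i| ≤ R}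
    · rw [Set.indicator_of_mem hv, Set.indicator_of_mem hv, smul_eq_mul]
      congr 2
      rw [real_inner_smul_right]
      have : (Real.pi : ℂ) ≠ 0 := by exact_mod_cast Real.pi_ne_zero
      push_cast
      field_simp
    · rw [Set.indicator_of_notMem hv, Set.indicator_of_notMem hv, smul_zero]
  rw [h1, integral_indicator (measurableSet_absCube R), ← setIntegral_toE]
  refine setIntegral_congr_fun₀ ?_ ?_
  · exact (measurableSet_absCube R).preimage measurePreserving_toE.measurable |>.nullMeasurableSet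
  · intro x _
    simp only [phys]
    rw [inner_toE]

lemma tendsto_trunc {f : E n → ℂ} (hf : MemLp f 2) :
    Tendsto (fun R : ℝ => eLpNorm (fun x => f x - trunc f R x) 2 volume) atTop (𝓝 0) := by
  have h2 : ∫⁻ x, ‖f x‖ₑ ^ (2 : ℝ) ≠ ⊤ := by
    have := lintegral_rpow_enorm_lt_top_of_eLpNorm_lt_top (p := 2) (by norm_num) (by norm_num) hf.2
    simpa using this.ne
  obtain ⟨f', hf'm, hf'⟩ := hf.1
  have key : Tendsto (fun R : ℝ => ∫⁻ x, ‖f' x - trunc f' R x‖ₑ ^ (2 : ℝ)) atTop (𝓝 (∫⁻ _ : E n, 0)) := by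
    refine tendsto_lintegral_filter_of_dominated_convergence (fun x => ‖f' x‖ₑ ^ (2 : ℝ)) ?_ ?_ ?_ ?_
    · refine Eventually.of_forall fun R => ?_
      have : Measurable (trunc f' R) := hf'm.measurable.indicator (measurableSet_absCube R)
      exact ((hf'm.measurable.sub this).enorm).pow_const _
    · refine Eventually.of_forall fun R => Eventually.of_forall fun x => ?_
      unfold trunc
      by_cases hx : x ∈ {x : E n | ∀ i, |x i| ≤ R}
      · rw [Set.indicator_of_mem hx]; simp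
      · rw [Set.indicator_of_notMem hx]; simp
    · have h4 : ∫⁻ x, ‖f' x‖ₑ ^ (2 : ℝ) = ∫⁻ x, ‖f x‖ₑ ^ (2 : ℝ) := by
        refine lintegral_congr_ae ?_
        filter_upwards [hf'] with x hx
        rw [hx]
      rw [h4]
      exact h2
    · refine Eventually.of_forall fun x => ?_
      refine tendsto_const_nhds.congr' ?_
      filter_upwards [eventually_ge_atTop ‖x‖] with R hR
      have hx : x ∈ {x : E n | ∀ i, |x i| ≤ R} := by
        intro i
        have := PiLp.norm_apply_le x i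
        rw [Real.norm_eq_abs] at this
        exact this.trans hR
      unfold trunc
      rw [Set.indicator_of_mem hx]
      simp
  have h3 : ∀ R : ℝ, eLpNorm (fun x => f x - trunc f R x) 2 volume
      = (∫⁻ x, ‖f' x - trunc f' R x‖ₑ ^ (2 : ℝ)) ^ (1 / 2 : ℝ) := by
    intro R
    rw [eLpNorm_eq_lintegral_rpow_enorm_toReal (by norm_num) (by norm_num)]
    simp only [ENNReal.toReal_ofNat]
    congr 1
    refine lintegral_congr_ae ?_
    filter_upwards [hf'] with x hx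
    unfold trunc
    by_cases hx' : x ∈ {x : E n | ∀ i, |x i| ≤ R}
    · rw [Set.indicator_of_mem hx', Set.indicator_of_mem hx', hx]
    · rw [Set.indicator_of_notMem hx', Set.indicator_of_notMem hx', hx]
  simp_rw [h3]
  rw [lintegral_zero] at key
  have h5 := (ENNReal.continuous_rpow_const (y := (1 / 2 : ℝ))).continuousAt.tendsto.comp key
  rw [ENNReal.zero_rpow_of_pos (by norm_num)] at h5
  exact h5

theorem isFourierPair (f : Lp ℂ 2 (volume : Measure (E n))) : IsFourierPair (phys f) (freq f) := by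
  refine ⟨(Lp.memLp f).comp_measurePreserving measurePreserving_toE,
    (memLp_hat f).comp_measurePreserving measurePreserving_toE, ?_⟩
  set c : ℝ≥0∞ := ENNReal.ofReal |((((2 * Real.pi)⁻¹ : ℝ)) ^ Module.finrank ℝ (E n))⁻¹| with hc
  have hpi : (2 * Real.pi)⁻¹ ≠ (0 : ℝ) := by positivity
  have key : ∀ R : ℝ, eLpNorm (fun ξ => freq f ξ -
      ∫ x in {x | ∀ i, |x i| ≤ R}, cexp (-(I * ∑ i, x i * ξ i)) * phys f x) 2 volume
      = c ^ (1 / (2 : ℝ≥0∞)).toReal * eLpNorm (fun x => (f : E n → ℂ) x - trunc f R x) 2 volume := by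
    intro R
    simp_rw [inner_integral_eq f R]
    have hf2 := Lp.memLp f
    set g : Lp ℂ 2 (volume : Measure (E n)) := (memLp_trunc hf2 R).toLp _ with hg
    have hmeas : AEStronglyMeasurable (𝓕 (trunc f R) : E n → ℂ) volume :=
      (continuous_fourier (integrable_trunc hf2 R)).aestronglyMeasurable
    set H : E n → ℂ := fun η => (𝓕 f : Lp ℂ 2 (volume : Measure (E n))) η - (𝓕 (trunc f R) : E n → ℂ) η
      with hH
    have hHm : AEStronglyMeasurable H volume := (Lp.memLp _).1.sub hmeas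
    have e1 : eLpNorm (fun ξ : Fin n → ℝ => freq f ξ - (𝓕 (trunc f R) : E n → ℂ) ((2 * Real.pi)⁻¹ • toE ξ)) 2 volume
        = eLpNorm ((fun η : E n => H ((2 * Real.pi)⁻¹ • η)) ∘ toE) 2 volume := rfl
    have e2 : eLpNorm ((fun η : E n => H ((2 * Real.pi)⁻¹ • η)) ∘ toE) 2 (volume : Measure (Fin n → ℝ))
        = eLpNorm (fun η : E n => H ((2 * Real.pi)⁻¹ • η)) 2 volume := by
      rw [← measurePreserving_toE.map_eq, measurableEmbedding_toE.eLpNorm_map_measure]
    have e3 : eLpNorm (fun η : E n => H ((2 * Real.pi)⁻¹ • η)) 2 volume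
        = c ^ (1 / (2 : ℝ≥0∞)).toReal * eLpNorm H 2 volume := by
      have h5 := (Homeomorph.smulOfNeZero ((2 * Real.pi)⁻¹ : ℝ) hpi : E n ≃ₜ E n).measurableEmbedding
      have h6 := h5.eLpNorm_map_measure (g := H) (p := 2) (μ := (volume : Measure (E n)))
      have h7 : Measure.map (Homeomorph.smulOfNeZero ((2 * Real.pi)⁻¹ : ℝ) hpi : E n ≃ₜ E n) volume
          = c • (volume : Measure (E n)) := Measure.map_addHaar_smul _ hpi
      rw [h7, eLpNorm_smul_measure_of_ne_top (by norm_num), smul_eq_mul] at h6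
      exact h6.symm
    have e4 : eLpNorm H 2 volume = eLpNorm (fun x => (f : E n → ℂ) x - trunc f R x) 2 volume := by
      have h8 : H =ᵐ[volume] ((𝓕 (f - g) : Lp ℂ 2 (volume : Measure (E n))) : E n → ℂ) := by
        have h9 : (𝓕 (f - g) : Lp ℂ 2 (volume : Measure (E n))) = 𝓕 f - 𝓕 g := by
          exact (Lp.fourierTransformₗᵢ (E n) ℂ).map_sub f g
        rw [h9]
        filter_upwards [Lp.coeFn_sub (𝓕 f : Lp ℂ 2 (volume : Measure (E n))) (𝓕 g),
          fourier_L2_ae_eq (integrable_trunc hf2 R) (memLp_trunc hf2 R)] with η h10 h11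
        rw [h10, Pi.sub_apply, hg, h11]
      have h12 : (fun x => (f : E n → ℂ) x - trunc f R x) =ᵐ[volume] ((f - g : Lp ℂ 2 (volume : Measure (E n))) : E n → ℂ) := by
        filter_upwards [Lp.coeFn_sub f g, (memLp_trunc hf2 R).coeFn_toLp] with η h10 h11
        rw [h10, Pi.sub_apply, hg, h11]
      rw [eLpNorm_congr_ae h8, eLpNorm_congr_ae h12]
      have h13 : ‖(𝓕 (f - g) : Lp ℂ 2 (volume : Measure (E n)))‖ = ‖f - g‖ := Lp.norm_fourier_eq _
      rw [Lp.norm_def, Lp.norm_def] at h13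
      exact (ENNReal.toReal_eq_toReal_iff' (Lp.eLpNorm_ne_top _) (Lp.eLpNorm_ne_top _)).1 h13
    rw [e1, e2, e3, e4]
  simp_rw [key]
  have h14 := ENNReal.Tendsto.const_mul (a := c ^ (1 / (2 : ℝ≥0∞)).toReal) (tendsto_trunc (Lp.memLp f))
    (Or.inr (ENNReal.rpow_ne_top_of_nonneg (by positivity) ENNReal.ofReal_ne_top))
  simpa only [one_div, ENNReal.toReal_inv, ENNReal.toReal_ofNat, mul_zero] using h14

lemma critExp_eq (n : ℕ) : critExp n = sCrit n := rfl

end Vale.Agent.P076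
end
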